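import Crest.Agent.X212.Add46.Lv

/-!
# X212 / Hp13 (helper13): ADD-CMB, a piece cut along an inner wall
-/

set_option autoImplicit false
open Set

namespace Crest.Agent.X212.Hp13.Cmb
open M M.Sys

/-- **ADD-CMB** -/
theorem cmb : Add46.CmbStmt := by
  intro X A _ _ _ S c d π hc hd hπ
  refine ⟨fun h0 => ?_, fun a ⟨ha, hi⟩ => ?_⟩
  · have p : S.Piece c π := ⟨hπ.toIsReg, hπ.bd_subset.trans hd, fun a ha hi =>
      (h0.le ⟨ha, hi⟩).elim⟩
    refine ⟨p, eq_singleton_iff_unique_mem.2 ⟨⟨p, subset_rfl⟩, fun ρ ⟨h1, h2⟩ => ?_⟩⟩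
    obtain ⟨x, hx⟩ := h1.toIsReg.nonempty
    exact h1.unique hc p hx (h2 hx)
  have he : insert a d ⊆ c := insert_subset ha hd
  have ce : S.Cell (insert a d) := hc.mono he
  choose ρ p e using fun b => (existsUnique_adj ce (mem_insert a d) b).exists
  have sb : ∀ b, S.Sub (ρ b) π := fun b => by
    obtain ⟨x, hx⟩ := (S.w a).ne b
    exact hπ.sub (p b).toIsReg (hc.mono (union_subset hd ((p b).bd_subset.trans he)))
      (fun a' h => (p b).not_inn a' (mem_insert_of_mem _ h)) (hi.2.1 hx.1) ((p b).adj a b (e b) hx)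
  have bk : ∀ b a' b', a' ≠ a → ρ b a' = some b' → π a' = some b' := fun b a' b' n h =>
    ((sb b).bd_sub a' (mem_bd_of h)).elim (·.trans h) fun k =>
      (hπ.not_inn a' (((p b).bd_subset (mem_bd_of h)).resolve_left n) k).elim
  have sd : ∀ b, S.U (ρ b) ⊆ (S.w a).sd b := fun b x hx => hx a b (e b)
  have hU : ∀ b, S.U (ρ b) = S.U π ∩ (S.w a).sd b := fun b =>
    (subset_inter (sb b).subset (sd b)).antisymm fun x hx a' b' h => by
      by_cases n : a' = a
      · subst n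
        obtain rfl : b = b' := Option.some.inj ((e b).symm.trans h)
        exact hx.2
      · exact hx.1 a' b' (bk b a' b' n h)
  have ft : ∀ {s : Set X}, s.Nonempty → s ⊆ (S.w a).sd false → s ⊆ (S.w a).sd true → False :=
    fun ⟨_, hx⟩ h1 h2 => (S.w a).not_mem_sd (h1 hx) (h2 hx)
  have bn : ∀ a', (S.w a').band.Nonempty := fun a' => ((S.w a').ne true).mono inter_subset_left
  refine ⟨ρ, fun b => ⟨p b, e b, hU b⟩, fun a' b' n => ⟨fun h => ?_, fun ⟨b, h⟩ => bk b a' b' n h⟩,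
    fun a' n => ?_, ?_, disjoint_left.2 fun ρ' h1 h2 => ft h1.1.toIsReg.nonempty
      (h1.2.trans (sd _)) (h2.2.trans (sd _)), ?_, disjoint_left.2 fun a' h1 h2 => ft (bn a')
      (h1.2.1.trans (sd _)) (h2.2.1.trans (sd _)), fun b h => by simpa [e b] using h.1, fun b => ?_⟩
  · obtain ⟨b, hb⟩ := Wall.exists_side (hi.2.2 a' (mem_bd_of h))
    obtain ⟨y, hy⟩ := (S.w a').ne b'
    exact ⟨b, (p b).eq_some ce (mem_insert_of_mem _ (hπ.bd_subset (mem_bd_of h)))
      (hU b ▸ ⟨hπ.adj a' b' h hy, hb hy.1⟩) hy⟩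
  · by_contra k
    rw [not_or] at k
    exact ft (bn a') ((p _).toIsReg.band_subset n (e _) k.1) ((p _).toIsReg.band_subset n (e _) k.2)
  · ext ρ'
    refine ⟨fun h => ?_, fun h => h.elim (fun h => ⟨h.1, h.2.trans (sb _).subset⟩)
      fun h => ⟨h.1, h.2.trans (sb _).subset⟩⟩
    obtain ⟨b, hb⟩ := h.1.side hc ha
    have : S.U ρ' ⊆ S.U (ρ b) := hU b ▸ subset_inter h.2 hb
    cases b
    exacts [.inl ⟨h.1, this⟩, .inr ⟨h.1, this⟩]
  · ext a'
    refine ⟨fun h => ?_, ?_⟩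
    · by_cases n : a' = a
      · exact .inl n
      obtain ⟨b, hb⟩ := Wall.exists_side (hc ha h.1 (Ne.symm n))
      have z : ρ b a' = none := by_contra fun k =>
        hπ.not_inn a' (((p b).bd_subset k).resolve_left n) h.2
      have : a' ∈ S.inn (ρ b) := ⟨z, hU b ▸ subset_inter h.2.2.1 hb, fun a'' k =>
        hc h.1 (he ((p b).bd_subset k)) (by rintro rfl; exact k z)⟩
      cases b
      exacts [.inr (.inl ⟨h.1, this⟩), .inr (.inr ⟨h.1, this⟩)]
    · rintro (rfl | h | h)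
      exacts [⟨ha, hi⟩, ⟨h.1, (sb _).inn_sub h.2⟩, ⟨h.1, (sb _).inn_sub h.2⟩]
  · obtain ⟨ρ', h1, h2⟩ := (existsUnique_adj hc ha b).exists
    obtain ⟨x, hx⟩ := (S.w a).ne b
    exact ⟨ρ', h1, ((p b).sub h1.toIsReg (hc.mono (union_subset he h1.bd_subset))
      (fun a' h => h1.not_inn a' (he h)) ((p b).adj a b (e b) hx) (h1.adj a b h2 hx)).subset, h2⟩

end Crest.Agent.X212.Hp13.Cmb
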