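import Crest.Agent.X212.Pte3.Sol

/-!
# X212 / Hp13 (helper13): PT-DNP, density piece by piece
-/

set_option autoImplicit false
set_option linter.unusedSectionVars false
noncomputable section
open scoped Manifold ContDiff Topology InnerProductSpace
open MeasureTheory Set Function Filter

namespace Crest.Agent.X212.Wrd81
open An M Nd18 Sob92 Mod61 Hol14

variable {Wi : Type} {X : Mf 4} {A κ lam : Type} [Fintype A] [Fintype κ] [Fintype lam]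
  [DecidableEq lam] {M : Mark X A κ} {c : M.Cl} {W : World M} {Ll : ML M lam} {Λ : Lns W Ll}
  {A' h : Type} [Fintype A'] [DecidableEq A'] [Fintype h] {r n m : ℕ}
  {J : Job Wi Λ A' h r n} {σ : Cel A'} {T : Type} [NormedAddCommGroup T] [NormedSpace ℝ T]
  {𝔉 : Mod61.Fam (W.Z c).I (W.Z c).M (Option κ) (lam ⊕ lam) T} {p : Prt A A' h}

/-- density for a part, each piece rich or with onto curvature equation -/
theorem Lk.ontoP [CompleteSpace T] {Θ : Th 𝔉 r n m Wi} {Adm : (Wi →₀ ℝ) → Prop} (H : Θ.OK Adm)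
    {s : T → A' → ℝ} (L : Lk J σ 𝔉 p s Θ.e Θ.τ) {q : Wi →₀ ℝ} {x : Θ.X} (ha : Adm q)
    (hx : H.Q.Sol q x) (hz : p.P' = ∅ ∧ n = 0 ∨ x.2.z ≠ 0)
    (hT : ∀ π ∈ p.P, J.RichT (s x.2.t) π ∨ π ∉ p.P' ∧ ∀ e : (Θ.ref x.1).Y n m Θ.k, e.1 = 0 →
      e.2.2 = 0 → (∀ z ∉ W.pc c π, 𝔉.F0.val Θ.k _ e.2.1 z = 0) →
        e ∈ range (fderiv ℝ (Θ.F x.1 q) (x.2.pt Θ.k))) (hS : J.RichS (s x.2.t))
    (hF : ∀ π ∈ p.P', ∃ z ∈ W.pc c π, x.2.cfg.Φ z ≠ 0)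
    (hI : ∀ π ∈ p.P, π ∉ p.P' → ¬Lin (𝔉.G x.2.t).F x.2.cfg (W.pc c π) ∧
      ∃ z ∈ W.pc c π, x.2.cfg.m.Fg (𝔉.G x.2.t).F x.2.cfg.W z ≠ 0)
    {φ : EuclideanSpace ℂ (Fin r) → Fin m → ℝ}
    (hφ : ∀ y : Pnt (Θ.ref x.1) r, (Θ.e y.t).R y.cfg = φ y.z)
    (hR : ∀ ρ, ∃ ζ, HasDerivAt (fun s : ℝ => φ (x.2.z + s • ζ)) ρ 0) : ∃ S, H.Q.Onto q x S := by
  have a : x.2.z ≠ 0 → ∃ j, x.2.z j ≠ 0 := fun h =>
    by_contra fun k => h (by ext j; simpa using not_exists.1 k j)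
  have hk : 6 ≤ Θ.k := H.hk.trans' (by norm_num)
  have hf := H.repF x.1 q
  refine H.onto ha hx fun N n1 n2 n3 v => ?_
  have P := L.pin x.2 q
  have b : (q.sum fun w a => a • Θ.τ w) ∈ norS (Θ.ref x.1) := sum_mem fun w _ =>
    Submodule.smul_mem _ _ fun y => let ⟨_, _, h⟩ := L.τ w _ y.ht; (h y.cfg).2.2.2
  refine P.top L.fam hk hf ?_ n1 n2 ?_ (fun ρ => ?_) v
  · rw [compl_compl]
    refine Dn.loc L.fam fun z hz' => ?_
    obtain ⟨π, h1, h2⟩ := mem_un.1 (L.Om.le hz'.2)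
    have hπ := L.pc π h1
    have hK := Cyl58.isClopen_pc W.toCaps hπ
    have d : π ∉ p.P' → Disjoint (W.pc c π) 𝔉.Om' := fun k => by
      rw [L.Om', Caps.un, disjoint_iUnion₂_right]
      exact fun π' k' => Cyl58.disjoint_pc _ hπ (L.pc _ (L.sub k')) fun e => k (e ▸ k')
    refine ⟨_, hK, h2, (hT π h1).elim (fun t => Dn.mono L.fam (Ω := W.φ c '' M.sys.U π ∩ W.pc c π) ?_
      fun z hz => ⟨pc_tgt _ hπ hz.1, hz.1.2⟩) fun ⟨k, t⟩ => ⟨fun u _ b _ => ?_,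
        fun u a b c => Ap.of_mem a ⟨c, fun e e1 e2 e3 => ?_⟩⟩⟩
    · by_cases k : π ∈ p.P'
      · obtain ⟨j, j1⟩ := a (hz.resolve_left fun e => (e.1.le k).elim)
        exact dn_F L.fam hK (isOpen_img _ hπ) (null_pc _ hπ _) (pc_cmp _ hπ (hF π k)) (d := (J.tp c).co (.z j)) j1
          ((L.inv x.2 h1).rich rfl ((t.p j).mono subset_rfl fun _ => L.av n3))
      · exact dn_I L.fam hK (isOpen_img _ hπ) (null_pc _ hπ _) (d k) (Cyl58.isConnected_pc _ hπ).2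
          (hI π h1 k).1 (hI π h1 k).2
          ((L.inv x.2 h1).ad fun _ _ _ _ _ h1 h2 h3 => L.av n3 (t.a _ _ _ _ _ h1 h2 h3))
    · obtain rfl : u = 0 := tsupport_eq_empty_iff.1 (eq_empty_of_forall_notMem fun x hx =>
        (d k).ne_of_mem (b hx).1.2 (b hx).2 rfl)
      exact zero_mem _
    · obtain ⟨w, rfl⟩ := t e (val_injective L.fam.sup (by omega) (by rw [e1, indicator_zero', val_zero]))
        e3 fun z hz => by
          rw [e2]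
          exact indicator_apply_eq_zero.2 fun _ => image_eq_zero_of_notMem_tsupport fun k => hz (b k).1.2
      exact n2 w
  · rcases hz with ⟨-, rfl⟩ | h1
    · exact rows_of fun i => i.elim0
    · obtain ⟨j, h1⟩ := a h1
      exact rows_cz h1 fun i w => L.av n3 (hS i w j)
  · obtain ⟨ζ, h1⟩ := hR ρ
    exact ⟨_, n2 _, P.row L.fam hk hf ζ, row_z L.fam hk hf
      (fun y => by rw [Th.tot, Pi.add_apply, PtX.add_R, b y, add_zero, hφ]) h1⟩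

end Crest.Agent.X212.Wrd81

namespace Crest.Agent.X212.Pte3
open An M Nd18 Mod61 Nk89 Cht98 Rf65 Eqv71 Wrd81
open An.Job (SolOn unc_of)

variable {Wi : Type} {X : Mf 4} {A κ lam : Type} [Fintype A] [Fintype κ] [Fintype lam]
  [DecidableEq lam] {M : Mark X A κ} {W : World M} {N : ML M lam} {Λ : Lns W N}
  {A' h : Type} [Fintype A'] [DecidableEq A'] [Fintype h] {r n : ℕ}
  {J : Job Wi Λ A' h r n} {c : M.Cl} {σ : Cel A'} {p : Prt A A' h} {U : Type} [Fintype U] {δ : ℝ}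
  {b : Bp J c} {E : EC b p U δ} {Adm : (Wi →₀ ℝ) → Prop} {q : Wi →₀ ℝ}
  {y : J.Obc c} {x : Pnt E.o r} {ψ : E.K}

/-- **PT-DNP** -/
theorem CS.onto_P (H : CS σ E) {K : Pnt E.o r → Prop} {d : ℤ} (g : (H.th K d).OK Adm)
    (S : SolOn p σ q y) (f : Fre p y) (R : E.RepC y x ψ) (k : K x) (hb : b.s = y.s)
    (hR : CRich J c σ p) (hI : Job.In p y) (ha : Adm q)
    (hT : ∀ π ∈ p.P, (∀ s ∈ Job.cl σ, Sys.inf (J.Θ s).2 = c.1 → J.RichT s π) ∨ π ∉ p.P' ∧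
      ∀ f : E.o.C r 8 → E.o.Y n (min r 1) 8, RepF (EC.tot b p U δ q) f →
        ∀ e : E.o.Y n (min r 1) 8, e.1 = 0 → e.2.2 = 0 →
          (∀ z ∉ W.pc c π, (b.F p U δ).F0.val 8 E.o.P2 e.2.1 z = 0) →
            e ∈ range (fderiv ℝ f (x.pt 8))) : ∃ S, g.Q.Onto q ⟨(), x⟩ S := by
  obtain ⟨u, ζ, e, -⟩ := R.e
  have t : b.θ p U x.t ∈ Job.cl σ := ((θ_self (hb ▸ R.s)).trans hb).symm ▸ S.cell
  have z := (H.nz S R.s e).imp id fun k => norm_ne_zero_iff.1 (k.trans_ne one_ne_zero)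
  have s := fun π hπ => H.same (π := π) S R.s e hπ
  refine H.Lk.ontoP g ha ((g.sol_iff q ⟨(), x⟩).2 ⟨⟨H.free S R.s e f, k⟩, H.zr S R.s e⟩)
    (z.imp hR.z id) (fun π hπ => (hT π hπ).imp (· _ t (H.ovx x).2) fun a => ⟨a.1, a.2 _ (g.repF () q)⟩)
    (hR.S _ t (H.ovx x).2) (fun π hπ => (s π (H.pok.sub hπ)).sp.1 (hI.sp π hπ)) (fun π a b => ?_)
    (φ := fun z _ => ‖z‖ ^ 2 - 1)
    (fun y => funext fun _ => show (0 : ℝ) - 0 + (‖y.z‖ ^ 2 - 1) = _ by simp) (Kit16.row_min z)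
  have := not_or.1 (hI.ir π a b)
  rw [(s π a).lin, (s π a).flat] at this
  exact ⟨this.1, by_contra fun k => this.2 fun z hz => by_contra fun e => k ⟨z, hz, e⟩⟩

end Crest.Agent.X212.Pte3
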