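import Crest.Agent.X212.Nt66.Lv
import Crest.Agent.X212.Abx52.Main

/-!
# X212 / Hp13 (helper13): NT-RCJ, first order richness of the row of a cut
-/

set_option autoImplicit false
set_option linter.unusedSectionVars false
noncomputable section
open scoped Manifold ContDiff Topology InnerProductSpace Real
open MeasureTheory Set Function Filter

namespace Crest.Agent.X212.Hp13.Rcj
open An M Nd18 Mod61 Hol14 Prm93 Sob92 Nt66

section gen
variable {E : Type} [NormedAddCommGroup E] [NormedSpace ℝ E] [FiniteDimensional ℝ E]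
  [MeasurableSpace E] [BorelSpace E]
  {HM : Type} [TopologicalSpace HM] {I : ModelWithCorners ℝ E HM} [I.Boundaryless]
  {M : Type} [TopologicalSpace M] [ChartedSpace HM M] [IsManifold I ∞ M] [T2Space M]
  [MeasurableSpace M] [BorelSpace M] [SecondCountableTopology M]
  {ι : Type} [Fintype ι] {lam : Type} [Fintype lam] {T : Type} [NormedAddCommGroup T]
  [NormedSpace ℝ T] {𝔉 : Fam I M ι lam T} (h : 𝔉.OK) {o : Ref 𝔉} {r : ℕ} (x : Pnt o r)
  {α : M → Fm ι o.m.A} (hα : α ∈ Mod61.Hs 𝔉.F0.toPre o.P1)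
include h

theorem cb_of {V : Type} [NormedAddCommGroup V] [NormedSpace ℝ V] {f : M → V} (k : 𝔉.F0.Cb f) :
    (𝔉.G x.t).F.Cb f := (h.mix _ x.ht).Cb (fun a b => (h.sS a b).cb _ x.ht) k

theorem cb_W (a : ι) : (𝔉.G x.t).F.Cb (x.cfg.W a) := cb_of h x (by
  have := Cb_clm (Map77.oa a) (Map77.cb_uy h x)
  simp only [Map77.uy, Map77.oa_base] at this
  exact this)

theorem cb_Φ : (𝔉.G x.t).F.Cb x.cfg.Φ := cb_of h x (Cb_add o.cΦ (x.cφ h))

include hα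

theorem cb_a : (𝔉.G x.t).F.Cb fun z => idx (𝔉.S x.t z) (.id ℝ _) (α z) :=
  cb_of h x (Cb_app (Std94.Kl.idx (K := Std94.cbK 𝔉.F0.toPre) (fun a b => (h.sS a b).cb _ x.ht)
    (Cb_const _)) (Hs_cb h.sup hα))

theorem p1_a (z : M) : o.m.p1 𝔉.B z (idx (𝔉.S x.t z) (.id ℝ _) (α z)) = idx (𝔉.S x.t z) (.id ℝ _) (α z) :=
  Spn45.p1_iff.2 ⟨fun a => by
    rw [Eqv71.idx_apply]
    exact Submodule.sum_mem _ fun b _ => Submodule.smul_mem _ _ (idx_mem (Hs_proj h.sup hα z) b), fun a => by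
    simp only [Eqv71.idx_apply, Finset.smul_sum, smul_smul]
    rw [Finset.sum_comm]
    simp only [← Finset.sum_smul, h.PS _ x.ht]⟩

omit h hα in
theorem W_line (s : ℝ) : o.W x.t (x.α + s • α) =
    o.m.addC x.cfg.W (s • fun z => idx (𝔉.S x.t z) (.id ℝ _) (α z)) := by
  funext a z
  simp [Pnt.cfg, Ref.W, Md.addC, add_assoc]

omit h hα
variable (B : Base M ι lam) (F : Fr I M ι) (k : Cut M lam) (a b : ℕ) (u : ℂ) {K : Type} [Fintype K]
  {w : K → AW M} {t : K → ℝ}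

/-- the elementary operators -/
def Lc (m : Md M ι lam) : m.A →L[ℝ] CL (k.H B m) (k.H B m) := frkL _ _ a b ∘L
  ContinuousLinearMap.mulLeftRight ℝ _ (k.pi B F m k.x0 * csE m.J u) (k.pi B F m k.x0) ∘L opL

theorem tc_sum (c : Cfg M ι lam r) : ∑ j, t j • c.tc B F k ⟨a, b, u, .aw (w j)⟩ =
    Lc B F k a b u c.m (∑ j, t j • c.aw F (w j) k.x0) := by
  simp only [map_sum, map_smul]
  rfl

theorem der0 {X Y : Type} [NormedAddCommGroup X] [NormedSpace ℝ X] [NormedAddCommGroup Y]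
    [NormedSpace ℝ Y] (L : X →L[ℝ] Y) {f : ℝ → X} {ν : X} (hd : HasDerivAt f ν 0) :
    HasDerivAt (fun s => L (f s)) (L ν) 0 := L.hasFDerivAt.comp_hasDerivAt 0 hd

variable (w t) in
/-- the sum of the words -/
def Aw (m : Md M ι lam) (W : m.Cn) (Φ : M → m.V) (z : EuclideanSpace ℂ (Fin r)) : m.A :=
  ∑ j, t j • (⟨m, W, Φ, z⟩ : Cfg M ι lam r).aw F (w j) k.x0

theorem der_ln {ν : o.m.A} (x' : ℝ → Pnt o r) (e1 : ∀ s, (x' s).α = x.α + s • α)
    (e2 : ∀ s, (x' s).φ = x.φ) (e3 : ∀ s, (x' s).z = x.z) (e4 : ∀ s, (x' s).t = x.t)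
    (hd : HasDerivAt (fun s : ℝ => Aw F k w t o.m (o.m.addC x.cfg.W (s • fun z =>
      idx (𝔉.S x.t z) (.id ℝ _) (α z))) (fun z => (o.Φ0 + x.φ) z + (0 : M → o.m.V) z) x.z) ν 0)
    {f : ℝ → CL (k.H B o.m) (k.H B o.m)}
    (e : ∀ s, f s = ∑ j, t j • (x' s).cfg.tc B F k ⟨a, b, u, .aw (w j)⟩) :
    HasDerivAt f (Lc B F k a b u o.m ν) 0 := by
  have k1 := der0 (X := o.m.A) (Y := CL (k.H B o.m) (k.H B o.m)) (Lc B F k a b u o.m) hd
  refine (funext fun s => ?_ : f = _) ▸ k1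
  refine (e s).trans ((tc_sum B F k a b u (x' s).cfg).trans (congrArg (Lc B F k a b u o.m) ?_))
  show Aw F k w t o.m (o.W (x' s).t (x' s).α) (o.Φ0 + (x' s).φ) (x' s).z = _
  rw [e1, e2, e3, e4, W_line]
  congr 1
  exact funext fun z => (add_zero _).symm

end gen

section job
variable {Wi : Type} {X : Mf 4} {A κ lam : Type} [Fintype A] [Fintype κ] [Fintype lam]
  [DecidableEq lam] {M : Mark X A κ} {W : World M} {N : ML M lam} {Λ : Lns W N}
  {A' h : Type} [Fintype A'] [DecidableEq A'] [Fintype h] {r n : ℕ}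
  {J : Job Wi Λ A' h r n} {c : M.Cl}

theorem σc_sum {K : Type} [Fintype K] (w : K → Wi) (u : K → ℝ) (s : A' → ℝ) (l : h) (x) :
    J.σc c (∑ j, Finsupp.single (w j) (u j)) s l x = ∑ j, (u j * J.cc l (w j) s) •
      x.tc (J.B c) (J.G c s).F (J.cut c l) ((J.tp c).tc (J.tc l (w j))) := by
  rw [Job.σc, ← Finsupp.sum_finsetSum_index (fun _ => by simp) fun _ _ _ => by rw [add_mul, add_smul]]
  exact Finset.sum_congr rfl fun _ _ => Finsupp.sum_single_index (by simp)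

end job

open G75 Ins26 Jb7 Rf65 Cht98
variable {κ lam : Type} [Fintype κ] [Fintype lam] [DecidableEq lam] {Lm : LM κ lam}
  {S : Scene Lm} {D : S.Dat} {i : S.L} {Wi : Type} {r n : ℕ}
  {J : Job Wi (D.Λ i) (S.A ⊕ Unit) S.ls r n} {c : S.M.Cl} {δ : ℝ} {X : Finset S.A}
  {σ : Cel (S.A ⊕ Unit)} {Adm : (Wi →₀ ℝ) → Prop} {n₀ : ℤ} {q : Wi →₀ ℝ} {y : J.Obc c} {l : S.ls}
  {b : Bp J c} {E : EW J c X σ l b δ} {x : Pnt E.o r} {ψ : E.K}

theorem rcj_at (hF : ForStmt (D.W.Z c).I (D.W.Z c).M (Option κ) (lam ⊕ lam))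
    (C : Cx X σ Adm n₀ q y l E x ψ) : Rcj C := by
  rintro ξ ⟨A, -, fl, -⟩ α hα h0 ng
  have g := Abx52.sg C
  have pc := Abx52.pc C
  have U := Lns95.U_in g.sc l.2 (if_pos rfl) pc.toIsReg
  have om := Abx52.om_eq C
  have F := C.cs.F
  have a1 : (J.G c (b.θ _ _ x.t)).OK (J.B c) := F.G _ x.ht
  have a2 : ∃ C, (J.G c (b.θ _ _ x.t)).F.Tame C := F.tameG _ x.ht
  have a3 : ∀ a, (J.G c (b.θ _ _ x.t)).F.Cb (x.cfg.W a) := cb_W F x
  have a4 : (J.G c (b.θ _ _ x.t)).F.Cb x.cfg.Φ := cb_Φ F x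
  have a5 : (J.G c (b.θ _ _ x.t)).F.Cb _ := cb_a F x hα
  rw [C.θ] at a1 a2 a3 a4 a5
  have sup := g.cut_in.2.trans om.ge
  obtain ⟨K, w, t, ν, w1, w2, w3, w4, w5⟩ := hF r _ _ (Om D c l) x.cfg ξ _ (J.cut c l).x0 F.B a1 a2
    (Job.isClopen_un fun _ k => mem_singleton_iff.1 k ▸ pc) (by
      rw [Om, An.un_one]; exact (Cyl58.isConnected_pc _ pc).2) A a3 a4
    (by
      by_contra! k
      rw [flux_congr (w' := (0 : ℝ) • 0) fun z hz => by
        simp [Abel74.fm, Num57.fm2_apply, Abel74.fF, show E.o.m.Fg _ _ z = 0 from k z (sup hz)],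
        flux_smul, zero_mul, abs_zero] at fl
      exact Real.two_pi_pos.ne fl)
    a5 (p1_a F x hα) (fun z hz => (congrArg _ (h0 z hz)).trans (map_zero _)) ng (sup ⟨(0, 0), rfl⟩)
  refine ⟨ν, w4, w5, fun a a' u => ?_⟩
  have iv := (Wrd81.inv_tp (J := J) (Wrd81.br_of g.ok g.mem C.sol.ov) (Wrd81.U_src D.W.toCaps pc)).1
  rw [om, Lns95.Om, ← U] at w1
  choose v v1 v2 v3 v4 v5 using fun j => C.h1.rch.C _ C.sol.cell C.sol.inf _ pc l (g.nb.trans U.symm).le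
    ⟨a, a', u, .aw ((Wrd81.tq c J).aw (w j))⟩ (iv.toIn.aw (w1 j))
  have e : ∀ x' : Pnt E.o r, sg y.s l (∑ j, Finsupp.single (v j) (t j / J.cc l (v j) y.s)) x' =
      ∑ j, t j • x'.cfg.tc (J.B c) (J.G c y.s).F (J.cut c l) ⟨a, a', u, .aw (w j)⟩ := fun x' => by
    refine (σc_sum _ _ _ _ _).trans (Finset.sum_congr rfl fun j _ => ?_)
    simp only [div_mul_cancel₀ _ (v2 j), v1, Tp.tc, Tp.xi, iv.aw' (w1 j)]
  refine ⟨_, fun w hw => ?_, (e x).trans ((tc_sum _ _ _ _ _ _ _).trans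
    ((congrArg _ w2).trans (map_zero _))), ?_⟩
  · obtain ⟨j, -, k⟩ := Finsupp.mem_support_finsetSum _ hw
    obtain rfl := Finset.mem_singleton.1 (Finsupp.support_single_subset k)
    exact ⟨v3 j, v4 j, v5 j⟩
  · have k1 := der_ln (α := α) (ν := ν) (w := w) (t := t) x (J.B c) (J.G c y.s).F (J.cut c l) a a' u
      (ln x hα (zero_mem _)) (fun _ => rfl)
      (fun s => (congrArg (x.φ + ·) (smul_zero s)).trans (add_zero _)) (fun _ => rfl) (fun _ => rfl) w3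
      fun s => e _
    exact k1

/-- **RCJ** -/
theorem rcj (hF : ∀ Z : Mf 4, ForStmt Z.I Z.M (Option κ) (lam ⊕ lam)) : NfStmt Lm Rcj :=
  fun _ _ _ _ _ _ _ _ _ _ _ _ _ _ _ _ =>
    ⟨1, one_pos, fun _ _ => .of fun _ _ _ _ _ _ _ _ _ C => rcj_at (hF _) C⟩

end Crest.Agent.X212.Hp13.Rcj
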