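import Crest.Agent.X212.Hp13.RtM
import Crest.Agent.X212.Msi61.Rc1
import Crest.Agent.X212.Pte3.RdB

/-!
# X212 / Hp13 (helper13): NTR-RC, the word half
-/

set_option autoImplicit false
set_option linter.unusedSectionVars false
noncomputable section
open scoped Manifold ContDiff Topology InnerProductSpace Real
open MeasureTheory Set Function Filter

namespace Crest.Agent.X212.Hp13.Ht
open An M Nd18 Mod61 Rf65 Pte3 Hol14 Prm93 Sob92 Nt66 Hp13.Rcj Hp13.Rt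
open An.Job (Sol SolOn)
open Wrd81 (Tf wg wg_apply)
open Nt92 (cw lnW CvIn)

theorem alg {V : Type} [AddCommGroup V] (a b c : V) : a - (b + c) - (a - b) = -c := by abel

/-- derivatives at zero -/
abbrev HD {Y : Type} [NormedAddCommGroup Y] [NormedSpace ℝ Y] (f : ℝ → Y) (a : Y) : Prop :=
  HasDerivAt f a 0

theorem cg0 {Y : Type} [NormedAddCommGroup Y] [NormedSpace ℝ Y] {f g : ℝ → Y} {a : Y}
    (hf : HD f a) (e : ∀ s, g s = f s) : HD g a := (funext e : g = f) ▸ hf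

section job
variable {Wi : Type} {X : Mf 4} {A κ lam : Type} [Fintype A] [Fintype κ] [Fintype lam]
  [DecidableEq lam] {M : Mark X A κ} {W : World M} {N : ML M lam} {Λ : Lns W N}
  {A' h : Type} [Fintype A'] [DecidableEq A'] [Fintype h] {r n : ℕ}
  {J : Job Wi Λ A' h r n} {c : M.Cl} {σ : Cel A'} {p : Prt A A' h} {U : Type} [Fintype U] {δ : ℝ}
  {b : Bp J c} {E : EC b p U δ} {q q' : Wi →₀ ℝ} {y : J.Obc c} {s : A' → ℝ}
  {Q : ∀ x : Cfg (W.Z c).M (Option κ) (lam ⊕ lam) r, (W.Z c).M → Fm (Option κ × Option κ) x.m.A}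

variable (J s q' Q) in
/-- perturbations that only act on the curvature row -/
structure Cc : Prop where
  cc : ∀ w ∈ q'.support, ∀ i, J.cc i w s = 0
  D : ∀ x z, (fsum (J.τw c s) q').D x z = 0
  C : ∀ x z, (fsum (J.τw c s) q').C x z = x.m.p2 (J.B c) z (Q x z)
  S : ∀ x i, (fsum (J.τw c s) q').S x i = 0

theorem Cc.smul (k : Cc J q' s Q) (t : ℝ) : Cc J (t • q') s fun x z => t • Q x z := by
  refine ⟨fun w hw => k.cc w (Finsupp.support_smul hw), fun x z => ?_, fun x z => ?_, fun x z => ?_⟩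
  · rw [← smul_zero t, ← k.D x z]
    simp only [fsum]
    rw [Finsupp.sum_smul_index' fun _ => by simp, Finsupp.smul_sum]
    simp only [smul_eq_mul, mul_smul]
  · rw [map_smul, ← k.C x z]
    simp only [fsum]
    rw [Finsupp.sum_smul_index' fun _ => by simp, Finsupp.smul_sum]
    simp only [smul_eq_mul, mul_smul]
  · rw [← mul_zero (t : ℂ), ← k.S x z]
    simp only [fsum]
    rw [Finsupp.sum_smul_index' fun _ => by simp, Finsupp.mul_sum]
    simp only [smul_eq_mul, Complex.ofReal_mul, mul_assoc]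

theorem Cc.τ (k : Cc J q' s Q) (q) (x : Cfg (W.Z c).M (Option κ) (lam ⊕ lam) r) :
    (∀ z, (J.τ c (q + q') s).D x z = (J.τ c q s).D x z) ∧
    (∀ z, (J.τ c (q + q') s).C x z = (J.τ c q s).C x z + x.m.p2 (J.B c) z (Q x z)) ∧
    ∀ i, (J.τ c (q + q') s).S x i = (J.τ c q s).S x i := by
  refine ⟨fun z => ?_, fun z => ?_, fun z => ?_⟩
  · rw [← add_zero ((J.τ c q s).D x z), ← k.D x z]
    exact (congrArg (_ + ·) (Finsupp.sum_add_index' (fun _ => by simp)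
      fun _ _ _ => by simp [add_smul])).trans (add_assoc _ _ _).symm
  · rw [← k.C x z]
    exact (congrArg (_ + ·) (Finsupp.sum_add_index' (fun _ => by simp)
      fun _ _ _ => by simp [add_smul])).trans (add_assoc _ _ _).symm
  · rw [← add_zero ((J.τ c q s).S x z), ← k.S x z]
    exact (congrArg (_ + ·) (Finsupp.sum_add_index' (fun _ => by simp)
      fun _ _ _ => by simp [add_mul])).trans (add_assoc _ _ _).symm

theorem Cc.σc (k : Cc J q' s Q) (q i) (x : Cfg (W.Z c).M (Option κ) (lam ⊕ lam) r) :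
    J.σc c (q + q') s i x = J.σc c q s i x := by
  rw [Abx52.σc_add, Abx52.σc_zero fun w hw => k.cc w hw i, add_zero]

theorem Cc.sol (hP : PJ J c) (k : Cc J q' y.s Q) (h0 : ∀ z, y.x.m.p2 (J.B c) z (Q y.x z) = 0)
    (H : Sol σ q y) : Sol σ (q + q') y := by
  obtain ⟨a1, a2, a3⟩ := k.τ q y.x
  simp only [h0, add_zero] at a2
  refine ⟨H.cell, H.inf, ⟨H.sol.toAdm, fun z => (congrArg (_ - ·) (a1 z)).trans (H.sol.D z),
    fun z => (congrArg (_ - ·) (a2 z)).trans (H.sol.C z), fun i => (a3 i).trans (H.sol.S i)⟩, H.sub,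
    fun j hj => ⟨(H.cut j hj).1, (H.cut j hj).2.trans ?_⟩, H.drop, H.lim, H.crit, fun a ha => ?_,
    H.int, H.lev⟩
  · rw [k.σc]
  · have : ∀ q, (J.xs a).q q = 0 := fun q => by simp [Xs.q, (hP.nil a ha).2]
    rw [this, ← this q]
    exact H.brk a ha

theorem Cc.kp (hP : PJ J c) (k : Cc J q' y.s Q) (h0 : ∀ z, y.x.m.p2 (J.B c) z (Q y.x z) = 0) :
    q' ∈ Nr41.Kp σ y := fun _ H t => (k.smul t).sol hP (fun z => by rw [map_smul, h0, smul_zero]) H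

/-- the words -/
theorem cc_of (hJ : J.OK) (hσ : σ ∈ J.𝒦) (ov : J.Ov σ c s) {ρ : Reg A} (pc : M.sys.Piece c.1 ρ)
    (om : W.pc c ρ = W.φ c '' M.sys.U ρ) (hR : J.RichT s ρ) {g g' : (W.Z c).M → ℝ}
    (hg : Tf (W.Z c).I (W.pc c ρ) g) (hg' : Tf (W.Z c).I (W.pc c ρ) g') {w : AW (W.Z c).M →₀ ℝ}
    (hw : ∀ u ∈ w.support, CvIn (W.Z c).I (W.pc c ρ) u) : ∃ q', Cc J q' s fun x z =>
      wg (J.G c s).F x.m.A g g' z (w.sum fun u a => a • cw x.m (J.G c s).F x.W u z) := by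
  obtain ⟨χ, c1, c2⟩ := Wrd81.exists_tf_one (I := (W.Z c).I) hg.hcs (Cyl58.isClopen_pc _ pc).2 hg.sub
  have iv := (Wrd81.inv_tp (J := J) (Wrd81.br_of hJ hσ ov) (Wrd81.U_src W.toCaps pc)).1
  have aw : ∀ u : w.support, Wrd81.AwIn (W.Z c).I (W.φ c '' M.sys.U ρ) ⟨u.1.s, .mul χ :: u.1.l⟩ :=
    fun u => om ▸ ((hw u u.2).cons (t := .mul χ) c1).1
  rw [om] at hg hg'
  choose v v1 v2 v3 v4 using fun u : w.support => hR (.ad ((Wrd81.tq c J).f g) ((Wrd81.tq c J).f g')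
    ((Wrd81.tq c J).aw ⟨u.1.s, .mul χ :: u.1.l⟩)) ⟨iv.f _ hg, iv.f _ hg', iv.toIn.aw (aw u)⟩
    ⟨_, _, rfl⟩ trivial
  have e : ∀ u, (J.tp c).tm (J.tw (v u)) = .ad g g' ⟨u.1.s, .mul χ :: u.1.l⟩ := fun u => by
    rw [v1, Tp.tm, iv.tf _ hg, iv.tf _ hg', iv.aw' (aw u)]
  have sm : ∀ {V : Type} [AddCommGroup V] (f : Wi → ℝ → V), (∀ w, f w 0 = 0) →
      (∀ w a b, f w (a + b) = f w a + f w b) →
      (∑ u : w.support, Finsupp.single (v u) (w u / J.co (v u) s)).sum f =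
        ∑ u : w.support, f (v u) (w u / J.co (v u) s) := fun f h1 h2 => by
    rw [← Finsupp.sum_finsetSum_index h1 h2]
    exact Finset.sum_congr rfl fun _ _ => Finsupp.sum_single_index (h1 _)
  refine ⟨∑ u : w.support, Finsupp.single (v u) (w u / J.co (v u) s), fun a ha i => ?_,
    fun x z => ?_, fun x z => ?_, fun x z => ?_⟩
  · obtain ⟨j, -, k⟩ := Finsupp.mem_support_finsetSum _ ha
    obtain rfl := Finset.mem_singleton.1 (Finsupp.support_single_subset k)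
    exact v3 j i
  · refine (sm (fun w a => a • (J.τw c s w).D x z) (fun _ => by simp)
      fun _ _ _ => by simp [add_smul]).trans (Finset.sum_eq_zero fun u _ => ?_)
    simp [(Wrd81.τw_eq (c := c) (v4 u) x).1, e, Cfg.tD]
  · refine (sm (fun w a => a • (J.τw c s w).C x z) (fun _ => by simp)
      fun _ _ _ => by simp [add_smul]).trans ?_
    rw [Finsupp.sum, ← Finset.sum_coe_sort w.support, map_sum, map_sum]
    refine Finset.sum_congr rfl fun u _ => ?_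
    rw [(Wrd81.τw_eq (c := c) (v4 u) x).2.1, e, Pi.smul_apply, smul_smul, div_mul_cancel₀ _ (v2 u),
      map_smul, map_smul, wg_apply, ← Nt92.aw_eq x _ (hw u u.2)]
    refine congrArg (fun a => w u • x.m.p2 (J.B c) z (WithLp.toLp 2 a)) (funext fun t => ?_)
    show _ • χ z • x.aw (J.G c s).F u z = _
    by_cases hz : z ∈ tsupport g
    · rw [c2 z hz, one_smul]
    · rw [image_eq_zero_of_notMem_tsupport fun k => hz ((J.G c s).F.tsupport_D g t.1 k), zero_mul,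
        zero_smul, zero_smul]
  · refine (sm (fun w a => (a : ℂ) * (J.τw c s w).S x z) (fun _ => by simp)
      fun _ _ _ => by simp [add_mul]).trans (Finset.sum_eq_zero fun u _ => ?_)
    simp [(Wrd81.τw_eq (c := c) (v4 u) x).2.2, e, Cfg.tS]

variable (H : CS σ E) (x : Pnt E.o r) (ψ : E.K) {f g : E.C → E.Y}
include H

theorem Q_y (S : SolOn p σ q y) (R : E.RepC y x ψ) (hθ : b.θ p U x.t = y.s) (k : Cc J q' y.s Q)
    {z} (hz : z ∈ W.un c p.P) (h0 : Q x.cfg z = 0) : y.x.m.p2 (J.B c) z (Q y.x z) = 0 := by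
  obtain ⟨u, ζ, e, -⟩ := R.e
  have k' := H.cr S R.s e
  rw [hθ] at k'
  have a := (Eqv71.prel0_fsum (H.ok.τw_nat H.mem S.ov H.cl) q').C k' z hz
  rw [k.C, k.C, id, h0, map_zero] at a
  exact norm_eq_zero.1 ((k'.norm_p2 (H.ok.kt H.mem S.ov H.cl).toKC hz _).symm.trans
    (by rw [← a, norm_zero]))

theorem sub_C (hf : E.Map q f) (hg : E.Map (q + q') g) (k : Cc J q' (b.θ p U x.t) Q) :
    (g (x.pt 8, ψ) - f (x.pt 8, ψ)).1.1 = 0 ∧ (g (x.pt 8, ψ) - f (x.pt 8, ψ)).1.2.2 = 0 ∧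
    (g (x.pt 8, ψ) - f (x.pt 8, ψ)).2 = 0 ∧ ∀ z ∈ W.un c p.P,
      (b.F p U δ).F0.ev 8 E.o.P2 z (g (x.pt 8, ψ) - f (x.pt 8, ψ)).1.2.1 =
        -E.o.m.p2 (J.B c) z (Q x.cfg z) := by
  obtain ⟨a1, a2, a3⟩ := k.τ q x.cfg
  obtain ⟨b1, b2, b3, b4⟩ := tot_ev (b := b) (U := U) (δ := δ) (t := x.t) (q := q) x.cfg
  obtain ⟨c1, c2, c3, c4⟩ := tot_ev (b := b) (U := U) (δ := δ) (t := x.t) (q := q + q') x.cfg
  obtain ⟨f1, f2, f3, f4⟩ := hf.e x ψ
  obtain ⟨g1, g2, g3, g4⟩ := hg.e x ψ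
  refine ⟨sub_eq_zero.2 (val_injective H.F.sup (by norm_num) (g1.trans ((congrArg _
    (funext fun z => (c1 z).trans ((congrArg (_ - ·) (a1 z)).trans (b1 z).symm))).trans f1.symm))),
    sub_eq_zero.2 (Prod.ext (g3.trans ((funext fun i => (c3 i).trans ((congrArg _ (a3 i)).trans
      (b3 i).symm)).trans f3.symm)) (g4.trans ((c4.trans b4.symm).trans f4.symm))),
    sub_eq_zero.2 (Prod.ext (funext fun i => (hg.row x ψ i).trans (Eq.trans ?_ (hf.row x ψ i).symm))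
      (funext fun i => (hg.nrm x ψ i).trans (hf.nrm x ψ i).symm)), fun z hz => ?_⟩
  · exact congrArg (· (ψ i)) (congrArg₂ HSub.hSub rfl (k.σc q i x.cfg))
  · refine (map_sub _ _ _).trans ((congrArg₂ (· - ·)
      ((congrFun g2 z).trans ((indicator_of_mem hz _).trans ((c2 z).trans (congrArg (_ - ·) (a2 z)))))
      ((congrFun f2 z).trans ((indicator_of_mem hz _).trans (b2 z)))).trans ?_)
    exact alg (V := Fm (Option κ × Option κ) x.cfg.m.A) _ _ _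

theorem hit_job (hf : E.Map q f) (hg : E.Map (q + q') g) (hθ : b.θ p U x.t = s) (k : Cc J q' s Q) {α}
    (hα : α ∈ Mod61.Hs (b.F p U δ).F0.toPre E.o.P1) (η : E.K)
    (K : fderiv ℝ f (x.pt 8, ψ) ((ofV _ 9 _ α, 0, 0), η) = 0) {e : E.Y}
    (he : e = -fderiv ℝ g (x.pt 8, ψ) ((ofV _ 9 _ α, 0, 0), η)) :
    e.1.1 = 0 ∧ e.1.2.2 = 0 ∧ e.2 = 0 ∧ ∀ z ∈ W.un c p.P, ∀ d,
      HD (Y := Fm (Option κ × Option κ) E.o.m.A) (fun t => Q (ln x hα (zero_mem _) t).cfg z) d →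
      (b.F p U δ).F0.val 8 E.o.P2 e.1.2.1 z = E.o.m.p2 (J.B c) z d := by
  subst hθ
  have a := der_lnC H.F x hα (zero_mem _) hg.sm ψ η
  have a' := der_lnC H.F x hα (zero_mem _) hf.sm ψ η
  rw [ofV_zero H.F.sup (by norm_num)] at a a'
  rw [K] at a'
  have d0 := (a.sub a').neg
  rw [sub_zero, ← he] at d0
  have s := fun t : ℝ => sub_C H (ln x hα (zero_mem _) t) (ψ + t • η) hf hg k
  refine ⟨uq0 (der0 (X := E.Y) (.fst ℝ _ _ ∘L .fst ℝ _ _) d0) (hasDerivAt_const _ 0) fun t =>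
      neg_eq_zero.2 (s t).1,
    uq0 (der0 (X := E.Y) (.snd ℝ _ _ ∘L .snd ℝ _ _ ∘L .fst ℝ _ _) d0) (hasDerivAt_const _ 0) fun t =>
      neg_eq_zero.2 (s t).2.1,
    uq0 (der0 (X := E.Y) (.snd ℝ _ _) d0) (hasDerivAt_const _ 0) fun t => neg_eq_zero.2 (s t).2.2.1,
    fun z hz d hd => uq0 (der0 (X := E.Y) ((b.F p U δ).F0.ev 8 E.o.P2 z ∘L .fst ℝ _ _ ∘L .snd ℝ _ _ ∘L
      .fst ℝ _ _) d0) (der0 (E.o.m.p2 (J.B c) z) hd) fun t => ?_⟩
  exact (map_neg _ _).trans (neg_eq_iff_eq_neg.2 ((s t).2.2.2 z hz))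

theorem hit' (hf : E.Map q f) (hθ : b.θ p U x.t = y.s) (S : SolOn p σ q y) (R : E.RepC y x ψ)
    (hP : PJ J c) (St : Nr41.Stk σ q y x ψ f) (hu : W.un c p.P = univ) {ρ : Reg A}
    (pc : M.sys.Piece c.1 ρ) (om : W.pc c ρ = W.φ c '' M.sys.U ρ) (hR : J.RichT y.s ρ) {α}
    (hα : α ∈ Mod61.Hs (b.F p U δ).F0.toPre E.o.P1) (η : E.K)
    (K : fderiv ℝ f (x.pt 8, ψ) ((ofV _ 9 _ α, 0, 0), η) = 0) {g g' : (W.Z c).M → ℝ}
    (hg : Tf (W.Z c).I (W.pc c ρ) g) (hg' : Tf (W.Z c).I (W.pc c ρ) g') {d : (W.Z c).M → E.o.m.A}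
    (nd : Nt92.ND (W.Z c).I E.o.m (J.G c y.s).F x.cfg.W (Nr41.fa E x.t α) (W.pc c ρ) d) :
    ∃ e ∈ range (Nr41.Ld f x ψ), Nr41.Tg ∅ (W.pc c ρ) ∅ e ∧ ∀ z ∈ W.pc c ρ,
      Nr41.vC e z = E.o.m.p2 (J.B c) z (wg (J.G c y.s).F E.o.m.A g g' z (d z)) := by
  refine nd.elim fun w n => (cc_of H.ok H.mem S.ov pc om hR hg hg' n.1).elim fun q' k => ?_
  refine (St.st q' (k.kp hP fun z => Q_y H x ψ S R hθ k (hu.ge trivial)
    ((congrArg _ (n.2.1 z)).trans (map_zero _)))).elim fun G hG => (hG.2 _ K).elim fun v hv => ?_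
  have a := hit_job H x ψ hf hG.1 hθ k hα η K rfl
  have b' := fun z => a.2.2.2 z (hu.ge trivial) _ (by
    have := der0 (wg (J.G c y.s).F E.o.m.A g g' z) (n.2.2.2 z)
    exact cg0 this fun t => congrArg (fun V => wg (J.G c y.s).F E.o.m.A g g' z
      (w.sum fun u a => a • cw E.o.m (J.G c y.s).F V u z)) (W_line x t))
  refine ⟨_, ⟨-v, (map_neg _ v).trans (congrArg _ hv)⟩, ⟨fun z _ => ?_, fun z hz => (b' z).trans ?_, a.2.1,
    fun i _ => ⟨congrArg (·.1 i) a.2.2.1, congrArg (·.2 i) a.2.2.1⟩⟩, fun z _ => b' z⟩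
  · exact (congrArg (fun u => (b.F p U δ).F0.val 8 E.o.Pm u z) a.1).trans (congrFun val_zero z)
  · rw [wg_apply]
    refine (congrArg (fun a => E.o.m.p2 (J.B c) z (WithLp.toLp 2 a)) (funext fun t => ?_)).trans
      (map_zero _)
    rw [image_eq_zero_of_notMem_tsupport fun k => hz (hg.sub ((J.G c y.s).F.tsupport_D g t.1 k)),
      zero_mul, zero_smul]
    rfl

end job

open G75 Ins26 Jb7 Nr41

variable {κ lam : Type} [Fintype κ] [Fintype lam] [DecidableEq lam]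

/-- **the word half of RC** -/
theorem hit (Lm : LM κ lam) : All Lm Msi61.Rc.Hit := fun _ _ _ _ _ _ _ _ _ _ =>
  ⟨1, one_pos, fun _ _ _ _ _ _ _ _ _ _ _ C _ hf St _ hα η K _ _ hg hg' _ nd =>
    hit' C.cs _ _ hf C.θ (solOn C) C.ch.rep C.an.pj St (Abx52.un_two C.one) (pc C false)
      (pc_eq C.one C.np (pc C false)) (Pte3.Rd.richI C) (ha C hα).1 η K hg hg' nd⟩

/-- **LEAF RC** -/
theorem rchC (Lm : LM κ lam) : All Lm RchC := Msi61.Rc.rchC Lm (hit Lm)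

end Crest.Agent.X212.Hp13.Ht
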