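import Crest.Agent.X212.Hp13.Rt
import Crest.Agent.X212.Cqn41.Nr0

/-!
# X212 / Hp13 (helper13): NTR-MAP, the maps of a chart are affine in the perturbation
-/

set_option autoImplicit false
set_option linter.unusedSectionVars false
noncomputable section
open scoped Manifold ContDiff Topology InnerProductSpace Real
open MeasureTheory Set Function Filter

namespace Crest.Agent.X212.Hp13.Mp
open An M Nd18 Mod61 Rf65 Pte3 Nt66 Hp13.Rt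

theorem aff3 {V : Type} [AddCommGroup V] [Module ℝ V] {a₁ a₂ a₃ : ℝ} (e : a₁ + a₂ + a₃ = 1)
    (u v₁ v₂ v₃ : V) : u + (a₁ • v₁ + a₂ • v₂ + a₃ • v₃) =
      a₁ • (u + v₁) + a₂ • (u + v₂) + a₃ • (u + v₃) := by
  rw [show a₃ = 1 - a₁ - a₂ by linarith]
  module

theorem aff3' {V : Type} [AddCommGroup V] [Module ℝ V] {a₁ a₂ a₃ : ℝ} (e : a₁ + a₂ + a₃ = 1)
    (u v₁ v₂ v₃ : V) : u - (a₁ • v₁ + a₂ • v₂ + a₃ • v₃) =
      a₁ • (u - v₁) + a₂ • (u - v₂) + a₃ • (u - v₃) := by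
  rw [show a₃ = 1 - a₁ - a₂ by linarith]
  module

theorem fd3 {X Y : Type} [NormedAddCommGroup X] [NormedSpace ℝ X] [NormedAddCommGroup Y]
    [NormedSpace ℝ Y] {O : Set X} (hO : IsOpen O) {v : X} (hv : v ∈ O) {f₁ f₂ f₃ g : X → Y}
    (h₁ : ContDiffOn ℝ ∞ f₁ O) (h₂ : ContDiffOn ℝ ∞ f₂ O) (h₃ : ContDiffOn ℝ ∞ f₃ O) (a₁ a₂ a₃ : ℝ)
    (e : EqOn g (a₁ • f₁ + a₂ • f₂ + a₃ • f₃) O) :
    fderiv ℝ g v = a₁ • fderiv ℝ f₁ v + a₂ • fderiv ℝ f₂ v + a₃ • fderiv ℝ f₃ v :=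
  have k : ∀ {f : X → Y}, ContDiffOn ℝ ∞ f O → HasFDerivAt f (fderiv ℝ f v) v := fun h =>
    ((h.contDiffAt (hO.mem_nhds hv)).differentiableAt (by simp)).hasFDerivAt
  (((((k h₁).const_smul a₁).add ((k h₂).const_smul a₂)).add
    ((k h₃).const_smul a₃)).congr_of_eventuallyEq (eventually_of_mem (hO.mem_nhds hv) e)).fderiv

theorem sm3 {X Y : Type} [NormedAddCommGroup X] [NormedSpace ℝ X] [NormedAddCommGroup Y]
    [NormedSpace ℝ Y] {O : Set X} {f₁ f₂ f₃ : X → Y}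
    (h₁ : ContDiffOn ℝ ∞ f₁ O) (h₂ : ContDiffOn ℝ ∞ f₂ O) (h₃ : ContDiffOn ℝ ∞ f₃ O) (a₁ a₂ a₃ : ℝ) :
    ContDiffOn ℝ ∞ (a₁ • f₁ + a₂ • f₂ + a₃ • f₃) O :=
  ((h₁.const_smul a₁).add (h₂.const_smul a₂)).add (h₃.const_smul a₃)

theorem lin_of {P Y : Type} [AddCommGroup P] [Module ℝ P] [AddCommGroup Y] [Module ℝ Y] (L : P → Y)
    (h : ∀ (a₁ a₂ a₃ : ℝ) q₁ q₂ q₃, a₁ + a₂ + a₃ = 1 →
      L (a₁ • q₁ + a₂ • q₂ + a₃ • q₃) = a₁ • L q₁ + a₂ • L q₂ + a₃ • L q₃) :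
    ∃ D : P →ₗ[ℝ] Y, ∀ q q', L (q + q') = L q + D q' := by
  have k : ∀ q q', L (q + q') = L q + (L q' - L 0) := fun q q' => by
    have := h 1 1 (-1) q q' 0 (by ring)
    rw [smul_zero, add_zero, one_smul, one_smul] at this
    rw [this]
    module
  refine ⟨⟨⟨fun q => L q - L 0, fun q q' => by rw [k]; abel⟩, fun t q => ?_⟩, k⟩
  have := h t (1 - t) 0 q 0 0 (by ring)
  rw [smul_zero, smul_zero, add_zero, add_zero] at this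
  simp only [this, RingHom.id_apply]
  module

variable {Wi : Type} {X : Mf 4} {A κ lam : Type} [Fintype A] [Fintype κ] [Fintype lam]
  [DecidableEq lam] {M : Mark X A κ} {W : World M} {N : ML M lam} {Λ : Lns W N}
  {A' h : Type} [Fintype A'] [DecidableEq A'] [Fintype h] {r n : ℕ}
  {J : Job Wi Λ A' h r n} {c : M.Cl} {σ : Cel A'} {p : Prt A A' h} {U : Type} [Fintype U] {δ : ℝ}
  {b : Bp J c} {E : EC b p U δ} {q₁ q₂ q₃ : Wi →₀ ℝ} {f₁ f₂ f₃ : E.C → E.Y} {a₁ a₂ a₃ : ℝ}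
  (e : a₁ + a₂ + a₃ = 1)
include e

theorem tot3 : EC.tot b p U δ (a₁ • q₁ + a₂ • q₂ + a₃ • q₃) =
    a₁ • EC.tot b p U δ q₁ + a₂ • EC.tot b p U δ q₂ + a₃ • EC.tot b p U δ q₃ := by
  have k : ∀ q, EC.tot b p U δ q = b.e p U δ + Finsupp.linearCombination ℝ (b.τ p U) q := fun _ => rfl
  simp only [k, map_add, map_smul]
  exact aff3 e _ _ _ _

theorem row3 (x : Pnt E.o r) (i : p.H) : E.row (a₁ • q₁ + a₂ • q₂ + a₃ • q₃) x i =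
    a₁ • E.row q₁ x i + a₂ • E.row q₂ x i + a₃ • E.row q₃ x i := by
  have k : sg (b.θ p U x.t) i.1 (a₁ • q₁ + a₂ • q₂ + a₃ • q₃) x = a₁ • sg (b.θ p U x.t) i.1 q₁ x +
      a₂ • sg (b.θ p U x.t) i.1 q₂ x + a₃ • sg (b.θ p U x.t) i.1 q₃ x :=
    (Abx52.σc_add x.cfg).trans (congrArg₂ (· + ·) ((Abx52.σc_add x.cfg).trans
      (congrArg₂ (· + ·) (σc_smul a₁ x.cfg) (σc_smul a₂ x.cfg))) (σc_smul a₃ x.cfg))
  have k' : ∀ q, E.row q x i = (J.cut c i).T (J.B c) (J.G c (b.θ p U x.t)).F E.o.m x.cfg.W -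
    sg (b.θ p U x.t) i.1 q x := fun _ => rfl
  rw [k', k', k', k', k]
  exact aff3' e _ _ _ _

theorem map3 (h₁ : E.Map q₁ f₁) (h₂ : E.Map q₂ f₂) (h₃ : E.Map q₃ f₃) :
    E.Map (a₁ • q₁ + a₂ • q₂ + a₃ • q₃) (a₁ • f₁ + a₂ • f₂ + a₃ • f₃) where
  sm := sm3 h₁.sm h₂.sm h₃.sm _ _ _
  e x ψ := tot3 (b := b) (p := p) (U := U) (δ := δ) e ▸ (((h₁.e x ψ).smul a₁).add ((h₂.e x ψ).smul a₂)).add ((h₃.e x ψ).smul a₃)
  row x ψ i := by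
    show a₁ • (f₁ (x.pt 8, ψ)).2.1 i + a₂ • (f₂ (x.pt 8, ψ)).2.1 i + a₃ • (f₃ (x.pt 8, ψ)).2.1 i = _
    rw [h₁.row, h₂.row, h₃.row, row3 e]
    rfl
  nrm x ψ i := by
    show a₁ * (f₁ (x.pt 8, ψ)).2.2 i + a₂ * (f₂ (x.pt 8, ψ)).2.2 i + a₃ * (f₃ (x.pt 8, ψ)).2.2 i = _
    rw [h₁.nrm, h₂.nrm, h₃.nrm, ← add_mul, ← add_mul, e, one_mul]

omit e

theorem ex_map (H : CS σ E) (q : Wi →₀ ℝ) : ∃ f, E.Map q f :=
  ⟨_, H.map (H.th_ok (K := fun _ => True) (d := 0) (Adm := fun _ => False)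
    (fun _ _ _ _ _ _ _ => trivial) (fun _ _ => .of_forall fun _ _ _ => trivial) fun _ _ => False.elim)⟩

theorem ld_eq (H : CS σ E) (x : Pnt E.o r) (ψ : E.K) (h₁ : E.Map q₁ f₁) (h₂ : E.Map q₁ f₂) :
    fderiv ℝ f₁ (x.pt 8, ψ) = fderiv ℝ f₂ (x.pt 8, ψ) :=
  EventuallyEq.fderiv_eq (eventually_of_mem ((open_C H.F).mem_nhds ⟨x.mem_U, trivial⟩) (H.map_eq h₁ h₂))

variable (J c) in
/-- **LEAF MAP** -/
theorem map : Nr41.MapStmt J c := fun _ _ _ _ _ _ E x ψ H => by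
  refine ⟨ex_map H, ?_⟩
  choose F hF using ex_map H
  refine (lin_of (Y := E.C →L[ℝ] E.Y) (fun q => fderiv ℝ (F q) (x.pt 8, ψ)) fun a₁ a₂ a₃ q₁ q₂ q₃ e =>
    fd3 (open_C H.F) (v := (x.pt 8, ψ)) ⟨x.mem_U, trivial⟩ (hF q₁).sm (hF q₂).sm (hF q₃).sm _ _ _
      (H.map_eq (hF _) (map3 e (hF _) (hF _) (hF _)))).imp fun D k q q' f g hf hg => ?_
  exact (ld_eq H x ψ hg (hF _)).trans ((k q q').trans (congrArg (· + D q') (ld_eq H x ψ (hF _) hf)))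

end Crest.Agent.X212.Hp13.Mp
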