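import Crest.Agent.X212.Hp13.W
import Crest.Agent.X212.Kh11.Fib3

/-!
# X212 / Hp13 (helper13): `chi`, `crs`, `ee`, `eu` under subdivision and reversal; homogeneity
-/

set_option autoImplicit false
set_option linter.unusedSectionVars false

open Finset Classical

noncomputable section

namespace Crest.Agent.X212.Hp13

section fin

variable {P Q : Type} [PartialOrder P] [Fintype P] [PartialOrder Q] [Fintype Q] {A : Set P}

theorem eu_eq_kh (E : Set P) : eu E = Kh11.chi (univ.filter (· ∈ E)) := by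
  rw [Kh11.chi, Kh11.red, ← add_sum_erase _ _ (Kh11.empty_mem_chs _), eu]
  simp only [card_empty, pow_zero, sub_add_cancel_left, neg_inj]
  refine sum_bij (fun c _ => c.1) (fun c hc => ?_) (fun _ _ _ _ h => Ch.ext h) (fun m hm => ?_)
    fun _ _ => rfl
  · exact mem_erase.2 ⟨c.2.1.ne_empty, Kh11.mem_chs.2 ⟨fun x hx =>
      mem_filter.2 ⟨mem_univ _, (mem_filter.1 hc).2 x hx⟩, c.2.2⟩⟩
  · obtain ⟨h1, h2⟩ := mem_erase.1 hm
    obtain ⟨h2, h3⟩ := Kh11.mem_chs.1 h2
    exact ⟨⟨m, nonempty_iff_ne_empty.2 h1, h3⟩,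
      mem_filter.2 ⟨mem_univ _, fun x hx => (mem_filter.1 (h2 hx)).2⟩, rfl⟩

/-- a closure operator keeps `eu` -/
theorem eu_clo {E D : Set P} (r : P → P) (hD : D ⊆ E) (h1 : ∀ x ∈ E, r x ∈ D ∧ x ≤ r x)
    (h2 : ∀ x ∈ E, ∀ b ∈ D, x ≤ b → r x ≤ b) : eu D = eu E := by
  rw [eu_eq_kh, eu_eq_kh]
  exact (Kh11.we_incl_of_clo (r := r) (fun x hx => by simpa using hD (by simpa using hx))
    (fun x hx => by simpa using h1 x (by simpa using hx))
    (fun x hx b hb => h2 x (by simpa using hx) b (by simpa using hb))).chi_eq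

/-- an interior operator keeps `eu` -/
theorem eu_int {E D : Set P} (r : P → P) (hD : D ⊆ E) (h1 : ∀ x ∈ E, r x ∈ D ∧ r x ≤ x)
    (h2 : ∀ x ∈ E, ∀ b ∈ D, b ≤ x → b ≤ r x) : eu D = eu E := by
  rw [eu_eq_kh, eu_eq_kh]
  exact (Kh11.we_incl_of_int (r := r) (fun x hx => by simpa using hD (by simpa using hx))
    (fun x hx => by simpa using h1 x (by simpa using hx))
    (fun x hx b hb => h2 x (by simpa using hx) b (by simpa using hb))).chi_eq

theorem acyc_top : Acyc (Ch.top : Ch P → P) := fun e => by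
  have k : ∀ c ∈ (Ch.top ⁻¹' e.1 : Set (Ch P)), ∀ x ∈ c.1, x ≤ e.top :=
    fun c hc x hx => (Ch.le_top hx).trans (Ch.le_top hc)
  rw [← eu_clo (D := {c | c.top = e.top})
    (fun c => if h : ∀ x ∈ c.1, x ≤ e.top then c.ins e.top fun x hx => Or.inr (h x hx) else c)
    (fun c hc => by rw [Set.mem_preimage, show c.top = e.top from hc]; exact e.top_mem)]
  · exact eu_cone (m := Ch.pt e.top) (Ch.top_pt _) fun c hc =>
      Or.inl (Ch.pt_le.2 ((show c.top = e.top from hc) ▸ c.top_mem))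
  · intro c hc
    rw [dif_pos (k c hc)]
    exact ⟨Ch.top_eq (mem_insert_self _ _) fun x hx =>
      (mem_insert.1 hx).elim le_of_eq (k c hc x), c.le_ins _ _⟩
  · intro c hc b hb h
    rw [dif_pos (k c hc)]
    exact insert_subset ((show b.top = e.top from hb) ▸ b.top_mem) h

theorem chi_top (z : P → P → ℤ) : chi (Ch.top ⁻¹' A) (pb Ch.top z) = chi A z :=
  acyc_top.chi Ch.top_mono z

/-- for a lower set `ee` is the Euler characteristic -/
theorem ee_lower {E : Set P} (h : IsLowerSet E) : ee E = eu E := by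
  rw [← sum_eps_ind, eu, ← neg_eq_iff_eq_neg, ← sum_top, sum_filter]
  refine sum_congr rfl fun c _ => ?_
  by_cases hc : c.top ∈ E
  · rw [if_pos fun x hx => h (Ch.le_top hx) hc, ind_of_mem hc, mul_one]
  · rw [if_neg fun k => hc (k _ c.top_mem), ind_of_not hc, mul_zero]

/-- on `Ch P` the sign of a cell is `(-1)^dim` -/
theorem eps_ch (c : Ch P) : eps c = -c.sg := by
  induction c using WellFoundedLT.induction with
  | ind e ih =>
    have h1 : ∑ c ∈ univ.filter (· ≤ e), eps c = 1 := by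
      have := eu_cone (E := {c | c ≤ e}) (m := e) (le_refl e) fun c hc => Or.inr hc
      rw [← this, ← ee_lower (E := {c | c ≤ e}) fun _ _ h k => le_trans h k, ee]
      refine sum_congr ?_ fun _ _ => rfl
      ext x
      simp only [mem_filter, Set.mem_setOf_eq]
    have h2 := sum_faces e
    have he : e ∈ univ.filter (· ≤ e) := mem_filter.2 ⟨mem_univ _, le_rfl⟩
    rw [← add_sum_erase _ _ he] at h1 h2
    rw [sum_congr rfl fun c hc => ih c (lt_of_le_of_ne (mem_filter.1 (mem_erase.1 hc).2).2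
      (mem_erase.1 hc).1), sum_neg_distrib] at h1
    linear_combination h1 + h2

theorem ee_ch (E : Set (Ch P)) : ee E = -∑ c ∈ univ.filter (· ∈ E), c.sg := by
  simp only [ee, eps_ch, sum_neg_distrib]

/-- the range of `z` on a chain -/
def rg {P : Type} [PartialOrder P] (z : P → P → ℤ) (c : Ch P) : ℤ := z c.bot c.top

/-- `rev z = -z + δ(range)` -/
theorem rev_eq {z : P → P → ℤ} (hz : Coc A z) {c d : Ch P} (hd : Dom A d) (h : c ≤ d) :
    rev z c d = (-pb Ch.top z + cb (rg z)) c d := by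
  have e1 := hz.add' hd d.bot_mem (h c.bot_mem) d.top_mem (Ch.bot_anti h)
    (Ch.le_top (h c.bot_mem))
  have e2 := hz.add' hd (h c.bot_mem) (h c.top_mem) d.top_mem c.bot_le_top (Ch.top_mono h)
  simp only [rev, pb, cb, rg, Pi.add_apply, Pi.neg_apply]
  omega

theorem ee_congr {E F : Set P} (h : ∀ x, x ∈ E ↔ x ∈ F) : ee E = ee F := by rw [Set.ext h]

theorem ee_union {E F : Set P} (h : Disjoint E F) : ee (E ∪ F) = ee E + ee F := by
  rw [ee, ee, ee, ← sum_union (disjoint_filter.2 fun x _ a b => Set.disjoint_left.1 h a b),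
    ← filter_or]
  refine sum_congr ?_ fun _ _ => rfl
  ext x
  simp only [mem_filter, Set.mem_union]

theorem ee_diff {E F : Set P} (h : F ⊆ E) : ee (E \ F) = ee E - ee F := by
  rw [← Set.sdiff_union_of_subset h, ee_union Set.disjoint_sdiff_left,
    Set.sdiff_union_of_subset h]
  ring

/-- for an upper set `ee` is the alternating sum over the chains meeting it -/
theorem ee_upper {E : Set P} (h : IsUpperSet E) : ee E = -∑ c ∈ univ.filter (Mt E), c.sg := by
  rw [← sum_eps_ind, ← neg_eq_iff_eq_neg, ← sum_top, sum_filter]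
  refine sum_congr rfl fun c _ => ?_
  by_cases hc : Mt E c
  · obtain ⟨a, ha, ha'⟩ := id hc
    rw [if_pos hc, ind_of_mem (h (Ch.le_top ha) ha'), mul_one]
  · rw [if_neg hc, ind_of_not fun k => hc ⟨_, c.top_mem, k⟩, mul_zero]

/-! ### homogeneity -/

theorem sum_floor {k : ℕ} (hk : 0 < k) (n : ℤ) : ∑ j ∈ range k, (n + j) / k = n := by
  have hk' : (0 : ℤ) < k := Int.natCast_pos.2 hk
  have step : ∀ n : ℤ, ∑ j ∈ range k, (n + 1 + j) / (k : ℤ) = ∑ j ∈ range k, (n + j) / k + 1 := by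
    intro n
    have h1 := sum_range_succ (fun j : ℕ => (n + j) / (k : ℤ)) k
    rw [sum_range_succ'] at h1
    simp only [Nat.cast_add, Nat.cast_one, Nat.cast_zero, add_zero] at h1
    rw [Int.add_ediv_of_dvd_right (dvd_refl _), Int.ediv_self hk'.ne'] at h1
    have : ∑ j ∈ range k, (n + 1 + j) / (k : ℤ) = ∑ j ∈ range k, (n + (j + 1)) / (k : ℤ) :=
      sum_congr rfl fun j _ => by ring_nf
    omega
  induction n using Int.induction_on with
  | zero =>
    refine sum_eq_zero fun j hj => ?_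
    rw [zero_add]
    exact Int.ediv_eq_zero_of_lt (Int.natCast_nonneg _) (Int.ofNat_lt.2 (mem_range.1 hj))
  | succ n ih => rw [step, ih]
  | pred n ih =>
    have := step (-n - 1)
    rw [show -(n : ℤ) - 1 + 1 = -n by ring, ih] at this
    omega

/-- the `j`-th sheet of a surface in the class of `k • z₀` -/
def sheet {P : Type} (z₀ : P → P → ℤ) (g : P → ℤ) (k j : ℕ) : P → P → ℤ :=
  fun x y => z₀ x y + ((g y + j) / k - (g x + j) / k)

theorem sheet_eqv {z₀ : P → P → ℤ} {g : P → ℤ} (hg : ∀ x, x ∉ A → g x = 0) {k j : ℕ} (hj : j < k) :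
    Eqv A z₀ (sheet z₀ g k j) :=
  ⟨fun x => (g x + j) / k, fun x hx => by
    simp only [hg x hx, zero_add]
    exact Int.ediv_eq_zero_of_lt (Int.natCast_nonneg _) (Int.ofNat_lt.2 hj), EqD.rfl⟩

theorem sheet_mono {z₀ : P → P → ℤ} {g : P → ℤ} {k : ℕ} (hk : 0 < k) (j : ℕ)
    (h : Mono A ((k : ℤ) • z₀ + cb g)) : Mono A (sheet z₀ g k j) := fun x y hp => by
  have hk' : (0 : ℤ) < k := Int.natCast_pos.2 hk
  have h1 := h x y hp
  simp only [Pi.add_apply, Pi.smul_apply, smul_eq_mul, cb] at h1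
  have : (g x + j) / k ≤ (g y + j + z₀ x y * k) / k := Int.ediv_le_ediv hk' (by linarith)
  rw [Int.add_mul_ediv_right _ _ hk'.ne'] at this
  simp only [sheet]
  omega

theorem sum_sheet (z₀ : P → P → ℤ) (g : P → ℤ) {k : ℕ} (hk : 0 < k) :
    ∑ j ∈ range k, sheet z₀ g k j = (k : ℤ) • z₀ + cb g := by
  funext x y
  simp only [Finset.sum_apply, sheet, sum_add_distrib, sum_sub_distrib, sum_floor hk, sum_const,
    card_range, Pi.add_apply, Pi.smul_apply, cb, nsmul_eq_mul, smul_eq_mul]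

/-- **HOM**: a monotone cocycle in the class of `k • z₀` is a sum of `k` monotone cocycles in the
class of `z₀` -/
theorem hom {z₀ z : P → P → ℤ} {k : ℕ} (hk : 0 < k) (h : Eqv A ((k : ℤ) • z₀) z) (hm : Mono A z) :
    ∃ u : ℕ → P → P → ℤ, (∀ j < k, Eqv A z₀ (u j) ∧ Mono A (u j)) ∧
      EqD A z (∑ j ∈ range k, u j) := by
  obtain ⟨g, hg, e⟩ := h
  exact ⟨sheet z₀ g k, fun j hj => ⟨sheet_eqv hg hj, sheet_mono hk j (hm.congr e.symm)⟩,
    by rw [sum_sheet z₀ g hk]; exact e⟩

end fin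

namespace Desc

variable {s t : St} {f : t.P → s.P}

theorem acyc (h : Desc s t f) : Acyc f := by
  induction h with
  | refl => exact acyc_id
  | step _ ih => exact ih.comp Ch.top_mono acyc_top

theorem chi (h : Desc s t f) (z : s.P → s.P → ℤ) : chi t.A (pb f z) = chi s.A z := by
  rw [h.A_eq]; exact h.acyc.chi h.mono z
theorem crs (h : Desc s t f) (z : s.P → s.P → ℤ) : crs t.A (pb f z) = crs s.A z := by
  rw [h.A_eq]; exact h.acyc.crs h.mono z
theorem ee (h : Desc s t f) (E : Set s.P) : ee (f ⁻¹' E) = ee E := h.acyc.ee h.mono E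
theorem eu (h : Desc s t f) (E : Set s.P) : eu (f ⁻¹' E) = eu E := h.acyc.eu h.mono E
theorem ee_A (h : Desc s t f) : Hp13.ee t.A = Hp13.ee s.A := by rw [h.A_eq]; exact h.ee _
theorem conv (h : Desc s t f) (hA : s.A.OrdConnected) : t.A.OrdConnected := by
  rw [h.A_eq]; exact convex_pre h.mono hA
theorem coc {G : Type} [AddCommGroup G] (h : Desc s t f) {z : s.P → s.P → G} (hz : Coc s.A z) :
    Coc t.A (pb f z) := by rw [h.A_eq]; exact hz.pb h.mono
theorem mono' (h : Desc s t f) {z : s.P → s.P → ℤ} (hz : Mono s.A z) : Mono t.A (pb f z) := by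
  rw [h.A_eq]; exact hz.pb h.mono
theorem eqv {G : Type} [AddCommGroup G] (h : Desc s t f) {z z' : s.P → s.P → G}
    (hz : Eqv s.A z z') : Eqv t.A (pb f z) (pb f z') := by rw [h.A_eq]; exact hz.pb h.mono
theorem eqD {G : Type} [AddCommGroup G] (h : Desc s t f) {z z' : s.P → s.P → G}
    (hz : EqD s.A z z') : EqD t.A (pb f z) (pb f z') := by rw [h.A_eq]; exact hz.pb h.mono
theorem Rm (h : Desc s t f) (hA : s.A.OrdConnected) : EqD t.A (pb f (Rm s.A)) (Rm t.A) := by
  rw [h.A_eq]; exact Rm_pb h.mono hA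
theorem Rp (h : Desc s t f) (hA : s.A.OrdConnected) : EqD t.A (pb f (Rp s.A)) (Rp t.A) := by
  rw [h.A_eq]; exact Rp_pb h.mono hA

end Desc

theorem Max.desc {s t : St} {f : t.P → s.P} {z : s.P → s.P → ℤ} (h : Max s z) (hd : Desc s t f) :
    Max t (pb f z) := fun u g hg z' h1 h2 => by
  rw [hd.chi]
  exact h u (f ∘ g) (hd.trans hg) z' h1 h2

theorem Max.of_eqv {s : St} {z z' : s.P → s.P → ℤ} (h : Max s z) (e : Eqv s.A z z')
    (hc : chi s.A z ≤ chi s.A z') : Max s z' :=
  fun u g hg w h1 h2 => (h u g hg w h1 ((hg.eqv e).trans h2)).trans hc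

theorem Taut.chi_eq {s : St} (h : Taut s) : chi s.A (Rm s.A) = chi s.A (Rp s.A) := by
  rw [chi_Rm h.mf, h.bal]; ring

theorem Taut.maxp {s : St} (h : Taut s) : Max s (Rp s.A) :=
  h.max.of_eqv eqv_Rp_Rm.symm h.chi_eq.le

end Crest.Agent.X212.Hp13
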