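import Crest.Agent.X212.Hp13.Bas

/-!
# X212 / Hp13 (helper13): the weight formula and invariance of `chi` under subdivision
-/

set_option autoImplicit false
set_option linter.unusedSectionVars false

open Finset Classical

noncomputable section

namespace Crest.Agent.X212.Hp13

variable {P Q : Type} [PartialOrder P] [Fintype P] [PartialOrder Q] [Fintype Q] {A : Set P}

/-- sum over the chains with given least element -/
def bet (a : P) : ℤ := ∑ c ∈ univ.filter (fun c : Ch P => c.bot = a), c.sg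

/-- a chain through `a` is a pair (chain with top `a`, chain with bottom `a`) -/
theorem sum_through (a : P) (F G : Ch P → ℤ) (H : Ch P → ℤ)
    (hH : ∀ c c₁ c₂ : Ch P, c₁.top = a → c₂.bot = a → c.1 = c₁.1 ∪ c₂.1 → H c = F c₁ * G c₂) :
    ∑ c ∈ univ.filter (fun c : Ch P => a ∈ c.1), c.sg * H c =
      -((∑ c ∈ univ.filter (fun c : Ch P => c.top = a), c.sg * F c) *
        ∑ c ∈ univ.filter (fun c : Ch P => c.bot = a), c.sg * G c) := by
  rw [sum_mul_sum, ← sum_product', ← sum_neg_distrib]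
  symm
  have cmp : ∀ p : Ch P × Ch P, p.1.top = a → p.2.bot = a → ∀ x ∈ p.1.1, ∀ y ∈ p.2.1, x ≤ y :=
    fun p h1 h2 x hx y hy => (Ch.le_top hx).trans (h1.le.trans (h2.ge.trans (Ch.bot_le hy)))
  refine sum_bij (fun p hp => Ch.mk' (p.1.1 ∪ p.2.1) (p.1.2.1.mono subset_union_left) ?_)
    ?_ ?_ ?_ ?_
  · obtain ⟨h1, h2⟩ := mem_product.1 hp
    have k := cmp p (mem_filter.1 h1).2 (mem_filter.1 h2).2
    intro x hx y hy
    rcases mem_union.1 hx with hx | hx <;> rcases mem_union.1 hy with hy | hy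
    exacts [p.1.cm hx hy, Or.inl (k x hx y hy), Or.inr (k y hy x hx), p.2.cm hx hy]
  · intro p hp
    obtain ⟨h1, -⟩ := mem_product.1 hp
    exact mem_filter.2 ⟨mem_univ _, mem_union_left _ ((mem_filter.1 h1).2 ▸ p.1.top_mem)⟩
  · have k : ∀ p : Ch P × Ch P, p.1.top = a → p.2.bot = a →
        p.1.1 = (p.1.1 ∪ p.2.1).filter (· ≤ a) ∧ p.2.1 = (p.1.1 ∪ p.2.1).filter (a ≤ ·) := by
      intro p h1 h2
      refine ⟨Finset.ext fun x => ?_, Finset.ext fun x => ?_⟩ <;> simp only [mem_filter, mem_union]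
      · refine ⟨fun h => ⟨Or.inl h, h1 ▸ Ch.le_top h⟩, fun h => h.1.elim id fun h' => ?_⟩
        rw [le_antisymm h.2 (h2 ▸ Ch.bot_le h'), ← h1]
        exact p.1.top_mem
      · refine ⟨fun h => ⟨Or.inr h, h2 ▸ Ch.bot_le h⟩, fun h => h.1.elim (fun h' => ?_) id⟩
        rw [le_antisymm (h1 ▸ Ch.le_top h') h.2, ← h2]
        exact p.2.bot_mem
    intro p hp q hq e
    obtain ⟨h1, h2⟩ := mem_product.1 hp
    obtain ⟨h3, h4⟩ := mem_product.1 hq
    have e' : p.1.1 ∪ p.2.1 = q.1.1 ∪ q.2.1 := congrArg Subtype.val e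
    have a1 := k p (mem_filter.1 h1).2 (mem_filter.1 h2).2
    have a2 := k q (mem_filter.1 h3).2 (mem_filter.1 h4).2
    exact Prod.ext (Ch.ext (by rw [a1.1, a2.1, e'])) (Ch.ext (by rw [a1.2, a2.2, e']))
  · intro c hc
    have ha := (mem_filter.1 hc).2
    refine ⟨(c.sub (c.1.filter (· ≤ a)) ⟨a, mem_filter.2 ⟨ha, le_rfl⟩⟩ (filter_subset _ _),
      c.sub (c.1.filter (a ≤ ·)) ⟨a, mem_filter.2 ⟨ha, le_rfl⟩⟩ (filter_subset _ _)),
      mem_product.2 ⟨mem_filter.2 ⟨mem_univ _, Ch.top_eq (mem_filter.2 ⟨ha, le_rfl⟩)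
        fun x hx => (mem_filter.1 hx).2⟩, mem_filter.2 ⟨mem_univ _,
        Ch.bot_eq (mem_filter.2 ⟨ha, le_rfl⟩) fun x hx => (mem_filter.1 hx).2⟩⟩, Ch.ext ?_⟩
    show c.1.filter (· ≤ a) ∪ c.1.filter (a ≤ ·) = c.1
    rw [← filter_or, filter_true_of_mem fun x hx => c.total hx ha]
  · intro p hp
    obtain ⟨h1, h2⟩ := mem_product.1 hp
    have h1 := (mem_filter.1 h1).2
    have h2 := (mem_filter.1 h2).2
    rw [hH _ p.1 p.2 h1 h2 rfl]
    have i : p.1.1 ∩ p.2.1 = {a} := by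
      refine Finset.ext fun x => ⟨fun h => mem_singleton.2 (le_antisymm
        (h1 ▸ Ch.le_top (mem_inter.1 h).1) (h2 ▸ Ch.bot_le (mem_inter.1 h).2)), fun h => ?_⟩
      rw [mem_singleton.1 h]
      exact mem_inter.2 ⟨h1 ▸ p.1.top_mem, h2 ▸ p.2.bot_mem⟩
    have := card_union_add_card_inter p.1.1 p.2.1
    rw [i, card_singleton] at this
    have e : p.1.sg * p.2.sg = -(-1) ^ (p.1.1 ∪ p.2.1).card := by
      rw [Ch.sg, Ch.sg, ← pow_add, ← this, pow_succ]; ring
    show _ = (-1) ^ (p.1.1 ∪ p.2.1).card * _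
    linear_combination (-(F p.1 * G p.2)) * e

theorem Mf.eps_bet {d : ℕ} (h : Mf d A) {a : P} (ha : a ∈ A) : eps a * bet a = (-1) ^ (d + 1) := by
  have := sum_through a (fun _ => 1) (fun _ => 1) (fun _ => 1) fun _ _ _ _ _ _ => by simp
  simp only [mul_one] at this
  rw [← h.eul (Ch.pt a) (mt_pt.2 ha), eps, bet, neg_mul, ← this]
  exact sum_congr (filter_congr fun c _ => Ch.pt_le.symm) fun _ _ => rfl

theorem Mf.eps_sq {d : ℕ} (h : Mf d A) {a : P} (ha : a ∈ A) : eps a * eps a = 1 := by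
  have : IsUnit (eps a * bet a) := h.eps_bet ha ▸ (isUnit_one.neg.pow _)
  rcases Int.isUnit_iff.1 (isUnit_of_mul_isUnit_left this) with e | e <;> simp [e]

theorem Mf.bet_eq {d : ℕ} (h : Mf d A) {a : P} (ha : a ∈ A) : bet a = (-1) ^ (d + 1) * eps a := by
  linear_combination (eps a) * h.eps_bet ha - (bet a) * h.eps_sq ha

theorem sum_top (F : P → ℤ) : ∑ c : Ch P, c.sg * F c.top = -∑ a, eps a * F a := by
  rw [← sum_fiberwise (s := univ) (g := Ch.top), ← sum_neg_distrib]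
  refine sum_congr rfl fun a _ => ?_
  rw [eps, neg_mul, neg_neg, sum_mul]
  exact sum_congr rfl fun c hc => by rw [(mem_filter.1 hc).2]

theorem sum_bot (F : P → ℤ) : ∑ c : Ch P, c.sg * F c.bot = ∑ a, bet a * F a := by
  rw [← sum_fiberwise (s := univ) (g := Ch.bot)]
  refine sum_congr rfl fun a _ => ?_
  rw [bet, sum_mul]
  exact sum_congr rfl fun c hc => by rw [(mem_filter.1 hc).2]

/-- **W**, any dimension -/
theorem chi_cb' {d : ℕ} (h : Mf d A) {g : P → ℤ} (hg : ∀ x, x ∉ A → g x = 0) :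
    chi A (cb g) = -(1 + (-1) ^ (d + 1)) * ∑ a, eps a * g a := by
  have e : chi A (cb g) = ∑ c : Ch P, c.sg * g c.top - ∑ c : Ch P, c.sg * g c.bot := by
    rw [← sum_sub_distrib, chi, sum_filter]
    refine sum_congr rfl fun c _ => ?_
    split_ifs with hc
    · simp only [cb]; ring
    · rw [hg c.top fun k => hc ⟨_, c.top_mem, k⟩, hg c.bot fun k => hc ⟨_, c.bot_mem, k⟩]; ring
  rw [e, sum_top, sum_bot, ← sum_neg_distrib, ← sum_sub_distrib, mul_sum]
  refine sum_congr rfl fun a _ => ?_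
  by_cases ha : a ∈ A
  · rw [h.bet_eq ha]; ring
  · rw [hg a ha]; ring

/-- **W** -/
theorem chi_cb (h : Mf 3 A) {g : P → ℤ} (hg : ∀ x, x ∉ A → g x = 0) :
    chi A (cb g) = -2 * ∑ a, eps a * g a := by
  rw [chi_cb' h hg]; norm_num

/-- in a surface the number of arcs depends on the boundary only -/
theorem chi_cb_two (h : Mf 2 A) {g : P → ℤ} (hg : ∀ x, x ∉ A → g x = 0) : chi A (cb g) = 0 := by
  rw [chi_cb' h hg]; norm_num

theorem sum_eps_ind (E : Set P) : ∑ a, eps a * ind E a = ee E := by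
  rw [ee, sum_filter]
  exact sum_congr rfl fun a _ => by unfold ind; split_ifs <;> simp

theorem chi_cb_ind (h : Mf 3 A) {E : Set P} (hE : E ⊆ A) : chi A (cb (ind E)) = -2 * ee E := by
  rw [chi_cb h fun x hx => ind_of_not fun k => hx (hE k), sum_eps_ind]

/-- the numerical part of MOVE -/
theorem chi_move (h : Mf 3 A) (z : P → P → ℤ) {E : Set P} (hE : E ⊆ A) :
    chi A (z - cb (ind E)) = chi A z + 2 * ee E := by
  rw [chi_sub, chi_cb_ind h hE]; ring

theorem chi_Rm (h : Mf 3 A) : chi A (Rm A) = chi A (Rp A) - 2 * ee A := by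
  rw [Rm_eq, chi_add, chi_cb_ind h subset_rfl]; ring

theorem Mf.mono {d : ℕ} {B : Set P} (h : Mf d A) (hB : B ⊆ A) : Mf d B :=
  have k : ∀ c : Ch P, Mt B c → Mt A c := fun _ ⟨a, ha, h⟩ => ⟨a, ha, hB h⟩
  ⟨fun c hc => h.card_le c (k c hc), fun c hc => h.eul c (k c hc), fun c hc => h.conn c (k c hc),
    fun c hc => h.pure c (k c hc)⟩

/-- the change of `chi` along a function supported in `B ⊆ A` can be read in `B` -/
theorem chi_cb_sub (h : Mf 3 A) {B : Set P} (hB : B ⊆ A) {g : P → ℤ} (hg : ∀ x, x ∉ B → g x = 0) :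
    chi A (cb g) = chi B (cb g) := by
  rw [chi_cb h fun x hx => hg x fun k => hx (hB k), chi_cb (h.mono hB) hg]

/-- alternating sum over the faces of a simplex -/
theorem sum_faces (e : Ch P) : ∑ c ∈ univ.filter (· ≤ e), c.sg = -1 := by
  have h0 := sum_powerset_neg_one_pow_card_of_nonempty e.2.1
  rw [← add_sum_erase _ _ (empty_mem_powerset _)] at h0
  have : ∑ c ∈ univ.filter (· ≤ e), c.sg = ∑ m ∈ e.1.powerset.erase ∅, (-1 : ℤ) ^ m.card := by
    refine sum_bij (fun c _ => c.1) (fun c hc => ?_) (fun _ _ _ _ h => Ch.ext h) (fun m hm => ?_)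
      fun _ _ => rfl
    · exact mem_erase.2 ⟨c.2.1.ne_empty, mem_powerset.2 (mem_filter.1 hc).2⟩
    · obtain ⟨h1, h2⟩ := mem_erase.1 hm
      exact ⟨e.sub m (nonempty_iff_ne_empty.2 h1) (mem_powerset.1 h2),
        mem_filter.2 ⟨mem_univ _, mem_powerset.1 h2⟩, rfl⟩
  rw [this]
  simp only [card_empty, pow_zero] at h0
  omega

/-- `f` has Euler-acyclic fibres over the simplices -/
def Acyc (f : Q → P) : Prop := ∀ e : Ch P, eu (f ⁻¹' e.1) = 1

theorem Acyc.fib {f : Q → P} (hf : Monotone f) (h : Acyc f) (e : Ch P) :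
    ∑ d ∈ univ.filter (fun d => Ch.img f hf d = e), d.sg = e.sg := by
  induction e using WellFoundedLT.induction with
  | ind e ih =>
    have h1 : ∑ c ∈ univ.filter (· ≤ e), ∑ d ∈ univ.filter (fun d => Ch.img f hf d = c), d.sg
        = -1 := by
      rw [← neg_eq_iff_eq_neg, ← h e, eu, neg_inj]
      rw [← sum_fiberwise_of_maps_to (s := univ.filter fun c : Ch Q => ∀ x ∈ c.1, x ∈ f ⁻¹' e.1)
        (t := univ.filter (· ≤ e)) (g := Ch.img f hf) fun d hd => mem_filter.2 ⟨mem_univ _,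
          fun x hx => let ⟨a, ha, k⟩ := Ch.mem_img.1 hx; k ▸ (mem_filter.1 hd).2 a ha⟩]
      refine sum_congr rfl fun c hc => sum_congr ?_ fun _ _ => rfl
      ext d
      simp only [mem_filter, mem_univ, true_and]
      exact ⟨fun k => ⟨fun x hx => (mem_filter.1 hc).2 (k ▸ Ch.mem_img.2 ⟨x, hx, rfl⟩), k⟩,
        fun k => k.2⟩
    have h2 := sum_faces e
    have he : e ∈ univ.filter (· ≤ e) := mem_filter.2 ⟨mem_univ _, le_rfl⟩
    rw [← add_sum_erase _ _ he] at h1 h2
    rw [sum_congr rfl fun c hc => ih c (lt_of_le_of_ne (mem_filter.1 (mem_erase.1 hc).2).2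
      (mem_erase.1 hc).1)] at h1
    exact add_right_cancel (h1.trans h2.symm)

theorem Acyc.sum {f : Q → P} (hf : Monotone f) (h : Acyc f) (F : Ch P → ℤ) :
    ∑ d : Ch Q, d.sg * F (Ch.img f hf d) = ∑ e : Ch P, e.sg * F e := by
  rw [← sum_fiberwise (s := univ) (g := Ch.img f hf)]
  refine sum_congr rfl fun e _ => ?_
  rw [← h.fib hf e, sum_mul]
  exact sum_congr rfl fun d hd => by rw [(mem_filter.1 hd).2]

theorem Acyc.chi {f : Q → P} (hf : Monotone f) (h : Acyc f) (z : P → P → ℤ) :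
    chi (f ⁻¹' A) (pb f z) = chi A z := by
  have := h.sum hf fun e => if Mt A e then z e.bot e.top else 0
  simp only [mt_img, Ch.top_img, Ch.bot_img, mul_ite, mul_zero] at this
  rw [Hp13.chi, Hp13.chi, sum_filter, sum_filter]
  exact this

theorem Acyc.crs {f : Q → P} (hf : Monotone f) (h : Acyc f) (z : P → P → ℤ) :
    crs (f ⁻¹' A) (pb f z) = crs A z := by
  have := h.sum hf fun e => if Mt A e ∧ e.bot ∉ A ∧ e.top ∉ A then z e.bot e.top else 0
  simp only [mt_img, Ch.top_img, Ch.bot_img, mul_ite, mul_zero] at this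
  rw [Hp13.crs, Hp13.crs, sum_filter, sum_filter]
  exact this

theorem Acyc.eu {f : Q → P} (hf : Monotone f) (h : Acyc f) (E : Set P) : eu (f ⁻¹' E) = eu E := by
  have := h.sum hf fun e => if ∀ x ∈ e.1, x ∈ E then 1 else 0
  simp only [mul_ite, mul_zero, mul_one] at this
  rw [Hp13.eu, Hp13.eu, sum_filter, sum_filter, ← this]
  refine congrArg _ (sum_congr rfl fun d _ => if_congr ?_ rfl rfl)
  exact ⟨fun k x hx => let ⟨a, ha, e⟩ := Ch.mem_img.1 hx; e ▸ k a ha,
    fun k a ha => k _ (Ch.mem_img.2 ⟨a, ha, rfl⟩)⟩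

theorem Acyc.ee {f : Q → P} (hf : Monotone f) (h : Acyc f) (E : Set P) : ee (f ⁻¹' E) = ee E := by
  have := h.sum hf fun e => ind E e.top
  simp only [Ch.top_img] at this
  rw [sum_top (ind E), sum_eps_ind, show (fun d : Ch Q => d.sg * ind E (f d.top)) =
    fun d : Ch Q => d.sg * ind (f ⁻¹' E) d.top from rfl, sum_top, sum_eps_ind] at this
  exact neg_injective this

theorem Acyc.comp {R : Type} [PartialOrder R] [Fintype R] {f : Q → P} {g : R → Q}
    (hg : Monotone g) (h : Acyc f) (h' : Acyc g) : Acyc (f ∘ g) :=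
  fun e => (h'.eu hg (f ⁻¹' e.1)).trans (h e)

/-- a cone point -/
theorem eu_cone {E : Set P} {m : P} (hm : m ∈ E) (h : ∀ x ∈ E, Cm m x) : eu E = 1 := by
  have hp : Ch.pt m ∈ univ.filter (fun c : Ch P => ∀ x ∈ c.1, x ∈ E) := by simpa using hm
  rw [eu, ← add_sum_erase _ _ hp, Ch.sg_pt]
  have k : ∀ c ∈ (univ.filter (fun c : Ch P => ∀ x ∈ c.1, x ∈ E)).erase (Ch.pt m),
      m ∈ c.1 → (c.1.erase m).Nonempty := fun c hc hmc => by
    by_contra k
    refine (mem_erase.1 hc).1 (Ch.ext ?_)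
    rw [not_nonempty_iff_eq_empty] at k
    rw [← insert_erase hmc, k]; rfl
  rw [sum_involution (fun c hc => if hmc : m ∈ c.1 then c.sub _ (k c hc hmc) (erase_subset _ _)
    else c.ins m fun x hx => h x ((mem_filter.1 (mem_erase.1 hc).2).2 x hx))]
  · simp
  · intro c hc
    split_ifs with hmc
    · simp only [Ch.sg, Ch.sub_val]
      rw [← card_erase_add_one hmc, pow_succ]; ring
    · rw [Ch.sg_ins _ _ hmc]; ring
  · intro c hc _ e
    have := congrArg (fun c : Ch P => m ∈ c.1) e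
    split_ifs at this with hmc <;> simp [hmc] at this
  · intro c hc
    have hc' := (mem_filter.1 (mem_erase.1 hc).2).2
    refine mem_erase.2 ⟨fun e => ?_, mem_filter.2 ⟨mem_univ _, ?_⟩⟩
    · split_ifs at e with hmc
      · have := congrArg (fun c : Ch P => m ∈ c.1) e
        simp at this
      · obtain ⟨x, hx⟩ := c.2.1
        have : x ∈ (Ch.pt m).1 := e ▸ mem_insert_of_mem hx
        exact hmc (mem_singleton.1 this ▸ hx)
    · split_ifs with hmc
      · exact fun x hx => hc' x (mem_of_mem_erase hx)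
      · exact fun x hx => (mem_insert.1 hx).elim (fun e => e ▸ hm) (hc' x)
  · intro c hc
    refine Ch.ext ?_
    by_cases hmc : m ∈ c.1
    · simp [hmc, insert_erase hmc]
    · simp [hmc, erase_insert hmc]

theorem acyc_id : Acyc (id : P → P) := fun e =>
  eu_cone (m := e.top) e.top_mem fun _ hx => e.cm e.top_mem hx

end Crest.Agent.X212.Hp13
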