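import Crest.Agent.X212.Hp13.Part
import Crest.Agent.X212.Sf30.Lv

/-!
# X212 / Hp13 (helper13): SWAP and INC, surgery of a surface along a disc
-/

set_option autoImplicit false
set_option linter.unusedSectionVars false

open Finset Classical

noncomputable section

namespace Crest.Agent.X212.Hp13

variable {P : Type} [PartialOrder P] [Fintype P] {A E Q : Set P} {z w : P → P → ℤ}

section cmps

theorem IsCmp.upper {S C : Set P} (h : IsCmp S C) (hS : IsUpperSet S) : IsUpperSet C :=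
  fun _ _ k ha => h.clopen ha (hS k (h.sub ha)) (Or.inl k)

variable [IsCoc A z]

theorem chiC_empty : chiC (∅ : Set (Lv A z)) = 0 := by simp [chiC]

/-- `chiC` is the sum over the components -/
theorem chiC_eq_sum {S T : Set (Lv A z)} (hS : S ⊆ T) (h : ∀ p ∈ S, ∀ q ∈ T, Cm p q → q ∈ S) :
    chiC S = ∑ C ∈ (univ.filter (· ∈ S)).image (cmp T), chiC C := by
  rw [chiC, ← sum_fiberwise_of_maps_to (g := cmp T) fun p hp => mem_image_of_mem _ hp]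
  refine sum_congr rfl fun C hC => sum_congr ?_ fun _ _ => rfl
  obtain ⟨p, hp, rfl⟩ := mem_image.1 hC
  have hp := (mem_filter.1 hp).2
  ext q
  simp only [mem_filter, mem_univ, true_and]
  exact ⟨fun k => k.2 ▸ mem_cmp_self (hS k.1),
    fun k => ⟨(Rch.in_clopen h hp k.2).mem hp, (cmp_eq k.2).symm⟩⟩

theorem exists_cmp_pos {S T : Set (Lv A z)} (hS : S ⊆ T) (h : ∀ p ∈ S, ∀ q ∈ T, Cm p q → q ∈ S)
    (hp : 0 < chiC S) : ∃ p ∈ S, 0 < chiC (cmp T p) := by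
  by_contra k
  push Not at k
  rw [chiC_eq_sum hS h] at hp
  refine absurd hp (not_lt.2 (sum_nonpos fun C hC => ?_))
  obtain ⟨p, hp, rfl⟩ := mem_image.1 hC
  exact k p (mem_filter.1 hp).2

theorem chiC_le_two (h : Mf 3 A) (hm : Mono A z) {C : Set (Lv A z)} (hC : C ⊆ LA A z)
    (hU : IsUpperSet C) (hc : Conn C) : chiC C ≤ 2 :=
  Sf30.chiC_eq_eu h hm hC hU ▸ Alg36.Mf.eu_le_two (Sf30.mf_LA h hm) hC hc

theorem chiC_le_one (h : Mf 3 A) (hm : Mono A z) {C : Set (Lv A z)} (hC : C ⊆ LA A z)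
    (hU : IsUpperSet C) (hc : Conn C) {p q : Lv A z} (hp : p ∈ C) (hq : q ∉ C) (k : Cm p q) :
    chiC C ≤ 1 :=
  Sf30.chiC_eq_eu h hm hC hU ▸ Alg36.Mf.eu_le_one (Sf30.mf_LA h hm) hC hc fun a ha =>
    ⟨p, hC hp, (hc a ha p hp).mono hC, q, hq, k⟩

theorem cmp_le_two (h : Mf 3 A) (hm : Mono A z) {C : Set (Lv A z)} (hC : IsCmp (LA A z) C) :
    chiC C ≤ 2 := chiC_le_two h hm hC.sub (hC.upper Sf30.la_upper) hC.conn

theorem cmp_le_one (h : Mf 3 A) (hm : Mono A z) {C : Set (Lv A z)} (hC : IsCmp (LA A z) C)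
    (hT : Tch A z C) : chiC C ≤ 1 :=
  let ⟨_, hp, _, hq, k⟩ := hT
  chiC_le_one h hm hC.sub (hC.upper Sf30.la_upper) hC.conn hp (fun j => hq (hC.sub j)) (Or.inr k)

end cmps

variable [IsCoc A z] [IsCoc A w]

/-- surgery: `w` loses the curve `X`, `z` gains the two discs `Y`; `N` are the cells near `Y` -/
structure Sg (R : Lv A w → Lv A z → Prop) (X : Set (Lv A w)) (Y N : Set (Lv A z))
    (J : Lv A z → Lv A z → Prop) : Prop where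
  lr : LR R
  tot : ∀ p, p ∉ X → ∃ q, q ∉ Y ∧ R p q
  tot' : ∀ q, q ∉ Y → ∃ p, p ∉ X ∧ R p q
  xlow : IsLowerSet X
  xla : X ⊆ LA A w
  xne : X.Nonempty
  ylow : IsLowerSet Y
  yn : Y ⊆ N
  nla : N ⊆ LA A z
  near : ∀ p q x, R p q → x ∈ X → x ≤ p → q ∈ N
  two : ∀ a ∈ N, ∀ b ∈ N, ∀ c ∈ N, J a b ∨ J a c ∨ J b c
  jr : ∀ a ∈ N, ∀ b ∈ N, J a b → Rch (LA A z) a b
  jy : ∀ a ∈ Y, ∀ b ∈ Y, J a b → Rch Y a b
  out : ∀ a ∈ Y, ∃ b, b ∉ Y ∧ Rch (LA A z) a b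

namespace Sg

variable {R : Lv A w → Lv A z → Prop} {X : Set (Lv A w)} {Y N : Set (Lv A z)}
  {J : Lv A z → Lv A z → Prop} (h : Sg R X Y N J)
include h

theorem rch {p p' : Lv A w} {q q' : Lv A z} (k : R p q) (k' : R p' q')
    (hr : Rch (LA A w \ X) p p') : Rch (LA A z \ Y) q q' :=
  h.lr.rch (T := LA A z \ Y)
    (fun a ha => let ⟨b, b1, b2⟩ := h.tot a ha.2; ⟨b, ⟨(h.lr.la b2).1 ha.1, b1⟩, b2⟩) k k' hr

theorem rch' {p p' : Lv A w} {q q' : Lv A z} (k : R p q) (k' : R p' q')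
    (hr : Rch (LA A z \ Y) q q') : Rch (LA A w \ X) p p' :=
  h.lr.symm.rch (T := LA A w \ X) (fun a ha => let ⟨b, b1, b2⟩ := h.tot' a ha.2
    ⟨b, ⟨(h.lr.la b2).2 ha.1, b1⟩, b2⟩) k k' hr

theorem lb {p : Lv A w} {q : Lv A z} (k : R p q) : p ∈ LB A w ↔ q ∈ LB A z := by
  refine and_congr (h.lr.la k) ⟨fun ⟨a, a1, a2⟩ => ?_, fun ⟨a, a1, a2⟩ => ?_⟩
  · obtain ⟨b, -, b2⟩ := h.tot a fun j => a1 (h.xla j)
    exact ⟨b, fun j => a1 ((h.lr.la b2).2 j), (h.lr.le_iff b2 k).1 a2⟩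
  · obtain ⟨b, -, b2⟩ := h.tot' a fun j => a1 (h.nla (h.yn j))
    exact ⟨b, fun j => a1 ((h.lr.la b2).1 j), (h.lr.le_iff b2 k).2 a2⟩

theorem lb_notX {b : Lv A w} (hb : b ∈ LB A w) : b ∉ X := fun k =>
  let ⟨_, a1, a2⟩ := hb.2; a1 (h.xla (h.xlow a2 k))

theorem not_cls {p b : Lv A w} {q : Lv A z} (k : R p q) (hb : b ∈ LB A w)
    (hr : Rch (LA A w \ X) p b) : q ∉ Cls A z := fun hq => by
  obtain ⟨b', -, b2⟩ := h.tot b (h.lb_notX hb)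
  have := (h.lb b2).1 hb
  exact hq.2 ⟨b', ⟨this.1, (h.rch k b2 hr).mono Set.sdiff_subset⟩, this.2⟩

theorem near' {r x : Lv A w} (hr : r ∉ X) (hx : x ∈ X) (k : Cm r x) : ∃ n ∈ N, R r n :=
  let ⟨n, _, n2⟩ := h.tot r hr
  ⟨n, h.near r n x n2 hx (k.resolve_left fun j => hr (h.xlow j hx)), n2⟩

theorem meet (hn : NoCl A w) {q : Lv A z} (hq : q ∈ Cls A z) : ∃ n ∈ N, Rch (LA A z) q n := by
  by_cases hY : q ∈ Y
  · exact ⟨q, h.yn hY, Rch.rfl⟩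
  obtain ⟨p, p1, p2⟩ := h.tot' q hY
  obtain ⟨b, ⟨b1, b2⟩, b3⟩ := hn _ (isCmp_cmp ((h.lr.la p2).2 hq.1))
  rcases b2.exit p1 with ⟨-, k⟩ | ⟨r, r1, r2, x, -, x2, x3⟩
  · exact absurd hq (h.not_cls p2 ⟨b1, b3⟩ k)
  · obtain ⟨n, n1, n2⟩ := h.near' r1.2 x2 x3
    exact ⟨n, n1, (h.rch p2 n2 r2).mono Set.sdiff_subset⟩

theorem exists_open (hn : NoCl A w) : ∃ n ∈ N, n ∉ Cls A z := by
  obtain ⟨x, hx⟩ := h.xne
  obtain ⟨b, ⟨b1, b2⟩, b3⟩ := hn _ (isCmp_cmp (h.xla hx))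
  rcases b2.symm.exit (h.lb_notX ⟨b1, b3⟩) with ⟨k, -⟩ | ⟨r, r1, r2, x, -, x2, x3⟩
  · exact absurd hx k
  · obtain ⟨n, n1, n2⟩ := h.near' r1.2 x2 x3
    exact ⟨n, n1, h.not_cls n2 ⟨b1, b3⟩ r2.symm⟩

theorem j (hn : NoCl A w) {a b : Lv A z} (ha : a ∈ N) (hb : b ∈ N) (ha' : a ∈ Cls A z)
    (hb' : b ∈ Cls A z) : J a b := by
  obtain ⟨n, n1, n2⟩ := h.exists_open hn
  rcases h.two a ha b hb n n1 with k | k | k
  exacts [k, absurd (Cls.clopen ha' (h.jr a ha n n1 k)) n2,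
    absurd (Cls.clopen hb' (h.jr b hb n n1 k)) n2]

/-- at most one closed component is created -/
theorem conn (hn : NoCl A w) : Conn (Cls A z) := fun a ha b hb => by
  obtain ⟨m, m1, m2⟩ := h.meet hn ha
  obtain ⟨n, n1, n2⟩ := h.meet hn hb
  exact (sat_cls.rch ha ((m2.trans (h.jr m m1 n n1
    (h.j hn m1 n1 (Cls.clopen ha m2) (Cls.clopen hb n2)))).trans n2.symm)).mono
    Set.inter_subset_right

theorem le_two (hM : Mf 3 A) (hm : Mono A z) (hn : NoCl A w) : chiC (Cls A z) ≤ 2 :=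
  chiC_le_two hM hm (fun _ k => k.1) (fun a b k ha => (sat_cls a b k).1 ha) (h.conn hn)

/-- **INC**: if a sphere is created, the curve cuts a disc off the old surface -/
theorem inc (hM : Mf 3 A) (hm : Mono A z) (hw : Mono A w) (hn : NoCl A w)
    (h2 : 2 ≤ chiC (Cls A z)) : ∃ D, IsCmp (LA A w \ X) D ∧ ¬ Tch A w D ∧ chiC D = 1 ∧
      ∀ p ∈ D, ∃ q ∈ Cls A z, R p q := by
  have sub : Cls A z ∩ Y ⊆ LA A z := fun _ k => k.1.1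
  have h1 : chiC (Cls A z ∩ Y) ≤ 1 := by
    rw [Sf30.chiC_eq_ee hM hm sub,
      ee_lower (E := Cls A z ∩ Y) fun a b k ha => ⟨(sat_cls b a k).2 ha.1, h.ylow k ha.2⟩]
    refine Alg36.Mf.eu_le_one (Sf30.mf_LA hM hm) sub (fun a ha b hb => ?_) fun a ha => ?_
    · rw [Set.inter_comm]
      exact sat_cls.rch ha.1 (h.jy a ha.2 b hb.2 (h.j hn (h.yn ha.2) (h.yn hb.2) ha.1 hb.1))
    · obtain ⟨b, b1, b2⟩ := h.out a ha.2
      exact ⟨b, b2.mem ha.1.1, b2, b, fun k => b1 k.2, Cm.rfl⟩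
  let S : Set (Lv A w) := {p | p ∈ LA A w \ X ∧ ∃ q ∈ Cls A z, R p q}
  have hS : ∀ p ∈ S, ∀ q ∈ LA A w \ X, Cm p q → q ∈ S := by
    rintro p ⟨-, a, a1, a2⟩ q hq k
    obtain ⟨b, -, b2⟩ := h.tot q hq.2
    exact ⟨hq, b, Cls.clopen a1 (Rch.of_cm a1.1 ((h.lr.la b2).1 hq.1) ((h.lr.cm a2 b2).1 k)), b2⟩
  have e : chiC S = chiC (Cls A z \ Y) := h.lr.chiC
    (fun p ⟨hp, q, q1, q2⟩ => let ⟨b, b1, b2⟩ := h.tot p hp.2
      ⟨q, ⟨q1, h.lr.uniq b2 q2 ▸ b1⟩, q2⟩)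
    fun q hq => let ⟨p, p1, p2⟩ := h.tot' q hq.2
      ⟨p, ⟨⟨(h.lr.la p2).2 hq.1.1, p1⟩, q, hq.1, p2⟩, p2⟩
  rw [chiC_split _ Y] at h2
  obtain ⟨p, hp, pos⟩ := exists_cmp_pos (S := S) (fun _ k => k.1) hS (by omega)
  have hD := isCmp_cmp hp.1
  have hin : ∀ q ∈ cmp (LA A w \ X) p, q ∈ S := fun q k => (Rch.in_clopen hS hp k.2).mem hp
  have hT : ¬ Tch A w (cmp (LA A w \ X) p) := fun ⟨b, b1, b2⟩ =>
    let ⟨_, q1, q2⟩ := hp.2; h.not_cls q2 ⟨b1.1.1, b2⟩ b1.2 q1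
  refine ⟨_, hD, hT, le_antisymm ?_ pos, fun q k => (hin q k).2⟩
  obtain ⟨b, ⟨b1, b2⟩, b3⟩ := hn _ (isCmp_cmp hp.1.1)
  rcases b2.exit hp.1.2 with ⟨k1, k⟩ | ⟨r, r1, r2, x, -, x2, x3⟩
  · exact absurd ⟨b, ⟨⟨b1, k1⟩, k⟩, b3⟩ hT
  · exact chiC_le_one hM hw (fun _ k => k.1.1) (hD.upper (Sf30.la_upper.sdiff_of_isLowerSet h.xlow))
      hD.conn ⟨r1, r2⟩ (fun k => k.1.2 x2) x3

/-- **SWAP**, abstract form -/
theorem swap (hM : Mf 3 A) (hb : Bnd ℤ A) (hm : Mono A z) (hw : Sf A w) (he : Eqv A w z)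
    (hc : chi A z = chi A w + 2) :
    Sf A (cnt (Cls A z)ᶜ) ∧ Eqv A w (cnt (Cls A z)ᶜ) ∧ chi A w ≤ chi A (cnt (Cls A z)ᶜ) ∧
      (∀ x y, Dp A x y → cnt (Cls A z)ᶜ x y ≤ z x y) ∧
      (chi A w < chi A (cnt (Cls A z)ᶜ) ∨ ∃ D, IsCmp (LA A w \ X) D ∧ ¬ Tch A w D ∧ chiC D = 1 ∧
        ∀ p ∈ D, ∃ q ∈ Cls A z, R p q) := by
  obtain ⟨d1, d2, d3, d4⟩ := drop hb hm
  have := h.le_two hM hm hw.noCl
  refine ⟨d1, he.trans d2, by omega, d4, ?_⟩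
  by_cases k : 2 ≤ chiC (Cls A z)
  · exact Or.inr (h.inc hM hm hw.mono hw.noCl k)
  · exact Or.inl (by omega)

end Sg

/-! ### the two instances -/

/-- `E` is an open piece of the hypersurface `Q`, which is a lower set along `E` -/
structure Low (A Q E : Set P) : Prop where
  mf : Mf 2 (Subtype.val ⁻¹' E : Set Q)
  sub : E ⊆ A
  dn : ∀ y ∈ E, ∀ x, x ≤ y → x ∈ Q
  up : ∀ x ∈ E, ∀ y ∈ Q, x ≤ y → y ∈ E
  conn : Conn E
  ne : ∃ x, x ∉ E ∧ ∃ y ∈ E, x ≤ y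

/-- `E` is a closed piece of the hypersurface `Q`, which is an upper set along `E` -/
structure Upp (A Q E : Set P) : Prop where
  mf : Mf 2 (Subtype.val ⁻¹' E : Set Q)
  sub : E ⊆ A
  up : ∀ x ∈ E, ∀ y, x ≤ y → y ∈ Q
  dn : ∀ y ∈ E, ∀ x ∈ Q, x ≤ y → x ∈ E
  conn : Conn E
  ne : ∃ x ∈ E, ∃ y, y ∉ E ∧ x ≤ y

theorem rch_thin {a b : Ch P} (ha : ∀ x ∈ a.1, x ∈ E ∨ x ∉ Q) (hb : ∀ x ∈ b.1, x ∈ E ∨ x ∉ Q)
    (h : Rch (Nb Q E) a b) : Rch {c | c ∈ Nb Q E ∧ ∀ x ∈ c.1, x ∈ E ∨ x ∉ Q} a b := by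
  let r : Ch P → Ch P := fun c => if k : Mt E c then
    c.sub (c.1.filter fun x => x ∈ E ∨ x ∉ Q)
      (let ⟨x, h1, h2⟩ := k; ⟨x, mem_filter.2 ⟨h1, Or.inl h2⟩⟩) (filter_subset _ _) else c
  have r1 : ∀ c ∈ Nb Q E, (r c).1 = c.1.filter fun x => x ∈ E ∨ x ∉ Q := fun c hc => by
    simp only [r, dif_pos hc.1]; rfl
  have r2 : ∀ c ∈ Nb Q E, r c ∈ {c | c ∈ Nb Q E ∧ ∀ x ∈ c.1, x ∈ E ∨ x ∉ Q} := fun c hc => by
    obtain ⟨⟨x, x1, x2⟩, y, y1, y2⟩ := id hc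
    exact ⟨⟨⟨x, r1 c hc ▸ mem_filter.2 ⟨x1, Or.inl x2⟩, x2⟩, y,
      r1 c hc ▸ mem_filter.2 ⟨y1, Or.inr y2⟩, y2⟩, fun t ht => by
        rw [r1 c hc] at ht; exact (mem_filter.1 ht).2⟩
  have r3 : ∀ c : Ch P, (∀ x ∈ c.1, x ∈ E ∨ x ∉ Q) → r c = c := fun c hc => by
    simp only [r]
    split_ifs
    exacts [Ch.ext (filter_true_of_mem hc), rfl]
  have := h.map (f := r) fun c hc d hd k => Rch.of_cm (r2 c hc) (r2 d hd) (Or.inl (by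
    rw [Ch.le_iff, r1 c hc, r1 d hd]; exact filter_subset_filter _ k))
  rwa [r3 a ha, r3 b hb] at this

theorem exists_far (hM : Mf 3 A) (hQ : Mf 2 (Subtype.val ⁻¹' E : Set Q)) (hE : E ⊆ A) (hEQ : E ⊆ Q)
    (hc : Conn E) {x y : P} (hx : x ∈ Q) (hy : y ∈ E) (k : Cm x y) {a : Ch P} (ha : a ∈ Nb Q E) :
    ∃ t : Ch P, x ∈ t.1 ∧ Rch (Nb Q E) a t := by
  let c : Ch Q := (Ch.pt ⟨y, hEQ hy⟩).ins ⟨x, hx⟩ fun t ht => mem_singleton.1 ht ▸ k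
  have m : Mt (Subtype.val ⁻¹' E) c := ⟨⟨y, hEQ hy⟩, Ch.le_ins _ _ _ (mem_singleton_self _), hy⟩
  obtain ⟨e, e1, e2⟩ := hQ.pure c m
  obtain ⟨t, t1, t2⟩ := side_all hM hQ hE hEQ hc ha (m.mono e1) e2
  have hx' : (⟨x, hx⟩ : Q) ∈ c.1 := by simp [c]
  exact ⟨t, t1.le (Ch.val_mem_up.2 (e1 hx')), t2⟩

theorem Low.subQ (h : Low A Q E) : E ⊆ Q := fun x hx => h.dn x hx x le_rfl
theorem Upp.subQ (h : Upp A Q E) : E ⊆ Q := fun x hx => h.up x hx x le_rfl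

theorem Low.nb_iff (h : Low A Q E) {c : Ch P} : c ∈ Nb Q E ↔ Mt E c ∧ c.top ∉ E :=
  and_congr_right fun ⟨x, x1, x2⟩ => ⟨fun ⟨t, t1, t2⟩ k => t2 (h.dn _ k t (Ch.le_top t1)),
    fun k => ⟨c.top, c.top_mem, fun j => k (h.up x x2 _ j (Ch.le_top x1))⟩⟩

theorem Upp.nb_iff (h : Upp A Q E) {c : Ch P} : c ∈ Nb Q E ↔ Mt E c ∧ c.bot ∉ E :=
  and_congr_right fun ⟨x, x1, x2⟩ => ⟨fun ⟨t, t1, t2⟩ k => t2 (h.up _ k t (Ch.bot_le t1)),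
    fun k => ⟨c.bot, c.bot_mem, fun j => k (h.dn x x2 _ j (Ch.bot_le x1))⟩⟩

omit [IsCoc A w] in
theorem Low.sg (h : Low A Q E) (hM : Mf 3 A) (hv : Mv A z E) :
    Sg (fun p q => MR q p) (CX A z E) (CY A z E) (NY A z E)
      fun a b => Rch (Nb Q E) a.1.1 b.1.1 := by
  have nb : ∀ a ∈ NY A z E, a.1.1 ∈ Nb Q E := fun a ha =>
    h.nb_iff.2 ⟨let ⟨x, x1, x2, _⟩ := ha; ⟨x, x1, x2⟩, hv.NY_top ha⟩
  have S : ∀ c ∈ Nb Q E, Mt A c ∧ Mt E c ∧ c.top ∉ E := fun c hc =>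
    ⟨hc.1.sub h.sub, h.nb_iff.1 hc⟩
  have jr : ∀ a ∈ NY A z E, ∀ b ∈ NY A z E, Rch (Nb Q E) a.1.1 b.1.1 → Rch (LA A z) a b :=
    fun a ha b hb k => (hv.rch_NY S ha hb k).mono fun r hr => (S _ hr.2).1
  have thin : ∀ a ∈ CY A z E, ∀ x ∈ a.1.1.1, x ∈ E ∨ x ∉ Q := fun a ha x hx =>
    or_iff_not_imp_right.2 fun k => h.up _ ha.1 x (not_not.1 k) (Ch.bot_le hx)
  obtain ⟨x, hx, y, hy, hxy⟩ := h.ne
  refine ⟨(lr_mr E).symm, fun p hp => let ⟨q, k⟩ := exists_mr' hp; ⟨q, k.notY, k⟩,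
    fun q hq => let ⟨p, k⟩ := exists_mr hq; ⟨p, k.notX, k⟩, fun _ _ k a => hv.X_low a k,
    fun p hp => ⟨_, p.1.1.top_mem, h.sub hp.1⟩, ?_, fun _ _ k a => hv.Y_low a k,
    fun _ => Y_sub_NY, fun a ha => (S _ (nb a ha)).1,
    fun p q x k hx l => k.nb.2 (NX.upper (X_sub_NX hx) l),
    fun a ha b hb c hc => side hM h.mf h.sub h.subQ h.conn (nb a ha) (nb b hb) (nb c hc), jr,
    fun a ha b hb k => ?_, fun a ha => ?_⟩
  · obtain ⟨p, hp, -⟩ := hv.exists_X (c := Ch.pr x y hxy) ((dom_pr hxy).2 (Dp.of_right (h.sub hy) hxy))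
      (by simpa) (by simpa)
    exact ⟨p, hp⟩
  · refine (hv.rch_NY (fun c hc => S c hc.1) (Y_sub_NY ha) (Y_sub_NY hb)
      (rch_thin (thin a ha) (thin b hb) k)).mono ?_
    rintro r ⟨⟨t, t1, t2, t3⟩, -, r2⟩
    have hb := (r2 _ r.1.1.bot_mem).resolve_right (not_not.2 (h.dn t t2 _ (Ch.bot_le t1)))
    exact ⟨hb, t3.trans (hv.flat _ _ (r.2.1.dp r.1.1.bot_mem t1 (Ch.bot_le t1)) hb t2)⟩
  · have hxQ := h.dn y hy x hxy
    obtain ⟨t, t1, t2⟩ := exists_far hM h.mf h.sub h.subQ h.conn hxQ hy (Or.inl hxy)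
      (nb a (Y_sub_NY ha))
    obtain ⟨s1, s2, s3⟩ := S t (t2.mem (nb a (Y_sub_NY ha)))
    obtain ⟨b, b1, rfl⟩ := hv.exists_NY s1.dom s2 s3
    exact ⟨b, fun k => hx ((thin b k x t1).resolve_right (not_not.2 hxQ)),
      jr a (Y_sub_NY ha) b b1 t2⟩

omit [IsCoc A w] in
theorem Upp.sg (h : Upp A Q E) (hM : Mf 3 A) (hv : Mv A z E) :
    Sg MR (CY A z E) (CX A z E) (NX A z E) fun a b => Rch (Nb Q E) a.1.1 b.1.1 := by
  have nb : ∀ a ∈ NX A z E, a.1.1 ∈ Nb Q E := fun a ha =>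
    h.nb_iff.2 ⟨let ⟨x, x1, x2, _⟩ := ha; ⟨x, x1, x2⟩, hv.NX_bot ha⟩
  have S : ∀ c ∈ Nb Q E, Mt A c ∧ Mt E c ∧ c.bot ∉ E := fun c hc =>
    ⟨hc.1.sub h.sub, h.nb_iff.1 hc⟩
  have jr : ∀ a ∈ NX A z E, ∀ b ∈ NX A z E, Rch (Nb Q E) a.1.1 b.1.1 →
      Rch (LA A (Hp13.up z E)) a b :=
    fun a ha b hb k => (hv.rch_NX S ha hb k).mono fun r hr => (S _ hr.2).1
  have thin : ∀ a ∈ CX A z E, ∀ x ∈ a.1.1.1, x ∈ E ∨ x ∉ Q := fun a ha x hx =>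
    or_iff_not_imp_right.2 fun k => h.dn _ ha.1 x (not_not.1 k) (Ch.le_top hx)
  obtain ⟨y, hy, x, hx, hxy⟩ := h.ne
  refine ⟨lr_mr E, fun q hq => let ⟨p, k⟩ := exists_mr hq; ⟨p, k.notX, k⟩,
    fun p hp => let ⟨q, k⟩ := exists_mr' hp; ⟨q, k.notY, k⟩, fun _ _ k a => hv.Y_low a k,
    fun p hp => ⟨_, p.1.1.bot_mem, h.sub hp.1⟩, ?_, fun _ _ k a => hv.X_low a k,
    fun _ => X_sub_NX, fun a ha => (S _ (nb a ha)).1,
    fun p q x k hx l => k.nb.1 (NY.upper (Y_sub_NY hx) l),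
    fun a ha b hb c hc => side hM h.mf h.sub h.subQ h.conn (nb a ha) (nb b hb) (nb c hc), jr,
    fun a ha b hb k => ?_, fun a ha => ?_⟩
  · obtain ⟨p, hp, -⟩ := hv.exists_Y (c := Ch.pr y x hxy) ((dom_pr hxy).2 (Dp.of_left (h.sub hy) hxy))
      (by simpa) (by simpa)
    exact ⟨p, hp⟩
  · refine (hv.rch_NX (fun c hc => S c hc.1) (X_sub_NX ha) (X_sub_NX hb)
      (rch_thin (thin a ha) (thin b hb) k)).mono ?_
    rintro r ⟨⟨t, t1, t2, t3⟩, -, r2⟩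
    have hb := (r2 _ r.1.1.top_mem).resolve_right (not_not.2 (h.up t t2 _ (Ch.le_top t1)))
    refine ⟨hb, ?_⟩
    rw [t3, up_apply, up_apply, ind_of_mem t2, ind_of_mem hb,
      hv.z_eq r.2.1 t1 r.1.1.top_mem t2 hb]
  · have hxQ := h.up y hy x hxy
    obtain ⟨t, t1, t2⟩ := exists_far hM h.mf h.sub h.subQ h.conn hxQ hy (Or.inr hxy)
      (nb a (X_sub_NX ha))
    obtain ⟨s1, s2, s3⟩ := S t (t2.mem (nb a (X_sub_NX ha)))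
    obtain ⟨b, b1, rfl⟩ := hv.exists_NX s1.dom s2 s3
    exact ⟨b, fun k => hx ((thin b k x t1).resolve_right (not_not.2 hxQ)),
      jr a (X_sub_NX ha) b b1 t2⟩

/-! ### Euler characteristics of the pieces -/

omit [IsCoc A z] [IsCoc A w]

theorem sum_up_eq (p : Ch P → Prop) [DecidablePred p] (hp : ∀ c, p c → ∀ x ∈ c.1, x ∈ Q) :
    ∑ c ∈ univ.filter p, c.sg = ∑ c ∈ univ.filter (fun c : Ch Q => p c.up), c.sg := by
  symm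
  refine sum_bij (fun c _ => c.up) (fun c hc => mem_filter.2 ⟨mem_univ _, (mem_filter.1 hc).2⟩)
    (fun _ _ _ _ => Ch.up_inj) (fun c hc => ?_) fun c _ => c.sg_up.symm
  obtain ⟨d, rfl⟩ := Ch.exists_up (hp c (mem_filter.1 hc).2)
  exact ⟨d, mem_filter.2 ⟨mem_univ _, (mem_filter.1 hc).2⟩, rfl⟩

theorem eu_val (hE : E ⊆ Q) : eu (Subtype.val ⁻¹' E : Set Q) = eu E := by
  rw [eu, eu, sum_up_eq (Q := Q) (fun c => ∀ x ∈ c.1, x ∈ E) fun c h x hx => hE (h x hx)]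
  congr 2
  ext c
  simp only [mem_filter, mem_univ, true_and]
  exact ⟨fun h x hx => let ⟨k, j⟩ := Ch.mem_up.1 hx; h ⟨x, k⟩ j,
    fun h x hx => h x.1 (Ch.val_mem_up.2 hx)⟩

theorem eps_val {a : Q} (h : ∀ x, x ≤ a.1 → x ∈ Q) : eps a = eps a.1 := by
  rw [eps, eps, sum_up_eq (Q := Q) (fun c => c.top = a.1) fun c k x hx => h x (k ▸ Ch.le_top hx)]
  congr 2
  ext c
  simp only [mem_filter, mem_univ, true_and, Ch.top_up, Subtype.ext_iff]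

theorem bet_val {a : Q} (h : ∀ x, a.1 ≤ x → x ∈ Q) : bet a = bet a.1 := by
  rw [bet, bet, sum_up_eq (Q := Q) (fun c => c.bot = a.1) fun c k x hx => h x (k ▸ Ch.bot_le hx)]
  congr 1
  ext c
  simp only [mem_filter, mem_univ, true_and, Ch.bot_up, Subtype.ext_iff]

theorem sum_val (hE : E ⊆ Q) (F : P → ℤ) :
    ∑ a ∈ univ.filter (· ∈ (Subtype.val ⁻¹' E : Set Q)), F a.1 = ∑ a ∈ univ.filter (· ∈ E), F a :=
  sum_bij (fun a _ => a.1) (fun _ ha => mem_filter.2 ⟨mem_univ _, (mem_filter.1 ha).2⟩)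
    (fun _ _ _ _ => Subtype.ext) (fun a ha => ⟨⟨a, hE (mem_filter.1 ha).2⟩,
      mem_filter.2 ⟨mem_univ _, (mem_filter.1 ha).2⟩, rfl⟩) fun _ _ => rfl

theorem Low.ee_eq (h : Low A Q E) : ee E = eu E := by
  rw [← eu_val h.subQ, Sf30.eu_upper (U := (Subtype.val ⁻¹' E : Set Q))
    fun a b k ha => h.up _ ha _ b.2 k, ee, ← sum_val h.subQ,
    ← sum_neg_distrib]
  refine sum_congr rfl fun a ha => ?_
  have ha := (mem_filter.1 ha).2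
  rw [h.mf.bet_eq ha, eps_val (h.dn _ ha)]
  ring

theorem Upp.ee_eq (h : Upp A Q E) (hM : Mf 3 A) : ee E = -eu E := by
  rw [← eu_val h.subQ, ← ee_lower (E := (Subtype.val ⁻¹' E : Set Q))
    fun a b k ha => h.dn _ ha _ b.2 k, ee, ee, ← sum_val h.subQ,
    ← sum_neg_distrib]
  refine sum_congr rfl fun a ha => ?_
  have ha := (mem_filter.1 ha).2
  have e1 := h.mf.bet_eq ha
  have e2 := hM.bet_eq (h.sub ha)
  rw [bet_val (h.up _ ha)] at e1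
  linear_combination e1 - e2

/-- **SWAP, raising**: the disc `E` lies below the curve -/
theorem swap_up (hM : Mf 3 A) (hb : Bnd ℤ A) (h : Upp A Q E) (he : eu E = 1) (hz : Sf A z)
    (h1 : ∀ x y, Dp A x y → x ∈ E → y ∉ E → 1 ≤ z x y)
    (h2 : ∀ x y, Dp A x y → x ∈ E → y ∈ E → z x y = 0) :
    ∃ z', Sf A z' ∧ Eqv A z z' ∧ chi A z ≤ chi A z' ∧
      (∀ x y, Dp A x y → z' x y ≤ z x y + (ind E y - ind E x)) ∧
      (chi A z < chi A z' ∨ ∀ _ : IsCoc A z,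
        ∃ D, IsCmp (LA A z \ CY A z E) D ∧ ¬ Tch A z D ∧ chiC D = 1) := by
  haveI : IsCoc A z := ⟨hz.coc⟩
  have hv := mv_of_raise hz.mono h1 h2
  obtain ⟨a, b, c, d, e⟩ := (h.sg hM hv).swap hM hb hv.hi hz (eqv_up h.sub)
    (by rw [chi_up hM h.sub, h.ee_eq hM, he]; ring)
  exact ⟨_, a, b, c, d, e.imp_right fun ⟨D, k1, k2, k3, _⟩ _ => ⟨D, k1, k2, k3⟩⟩

/-- **SWAP, lowering**: the disc `E` lies above the curve; `up z E` is the old surface -/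
theorem swap_low' (hM : Mf 3 A) (hb : Bnd ℤ A) (h : Low A Q E) (he : eu E = 1) (hv : Mv A z E)
    (hz : Sf A (up z E)) :
    ∃ z', Sf A z' ∧ Eqv A (up z E) z' ∧ chi A (up z E) ≤ chi A z' ∧
      (∀ x y, Dp A x y → z' x y ≤ z x y) ∧
      (chi A (up z E) < chi A z' ∨ ∀ _ : IsCoc A (up z E),
        ∃ D, IsCmp (LA A (up z E) \ CX A z E) D ∧ ¬ Tch A (up z E) D ∧ chiC D = 1) := by
  haveI : IsCoc A z := ⟨by simpa [up] using hz.coc.sub (coc_cb (ind E))⟩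
  obtain ⟨a, b, c, d, e⟩ := (h.sg hM hv).swap hM hb hv.lo hz (eqv_up h.sub).symm
    (by rw [chi_up hM h.sub, h.ee_eq, he]; ring)
  exact ⟨_, a, b, c, d, e.imp_right fun ⟨D, k1, k2, k3, _⟩ _ => ⟨D, k1, k2, k3⟩⟩

/-- the cells of `w` just below `E` -/
def CW (A : Set P) (w : P → P → ℤ) (E : Set P) : Set (Lv A w) :=
  {p | p.1.1.top ∈ E ∧ p.1.2 + 1 = w p.1.1.bot p.1.1.top}

/-- **SWAP, lowering** -/
theorem swap_low (hM : Mf 3 A) (hb : Bnd ℤ A) (h : Low A Q E) (he : eu E = 1) (hw : Sf A w)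
    (h1 : ∀ x y, Dp A x y → x ∉ E → y ∈ E → 1 ≤ w x y)
    (h2 : ∀ x y, Dp A x y → x ∈ E → y ∈ E → w x y = 0) :
    ∃ w', Sf A w' ∧ Eqv A w w' ∧ chi A w ≤ chi A w' ∧
      (∀ x y, Dp A x y → w' x y ≤ w x y - (ind E y - ind E x)) ∧
      (chi A w < chi A w' ∨ ∀ _ : IsCoc A w,
        ∃ D, IsCmp (LA A w \ CW A w E) D ∧ ¬ Tch A w D ∧ chiC D = 1) := by
  have hv := mv_of_lower hw.mono h1 h2
  obtain ⟨z, rfl⟩ : ∃ z, w = up z E := ⟨_, (up_sub w E).symm⟩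
  have e : up z E - cb (ind E) = z := add_sub_cancel_right _ _
  rw [e] at hv
  obtain ⟨z', a, b, c, d, f⟩ := swap_low' hM hb h he hv hw
  exact ⟨z', a, b, c, fun x y k => by rw [up_apply, add_sub_cancel_right]; exact d x y k, f⟩

end Crest.Agent.X212.Hp13
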