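import Mathlib

/-!
# X212 / Hp13 (helper13): the calculus of monotone cocycles, definitions

* `Ch P`: nonempty chains of a finite poset (simplices of the order complex), again a finite poset.
* a SUTURED MANIFOLD is an order convex subset `A` of `P`; it is the part of the order complex where
  the barycentric weight of `A` is `≥ ε`.  The points below `A` are `O₋`, those above are `O₊`.
* a SURFACE is a monotone cocycle `z`; its cells are `Lv A z`; `chi A z` is LINEAR in `z`.
-/

set_option autoImplicit false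
set_option linter.unusedSectionVars false

open Finset Classical

noncomputable section

namespace Crest.Agent.X212.Hp13

/-- nonempty chains -/
def Ch (P : Type) [PartialOrder P] : Type :=
  {c : Finset P // c.Nonempty ∧ IsChain (· ≤ ·) (c : Set P)}

section basic

variable {P : Type} [PartialOrder P]

instance : PartialOrder (Ch P) := Subtype.partialOrder _

instance [Fintype P] : Fintype (Ch P) :=
  inferInstanceAs (Fintype {c : Finset P // c.Nonempty ∧ IsChain (· ≤ ·) (c : Set P)})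

namespace Ch

theorem le_iff {c d : Ch P} : c ≤ d ↔ c.1 ⊆ d.1 := Iff.rfl

@[ext] theorem ext {c d : Ch P} (h : c.1 = d.1) : c = d := Subtype.ext h

theorem total (c : Ch P) {x y : P} (hx : x ∈ c.1) (hy : y ∈ c.1) : x ≤ y ∨ y ≤ x :=
  c.2.2.total (mem_coe.2 hx) (mem_coe.2 hy)

theorem ex_top (c : Ch P) : ∃ t ∈ c.1, ∀ x ∈ c.1, x ≤ t := by
  obtain ⟨t, ht⟩ := c.1.exists_maximal c.2.1
  exact ⟨t, ht.1, fun x hx => (c.total hx ht.1).elim id fun h => ht.2 hx h⟩

theorem ex_bot (c : Ch P) : ∃ t ∈ c.1, ∀ x ∈ c.1, t ≤ x := by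
  obtain ⟨t, ht⟩ := c.1.exists_minimal c.2.1
  exact ⟨t, ht.1, fun x hx => (c.total ht.1 hx).elim id fun h => ht.2 hx h⟩

/-- the largest element -/
def top (c : Ch P) : P := c.ex_top.choose

/-- the least element -/
def bot (c : Ch P) : P := c.ex_bot.choose

theorem top_mem (c : Ch P) : c.top ∈ c.1 := c.ex_top.choose_spec.1
theorem bot_mem (c : Ch P) : c.bot ∈ c.1 := c.ex_bot.choose_spec.1
theorem le_top {c : Ch P} {x : P} (h : x ∈ c.1) : x ≤ c.top := c.ex_top.choose_spec.2 x h
theorem bot_le {c : Ch P} {x : P} (h : x ∈ c.1) : c.bot ≤ x := c.ex_bot.choose_spec.2 x h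
theorem bot_le_top (c : Ch P) : c.bot ≤ c.top := bot_le c.top_mem
theorem top_eq {c : Ch P} {t : P} (h : t ∈ c.1) (h' : ∀ x ∈ c.1, x ≤ t) : c.top = t :=
  le_antisymm (h' _ c.top_mem) (le_top h)
theorem bot_eq {c : Ch P} {t : P} (h : t ∈ c.1) (h' : ∀ x ∈ c.1, t ≤ x) : c.bot = t :=
  le_antisymm (bot_le h) (h' _ c.bot_mem)
theorem top_mono : Monotone (top : Ch P → P) := fun c _ h => le_top (h c.top_mem)
theorem bot_anti : Antitone (bot : Ch P → P) := fun c _ h => bot_le (h c.bot_mem)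

/-- the one point chain -/
def pt (x : P) : Ch P := ⟨{x}, singleton_nonempty x, by simp⟩

@[simp] theorem pt_val (x : P) : (pt x).1 = {x} := rfl
@[simp] theorem top_pt (x : P) : (pt x).top = x := mem_singleton.1 (pt x).top_mem
@[simp] theorem bot_pt (x : P) : (pt x).bot = x := mem_singleton.1 (pt x).bot_mem

/-- the sign `(-1)^|c|` -/
def sg (c : Ch P) : ℤ := (-1) ^ c.1.card

end Ch

/-- comparable -/
def Cm (a x : P) : Prop := a ≤ x ∨ x ≤ a

/-- the chain meets `A` (an interior cell of the manifold `A`) -/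
def Mt (A : Set P) (c : Ch P) : Prop := ∃ a ∈ c.1, a ∈ A

/-- the chain is a face of a chain meeting `A` -/
def Dom (A : Set P) (c : Ch P) : Prop := ∃ a ∈ A, ∀ x ∈ c.1, Cm a x

/-- the pair `x ≤ y` is an edge of a chain meeting `A` -/
def Dp (A : Set P) (x y : P) : Prop := x ≤ y ∧ ∃ a ∈ A, Cm a x ∧ Cm a y

/-- cocycle (values in any abelian group) on the star of `A` -/
def Coc {G : Type} [AddCommGroup G] (A : Set P) (z : P → P → G) : Prop :=
  ∀ a ∈ A, ∀ x y w, x ≤ y → y ≤ w → Cm a x → Cm a y → Cm a w → z x w = z x y + z y w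

/-- monotone on the star of `A` -/
def Mono (A : Set P) (z : P → P → ℤ) : Prop := ∀ x y, Dp A x y → 0 ≤ z x y

/-- coboundary -/
def cb {G : Type} [AddCommGroup G] (g : P → G) : P → P → G := fun x y => g y - g x

/-- indicator -/
def ind (E : Set P) : P → ℤ := fun x => if x ∈ E then 1 else 0

/-- equal on the star of `A` -/
def EqD {G : Type} (A : Set P) (z z' : P → P → G) : Prop := ∀ x y, Dp A x y → z x y = z' x y

/-- same class relative to the boundary -/
def Eqv {G : Type} [AddCommGroup G] (A : Set P) (z z' : P → P → G) : Prop :=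
  ∃ g : P → G, (∀ x, x ∉ A → g x = 0) ∧ EqD A z' (z + cb g)

/-- no boundary: zero on the edges off `A` -/
def Cl0 {G : Type} [AddCommGroup G] (A : Set P) (z : P → P → G) : Prop :=
  ∀ x y, Dp A x y → x ∉ A → y ∉ A → z x y = 0

/-- every closed surface bounds (`H¹(M, ∂M; G) = 0`) -/
def Bnd (G : Type) [AddCommGroup G] (A : Set P) : Prop :=
  ∀ z : P → P → G, Coc A z → Cl0 A z → Eqv A 0 z

/-- `R₋` -/
def Rm (A : Set P) : P → P → ℤ := cb (ind {x | ∃ a ∈ A, a ≤ x})

/-- `R₊` -/
def Rp (A : Set P) : P → P → ℤ := cb (ind {x | x ∉ A ∧ ∃ a ∈ A, a ≤ x})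

/-- joined inside `E` -/
def Rch (E : Set P) : P → P → Prop :=
  Relation.ReflTransGen fun x y => x ∈ E ∧ y ∈ E ∧ Cm x y

/-- the component of `x` in `E` -/
def cmp (E : Set P) (x : P) : Set P := {y | y ∈ E ∧ Rch E x y}

/-- `C` is a component of `E` -/
def IsCmp (E C : Set P) : Prop := ∃ x ∈ E, C = cmp E x

/-- connected (and possibly empty) -/
def Conn (E : Set P) : Prop := ∀ x ∈ E, ∀ y ∈ E, Rch E x y

/-- cocycle on the full subposet `E` -/
def CocOn {G : Type} [AddCommGroup G] (E : Set P) (z : P → P → G) : Prop :=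
  ∀ x ∈ E, ∀ y ∈ E, ∀ w ∈ E, x ≤ y → y ≤ w → z x w = z x y + z y w

/-- exact on the full subposet `E` -/
def ExOn {G : Type} [AddCommGroup G] (E : Set P) (z : P → P → G) : Prop :=
  ∃ g : P → G, ∀ x ∈ E, ∀ y ∈ E, x ≤ y → z x y = g y - g x

/-- pull back along a map -/
def pb {G Q : Type} (f : Q → P) (z : P → P → G) : Q → Q → G := fun x y => z (f x) (f y)

/-- the reversed surface, one level up; the region is `top ⁻¹' A` again and the boundary data
are reversed by `bot` as well -/
def rev {G : Type} (z : P → P → G) : Ch P → Ch P → G := fun c d => z d.bot c.bot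

/-- the cells of the level set of `z`: a chain and a level -/
def Lv (A : Set P) (z : P → P → ℤ) : Type :=
  {p : Ch P × ℤ // Dom A p.1 ∧ 0 ≤ p.2 ∧ p.2 < z p.1.bot p.1.top}

/-- the face relation of the cells -/
def Lv.le {A : Set P} {z : P → P → ℤ} (p q : Lv A z) : Prop :=
  p = q ∨ (p.1.1 < q.1.1 ∧ q.1.2 = p.1.2 + z q.1.1.bot p.1.1.bot)

theorem Dom.mono {A : Set P} {c d : Ch P} (h : Dom A d) (hc : c ≤ d) : Dom A c :=
  let ⟨a, ha, h⟩ := h; ⟨a, ha, fun x hx => h x (hc hx)⟩

theorem Mt.dom {A : Set P} {c : Ch P} (h : Mt A c) : Dom A c :=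
  let ⟨a, ha, h⟩ := h; ⟨a, h, fun _ hx => c.total ha hx⟩

theorem Mt.mono {A : Set P} {c d : Ch P} (h : Mt A c) (hc : c ≤ d) : Mt A d :=
  let ⟨a, ha, h⟩ := h; ⟨a, hc ha, h⟩

theorem Dom.dp {A : Set P} {c : Ch P} (h : Dom A c) {x y : P} (hx : x ∈ c.1) (hy : y ∈ c.1)
    (hxy : x ≤ y) : Dp A x y :=
  let ⟨a, ha, h⟩ := h; ⟨hxy, a, ha, h x hx, h y hy⟩

theorem Coc.add' {G : Type} [AddCommGroup G] {A : Set P} {z : P → P → G} (hz : Coc A z)
    {c : Ch P} (h : Dom A c) {x y w : P} (hx : x ∈ c.1) (hy : y ∈ c.1) (hw : w ∈ c.1)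
    (hxy : x ≤ y) (hyw : y ≤ w) : z x w = z x y + z y w :=
  let ⟨a, ha, h⟩ := h; hz a ha x y w hxy hyw (h x hx) (h y hy) (h w hw)

/-- a cocycle packaged (needed for the order on `Lv`) -/
class IsCoc (A : Set P) (z : P → P → ℤ) : Prop where
  coc : Coc A z

instance {A : Set P} {z : P → P → ℤ} [hz : IsCoc A z] : PartialOrder (Lv A z) where
  le := Lv.le
  le_refl _ := Or.inl rfl
  le_trans p q r := by
    rintro (rfl | ⟨h1, h2⟩) h
    · exact h
    rcases h with rfl | ⟨h3, h4⟩
    · exact Or.inr ⟨h1, h2⟩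
    refine Or.inr ⟨h1.trans h3, ?_⟩
    rw [h4, h2, hz.coc.add' r.2.1 r.1.1.bot_mem (h3.le q.1.1.bot_mem)
      ((h1.trans h3).le p.1.1.bot_mem) (Ch.bot_anti h3.le) (Ch.bot_anti h1.le)]
    ring
  le_antisymm p q := by
    rintro (rfl | ⟨h1, -⟩) h
    · rfl
    rcases h with rfl | ⟨h3, -⟩
    · rfl
    exact absurd (h1.trans h3) (lt_irrefl _)

/-- the interior cells of the level set; `(Lv A z, LA A z)` is a state of one dimension less -/
def LA (A : Set P) (z : P → P → ℤ) : Set (Lv A z) := {p | Mt A p.1.1}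

/-- a set `C` of interior cells touches the boundary -/
def Tch (A : Set P) (z : P → P → ℤ) (C : Set (Lv A z)) : Prop :=
  ∃ p ∈ C, ∃ q : Lv A z, q ∉ LA A z ∧ Lv.le q p

/-- no closed component -/
def NoCl (A : Set P) (z : P → P → ℤ) [IsCoc A z] : Prop :=
  ∀ C, IsCmp (LA A z) C → Tch A z C

/-- the boundary cells: an interior cell together with the fact that the part of its chain off
`A` sees the level -/
def LB (A : Set P) (z : P → P → ℤ) : Set (Lv A z) :=
  {p | p ∈ LA A z ∧ ∃ q : Lv A z, q ∉ LA A z ∧ Lv.le q p}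

/-- the part of `z` carried by a set `C` of cells (for `C` a union of components of `LA`:
a monotone cocycle whose level set is `C`) -/
def part (A : Set P) (z : P → P → ℤ) (C : Set (Lv A z)) : P → P → ℤ := fun x y =>
  ((Finset.Ico 0 (z x y)).filter fun k => ∃ q : Lv A z, q.1.1.1 = {x, y} ∧ q.1.2 = k ∧
    ∃ p ∈ C, Lv.le q p).card

end basic

section fin

variable {P : Type} [PartialOrder P] [Fintype P]

instance (A : Set P) (z : P → P → ℤ) : Fintype (Lv A z) :=
  have : Finite (Lv A z) := by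
    refine Set.Finite.to_subtype (s := {p : Ch P × ℤ | Dom A p.1 ∧ 0 ≤ p.2 ∧ p.2 < z p.1.bot p.1.top}) ?_
    refine (Set.finite_iUnion fun c : Ch P =>
      (Set.finite_singleton c).prod (Set.finite_Ico 0 (z c.bot c.top))).subset ?_
    rintro ⟨c, k⟩ h
    exact Set.mem_iUnion.2 ⟨c, rfl, h.2⟩
  Fintype.ofFinite _

/-- Euler characteristic of the level set (for monotone `z`); linear in `z` -/
def chi (A : Set P) (z : P → P → ℤ) : ℤ :=
  ∑ c ∈ univ.filter (Mt A), c.sg * z c.bot c.top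

/-- the sign `(-1)^dim` of a cell -/
def eps (a : P) : ℤ := -∑ c ∈ univ.filter fun c : Ch P => c.top = a, c.sg

/-- compactly supported Euler characteristic of a set of cells -/
def ee (E : Set P) : ℤ := ∑ a ∈ univ.filter (· ∈ E), eps a

/-- Euler characteristic of a set of cells of a level set -/
def chiC {A : Set P} {z : P → P → ℤ} (C : Set (Lv A z)) : ℤ :=
  ∑ p ∈ univ.filter (· ∈ C), p.1.1.sg

/-- Euler characteristic of the order complex of `E` -/
def eu (E : Set P) : ℤ := -∑ c ∈ univ.filter (fun c : Ch P => ∀ x ∈ c.1, x ∈ E), c.sg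

/-- contractible as far as we can see -/
structure Ctr (E : Set P) : Prop where
  ne : E.Nonempty
  conn : Conn E
  ex : ∀ (G : Type) [AddCommGroup G] (z : P → P → G), CocOn E z → ExOn E z
  eu : eu E = 1

/-- the complement of `A` is thick along `A` -/
def Nice (A : Set P) : Prop :=
  ∀ c : Ch P, Dom A c → ¬ Mt A c → Ctr {a | a ∈ A ∧ ∀ x ∈ c.1, Cm a x}

/-- the order complex is a `d`-manifold (`d ≤ 3`) along `A` -/
structure Mf (d : ℕ) (A : Set P) : Prop where
  card_le : ∀ c : Ch P, Mt A c → c.1.card ≤ d + 1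
  eul : ∀ c : Ch P, Mt A c → ∑ c' ∈ univ.filter (c ≤ ·), c'.sg = (-1) ^ (d + 1)
  conn : ∀ c : Ch P, Mt A c → c.1.card < d → Conn {c' | c < c'}
  pure : ∀ c : Ch P, Mt A c → ∃ c', c ≤ c' ∧ c'.1.card = d + 1

/-- a surface: monotone cocycle without closed component -/
def Sf (A : Set P) (z : P → P → ℤ) : Prop :=
  Mono A z ∧ ∃ _ : IsCoc A z, NoCl A z

/-- a disc component -/
def IsDisc (A : Set P) (z : P → P → ℤ) [IsCoc A z] (C : Set (Lv A z)) : Prop :=
  IsCmp (LA A z) C ∧ Tch A z C ∧ chiC C = 1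

/-- a sphere component -/
def IsSph (A : Set P) (z : P → P → ℤ) [IsCoc A z] (C : Set (Lv A z)) : Prop :=
  IsCmp (LA A z) C ∧ ¬ Tch A z C ∧ 0 < chiC C

/-- number of ARCS of `∂S ∩ γ` (`γ` the suture annuli), linear in `z`; it is half the sum of
`z x₁ x₂` over the chains `x₁ < x₂ < a < y` and of `z y₁ y₂` over the chains `x < a < y₁ < y₂` -/
def crs (A : Set P) (z : P → P → ℤ) : ℤ :=
  ∑ c ∈ univ.filter (fun c : Ch P => Mt A c ∧ c.bot ∉ A ∧ c.top ∉ A), c.sg * z c.bot c.top

end fin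

/-- a state: a finite poset with a subset -/
structure St where
  P : Type
  [po : PartialOrder P]
  [fin : Fintype P]
  A : Set P

attribute [instance] St.po St.fin

/-- subdivision -/
def St.sd (s : St) : St := ⟨Ch s.P, Ch.top ⁻¹' s.A⟩

/-- another region in the same poset -/
def St.at (s : St) (A : Set s.P) : St := ⟨s.P, A⟩

/-- `t` is an iterated subdivision of `s`, `f` the iterated `top` -/
inductive Desc (s : St) : (t : St) → (t.P → s.P) → Prop
  | refl : Desc s s id
  | step {t : St} {f : t.P → s.P} : Desc s t f → Desc s t.sd (f ∘ Ch.top)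

/-- `z` has the largest Euler characteristic in its class -/
def Max (s : St) (z : s.P → s.P → ℤ) : Prop :=
  ∀ t f, Desc s t f → ∀ z', Sf t.A z' → Eqv t.A (pb f z) z' → chi t.A z' ≤ chi s.A z

/-- standing hypotheses on a sutured manifold inside `S³` -/
structure Good (s : St) : Prop where
  conv : s.A.OrdConnected
  mf : Mf 3 s.A
  nice : Nice s.A
  bnd : Bnd ℤ s.A
  bnd2 : Bnd (ZMod 2) s.A

/-- taut -/
structure Taut (s : St) : Prop extends Good s where
  sfm : Sf s.A (Rm s.A)
  sfp : Sf s.A (Rp s.A)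
  bal : ee s.A = 0
  max : Max s (Rm s.A)

end Crest.Agent.X212.Hp13
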