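import Crest.Agent.X212.Hp13.IncU
import Crest.Agent.X212.Sf30.P2Bas
import Crest.Agent.X212.Hlf24.Bdy

/-!
# X212 / Hp13 (helper13): `NegMStmt`, a disc with boundary in `R₋`
-/

set_option autoImplicit false
set_option linter.unusedSectionVars false

open Finset Classical

namespace Crest.Agent.X212.Hp13

open Crest.Agent.X212.Alg36 Cut21 Pt30
open Sup43 (Inn inn_up inn_sub)

section
variable {P : Type} [PartialOrder P] [Fintype P] {M : Set P} {e : P → P → ℤ}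

/-- the boundary curve of `F`, one level up -/
def Gm (M : Set P) (e : P → P → ℤ) (F : Set (Ch P)) : Set (Ch (Ch P)) :=
  {K | K.bot ∈ Qe M e ∧ K.bot ∉ F ∧ K.top ∈ F}

theorem tch_of_tc [IsCoc M e] (h : Z1 M e) (hM : IsUpperSet M) {C : Set (Ch P)} (hC : C ⊆ Mx M e)
    (k : Tc M e C) : Tch M e (Pt30.ch ⁻¹' C) := by
  obtain ⟨c, c1, x, x1, y, y1, l, y2, j⟩ := k
  have q : Ch.pr x y l ∈ Qe M e :=
    ⟨(dom_top (hC c1).1).mono (Ch.pr_le l x1 y1), by simpa using j⟩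
  refine ⟨cel (mx_qe subset_rfl (hC c1)), c1, cel q, fun k => y2 ?_, h.ch_le.1 (Ch.pr_le l x1 y1)⟩
  simpa using (mt_top hM).1 (show Mt M (Ch.pr x y l) from k)

theorem gam_eq [IsCoc M e] (h : Z1 M e) {F : Set (Ch P)} (sub : F ⊆ Mx M e) (hu : IsUpperSet F)
    (X : P → P → ℤ) : Gam X (Pt30.ch ⁻¹' F : Set (Lv M e)) = Pt30.ch ⁻¹' Gm M e F := by
  have hu' : IsUpperSet (Pt30.ch ⁻¹' F : Set (Lv M e)) := fun _ _ k => hu (h.ch_le.2 k)
  ext p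
  refine ⟨fun ⟨K, ⟨a, x, x1, x2⟩, b⟩ => ?_, fun ⟨a, b, c⟩ => ?_⟩
  · have e1 : (Pt30.ch p).bot = Pt30.ch K.bot := by rw [Pt30.ch, ← b, bot_io]; rfl
    have e2 : (Pt30.ch p).top = Pt30.ch K.top := by rw [Pt30.ch, ← b, top_io]; rfl
    exact ⟨e1 ▸ ch_mem _, e1 ▸ fun k => x2 (hu' (Ch.bot_le x1) k), e2 ▸ Alg36.mt_up hu' a⟩
  · obtain ⟨K, l1, -⟩ := io_lift h.mono (cel a) (C := Pt30.ch p) le_rfl (dom_top (sub c).1)
    refine ⟨K, ⟨⟨_, K.top_mem, ?_⟩, _, K.bot_mem, fun k => b ?_⟩, l1⟩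
    · rw [← l1, top_io] at c; exact c
    · rw [← l1, bot_io]; exact k

end

/-- **INC, upper disc**, on families of chains -/
theorem incU2 {P : Type} [PartialOrder P] [Fintype P] {M : Set P} {X e : P → P → ℤ}
    {F : Set (Ch P)} (good : Good ⟨P, M⟩)
    (hup : IsUpperSet M) (sx : Sf M X) (mx : Max ⟨P, M⟩ X) (hX : Z1 M X) (he : Z1 M e)
    (sub : F ⊆ Mx M e) (hu : IsUpperSet F) (hc : Conn F) (h1 : eu F = 1)
    (hl : ∃ q ∈ Qe M e, q ∉ F ∧ ∃ c ∈ F, q ≤ c)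
    (j0 : ∀ c ∈ F, ∀ q ∈ F, q ≤ c → X q.top c.top = 0)
    (j1 : ∀ c ∈ F, ∀ q ∈ Qe M e, q ∉ F → q ≤ c → X q.top c.top = 1) :
    ∃ D, IsCmp (Mx (Ch.top ⁻¹' M) (pb Ch.top X) \ Gm M e F) D ∧
      ¬ Tc (Ch.top ⁻¹' M) (pb Ch.top X) D ∧ eu D = 1 ∧ IsUpperSet D ∧
      ∃ K ∈ D, ∃ L ∈ Gm M e F, L ∈ Qe (Ch.top ⁻¹' M) (pb Ch.top X) ∧ L ≤ K := by
  have hM : Mf 3 M := good.mf
  have i0 : IsCoc M X := ⟨hX.coc⟩
  have i1 : IsCoc M e := ⟨he.coc⟩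
  have X1 := hX.pb (Ch.top_mono (P := P))
  have i2 : IsCoc (Ch.top ⁻¹' M) (pb Ch.top X) := ⟨X1.coc⟩
  have up1 : IsUpperSet (Ch.top ⁻¹' M : Set (Ch P)) := hup.preimage Ch.top_mono
  have sq := sub.trans (mx_qe subset_rfl)
  obtain ⟨low, C, c1, c2, c3, p, p1, q, q1, q2⟩ := incU1 ⟨P, M⟩ X e (Pt30.ch ⁻¹' F) good hup sx mx hX.le
    he.mono (by rw [la_eq hup]; exact Set.preimage_mono sub) (fun p q _ _ k => he.ch_inj k)
    ((he.conn_pre sq).2 hc) (by rw [he.chiC_pre sq, ← he.eu_eq hM sub hu, h1])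
    (fun _ _ k => hu (he.ch_le.2 k))
    (fun k => let ⟨q, a, b, c, d, l⟩ := hl
      b (k (a := cel (sq d)) (b := cel a) (he.ch_le.1 l) d))
    (fun p a q b l => j0 _ a _ b (he.ch_le.2 l))
    fun p a q b l => j1 _ a _ (ch_mem q) b (he.ch_le.2 l)
  replace low : IsLowerSet (Gam X (Pt30.ch ⁻¹' F : Set (Lv M e))) := low
  replace c1 : IsCmp (LA _ _ \ Gam X (Pt30.ch ⁻¹' F : Set (Lv M e))) C := c1
  replace q1 : q ∈ Gam X (Pt30.ch ⁻¹' F : Set (Lv M e)) := q1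
  rw [gam_eq he sub hu] at low c1 q1
  rw [la_eq up1, ← Set.preimage_diff] at c1
  have sq1 : Mx (Ch.top ⁻¹' M) (pb Ch.top X) \ Gm M e F ⊆ Qe _ _ :=
    Set.sdiff_subset.trans (mx_qe subset_rfl)
  obtain ⟨D, d1, rfl⟩ := X1.cmp_ex sq1 c1
  have sD : D ⊆ Mx (Ch.top ⁻¹' M) (pb Ch.top X) := d1.sub.trans Set.sdiff_subset
  have uD : IsUpperSet D := fun a b k ha => by
    have m := mx_upper X1 up1 subset_rfl k (sD ha)
    refine d1.clopen ha ⟨m, fun j => (d1.sub ha).2 ?_⟩ (Or.inl k)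
    exact low (a := cel (mx_qe subset_rfl m)) (b := cel (mx_qe subset_rfl (sD ha)))
      (X1.ch_le.1 k) j
  refine ⟨D, d1, fun k => c2 (tch_of_tc X1 up1 sD k), ?_, uD, _, p1, _, q1, ch_mem q,
    X1.ch_le.2 q2⟩
  rw [X1.eu_eq (Mf.sd hM) sD uD, ← X1.chiC_pre (d1.sub.trans sq1), c3]

section
variable {P : Type} [PartialOrder P] [Fintype P] {A : Set P} {e : P → P → ℤ} {F : Set (Ch P)}

theorem rm_inn (hA : A.OrdConnected) {x y : P} (h : Dp (Inn A) x y) :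
    Rm A x y = ind A y - ind A x := by
  obtain ⟨b, hb, l⟩ := Sup43.dp_up inn_up h
  have k : ∀ t, t ≤ b → ind {x | ∃ a ∈ A, a ≤ x} t = ind A t := fun t ht => by
    by_cases j : t ∈ A
    · rw [ind_of_mem j, ind_of_mem (E := {x | ∃ a ∈ A, a ≤ x}) ⟨t, j, le_rfl⟩]
    · rw [ind_of_not j, ind_of_not (E := {x | ∃ a ∈ A, a ≤ x})
        fun ⟨a, a1, a2⟩ => j (hA.out a1 hb.1 ⟨a2, ht⟩)]
  rw [Rm, cb, k y l, k x (h.1.trans l)]

theorem z1_rm (hA : A.OrdConnected) : Z1 (Inn A) (Rm A) :=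
  ⟨coc_Rm.mono inn_sub, mono_Rm.mono inn_sub, fun x y h => by
    have := ind_le_one (E := A) y
    have := ind_nonneg (E := A) x
    rw [rm_inn hA h]; omega⟩

theorem rm_pos (hA : A.OrdConnected) {x y : P} (h : Dp (Inn A) x y) :
    0 < Rm A x y ↔ x ∉ A ∧ y ∈ A := by
  rw [rm_inn hA h]
  by_cases a : x ∈ A <;> by_cases b : y ∈ A <;> simp [ind, a, b]

/-- the boundary cells of `F` -/
def Gb (M : Set P) (e : P → P → ℤ) (F : Set (Ch P)) : Set (Ch P) :=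
  {q | 0 < e q.bot q.top ∧ ∃ c ∈ F, q ≤ c}

/-- the rest of `R₋` -/
def W1 (A : Set P) (e : P → P → ℤ) (F : Set (Ch P)) : Set (Ch P) :=
  {c | c.top ∈ Om (Inn A) ∧ c.top ∉ A ∧ c ∉ Gb (Inn A) e F}

theorem gb_up {M : Set P} (h : Z1 M e) (hM : IsUpperSet M) (hN : Nice M) (hF : IsCmp (Mx M e) F)
    {q c : Ch P} (hq : q ∈ Gb M e F) (k : q ≤ c) (hc : Dom M c) : c ∈ Gb M e F := by
  obtain ⟨u, hu, l⟩ := (dom_up hM).1 hc
  obtain ⟨h1, d, d1, d2⟩ := hq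
  exact ⟨h.up hc k h1, tp c u l, h.cmp_over hM hN hF h1 d1 d2 (k.trans (le_tp _ _ _))
    (by simpa using hu), le_tp _ _ _⟩

theorem gb_mem {M : Set P} (h : Z1 M e) (hM : IsUpperSet M) (hN : Nice M) (hF : IsCmp (Mx M e) F)
    {q c : Ch P} (hq : q ∈ Gb M e F) (k : q ≤ c) (hc : c.top ∈ M) : c ∈ F :=
  let ⟨h1, _, d1, d2⟩ := hq; h.cmp_over hM hN hF h1 d1 d2 k hc

theorem w1_low (hA : A.OrdConnected) (h : Z1 (Inn A) e) (hN : Nice (Inn A))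
    (hF : IsCmp (Mx (Inn A) e) F) : IsLowerSet (W1 A e F) := fun c d k hc => by
  obtain ⟨⟨h1, u, hu, l⟩, h2, h3⟩ := hc
  have t := Ch.top_mono k
  exact ⟨⟨fun j => h1 (inn_up t j), u, hu, t.trans l⟩, fun j => h2 (hA.out j hu.1 ⟨t, l⟩),
    fun j => h3 (gb_up h inn_up hN hF j k ((dom_up inn_up).2 ⟨u, hu, l⟩))⟩

theorem rest_eq (hA : A.OrdConnected) (h : Z1 (Inn A) e) (hN : Nice (Inn A))
    (hF : IsCmp (Mx (Inn A) e) F) :
    Mx (Ch.top ⁻¹' Inn A) (pb Ch.top (Rm A)) \ Gm (Inn A) e F =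
      Sr (Ch.top ⁻¹' Inn A) (W1 A e F) := by
  ext K
  have t := Ch.top_mono K.bot_le_top
  refine ⟨fun ⟨⟨a, b⟩, c⟩ => ⟨a, _, K.bot_mem, ?_⟩, fun ⟨a, c, c1, c2⟩ => ?_⟩
  · have b := ((rm_pos hA (Dp.of_right a t)).1 b).1
    refine ⟨⟨fun j => b j.1, _, a, t⟩, b, fun j => c ⟨⟨(dom_top (M := Inn A) a).mono K.bot_le_top, j.1⟩,
      fun i => b (hF.sub i).1.1, gb_mem h inn_up hN hF j K.bot_le_top a⟩⟩
  · have c2 := w1_low hA h hN hF (Ch.bot_le c1) c2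
    exact ⟨⟨a, (rm_pos hA (Dp.of_right a t)).2 ⟨c2.2.1, a.1⟩⟩,
      fun j => c2.2.2 ⟨j.1.2, _, j.2.2, K.bot_le_top⟩⟩

theorem negM_core (hA : A.OrdConnected) (good : Good ⟨P, Inn A⟩) (th : Thick A)
    (sf : Sf (Inn A) (Rm A)) (mx : Max ⟨P, Inn A⟩ (Rm A)) (he : Z1 (Inn A) e) (vt : Vt A e)
    (hF : IsCmp (Mx (Inn A) e) F) (h1 : eu F = 1) (tc : Tc (Inn A) e F)
    (hfr : ∀ c ∈ F, ∀ b ∈ c.1, b ∉ Fr A) : ∃ W, Ng A e W := by
  have hN : Nice (Inn A) := good.nice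
  have hM : Mf 3 (Inn A) := good.mf
  have uF : IsUpperSet F := hF.upper (mx_upper he inn_up subset_rfl)
  have off : ∀ c ∈ F, ∀ x ∈ c.1, x ∉ Inn A → x ∉ A := fun c a x b k j =>
    k ⟨j, hfr c a x b⟩
  have R := z1_rm hA
  obtain ⟨D, d1, d2, d3, d4, K₀, k1, L₀, l1, -, l2⟩ := incU2 good inn_up sf mx R he hF.sub uF hF.conn h1
    (by
      obtain ⟨c, c1, x, x1, y, y1, l, y2, j⟩ := tc
      exact ⟨Ch.pr x y l, ⟨(dom_top (hF.sub c1).1).mono (Ch.pr_le l x1 y1), by simpa using j⟩,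
        fun k => y2 (by simpa using (hF.sub k).1), c, c1, Ch.pr_le l x1 y1⟩)
    (fun c a q b l => by
      rw [rm_inn hA (Dp.of_right (hF.sub a).1 (Ch.top_mono l)), ind_of_mem (hF.sub a).1.1,
        ind_of_mem (hF.sub b).1.1, sub_self])
    fun c a q b n l => by
      rw [rm_inn hA (Dp.of_right (hF.sub a).1 (Ch.top_mono l)), ind_of_mem (hF.sub a).1.1,
        ind_of_not (off c a _ (l q.top_mem) fun j => n (hF.clopen a ⟨j, b.2⟩ (Or.inr l))), sub_zero]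
  have sD : D ⊆ Mx (Ch.top ⁻¹' Inn A) (pb Ch.top (Rm A)) := d1.sub.trans Set.sdiff_subset
  have up1 : IsUpperSet (Ch.top ⁻¹' Inn A : Set (Ch P)) := inn_up.preimage Ch.top_mono
  have R1 := R.pb (Ch.top_mono (P := P))
  have low := w1_low hA he hN hF
  -- the faces of `D`
  have face : ∀ q ∈ Qe (Ch.top ⁻¹' Inn A) (pb Ch.top (Rm A)), q ∉ D → ∀ c ∈ D, q ≤ c →
      q ∈ Gm (Inn A) e F := fun q a b c k l => by_contra fun n => b (d1.clopen k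
        ⟨⟨by_contra fun j => d2 ⟨c, k, _, l q.bot_mem, _, l q.top_mem, q.bot_le_top, j, a.2⟩,
          a.2⟩, n⟩ (Or.inr l))
  have d0 := d1
  rw [rest_eq hA he hN hF] at d1
  have ws := ws_sr up1 (Nice.sd inn_up.ordConnected hN)
    (W := W1 A e F) fun c hc => Hlf24.om_sd.2 hc.1
  obtain ⟨V, v1, v2⟩ := ws.isCmp_ex d1
  have vl : IsLowerSet V := fun a b k ha => v1.clopen ha (low k (v1.sub ha)) (Or.inr k)
  have inD : ∀ K : Ch (Ch P), K.top.top ∈ Inn A → K.bot ∈ V → K ∈ D := fun K a b => by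
    have m : Mt (W1 A e F) K := ⟨_, K.bot_mem, v1.sub b⟩
    rw [v2]
    exact ⟨⟨a, m⟩, v1.clopen b (tw_mem m).2 (Or.inl (Ch.bot_le (tw_mem m).1))⟩
  have botV : ∀ K ∈ D, K.bot ∈ V := fun K a => by
    rw [v2] at a
    exact vl (Ch.bot_le (tw_mem a.1.2).1) a.2
  have euV : eu V = 1 := by
    rw [← d3, v2]; exact (ws.restr (Kh11.clo_cmp v1)).eu_eq.symm
  have flat : ∀ c ∈ V, ∀ q ∈ Gb (Inn A) e F, c ≤ q → e c.bot c.top = 0 := fun c a q b l => by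
    obtain ⟨-, d, b1, b2⟩ := b
    have := he.mono _ _ ((dom_top (hF.sub b1).1).mono (l.trans b2)).bt
    have : ¬ 0 < e c.bot c.top := fun j => (v1.sub a).2.2 ⟨j, d, b1, l.trans b2⟩
    omega
  have gmb : ∀ q ∈ Gm (Inn A) e F, q.bot ∈ Gb (Inn A) e F := fun q a =>
    ⟨a.1.2, _, a.2.2, q.bot_le_top⟩
  -- the cell over an edge
  have cell : ∀ {u v i : P} (l : u ≤ v) (l' : v ≤ i) (x : P), x = u ∨ x = v →
      ∃ K : Ch (Ch P), K.bot = Ch.pt x ∧ K.top = Ch.tr u v i l l' ∧ Ch.pr u v l ∈ K.1 :=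
    fun {u v i} l l' x hx => by
      have a : Ch.pt x ≤ Ch.pr u v l := Ch.pt_le.2 (by simpa using hx)
      have b : Ch.pr u v l ≤ Ch.tr u v i l l' := Ch.pr_le _ (by simp [Ch.mem_tr]) (by simp [Ch.mem_tr])
      exact ⟨Ch.tr _ _ _ a b, Ch.bot_tr _ _, Ch.top_tr _ _, by simp [Ch.mem_tr]⟩
  -- one side
  have one : ∀ u v (l : u ≤ v), Ch.pt u ∈ V → Ch.pt v ∈ V → Ch.pr u v l ∉ Gb (Inn A) e F := by
    intro u v l hu hv g
    obtain ⟨⟨-, i, hi, l'⟩, nv, -⟩ := v1.sub hv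
    simp only [Ch.top_pt] at l' nv
    have b : Ch.pr u v l ≤ Ch.tr u v i l l' := Ch.pr_le _ (by simp [Ch.mem_tr]) (by simp [Ch.mem_tr])
    have ti : (Ch.tr u v i l l').top ∈ Inn A := by rwa [Ch.top_tr]
    have q1 : Ch.pr _ _ b ∈ Qe (Ch.top ⁻¹' Inn A) (pb Ch.top (Rm A)) :=
      ⟨dom_top (by simpa using ti), by
        simp only [pb, Ch.bot_pr, Ch.top_pr, Ch.top_tr]
        exact (rm_pos hA (Dp.of_right hi l')).2 ⟨nv, hi.1⟩⟩
    have q2 : Ch.pr _ _ b ∉ D := fun j => (v1.sub (botV _ j)).2.2 (by simpa using g)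
    obtain ⟨K, a1, a2, a3⟩ := cell l l' u (Or.inl rfl)
    obtain ⟨K', b1, b2, b3⟩ := cell l l' v (Or.inr rfl)
    have := R1.rim (Mf.sd hM) sD d4 d0.conn d3.ge (fun q c => e q.bot.bot c.bot.top)
      (fun q a n c k c' j j' => ?_) (fun q a n c k q' a' j j' => ?_)
      q1 q2 (inD K (a2 ▸ ti) (a1 ▸ hu)) (Ch.pr_le _ a3 (a2 ▸ K.top_mem))
      q1 q2 (inD K' (b2 ▸ ti) (b1 ▸ hv)) (Ch.pr_le _ b3 (b2 ▸ K'.top_mem))
    · have g1 := g.1
      simp only [a1, b1, Ch.bot_pr, Ch.top_pr, Ch.top_pt] at this g1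
      rw [he.self hi (l.trans l')] at this
      omega
    · have g := gmb q (face q a n c k j)
      have t : q.bot.top ≤ c.top.top := Ch.top_mono (Ch.le_top (j q.bot_mem))
      have c1 : c.bot ≤ q.bot := Ch.bot_anti j
      have c2 : c'.bot ≤ c.bot := Ch.bot_anti j'
      have f := flat _ (botV c k) _ g c1
      have m := (sD k).1
      have t1 := Ch.top_mono c1
      have e1 := he.add m (Ch.bot_le (c1 (c2 c'.bot.top_mem))) (Ch.top_mono c2) (t1.trans t)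
      have e2 := he.add m (Ch.bot_le (c2 c'.bot.top_mem)) (Ch.top_mono c2) (t1.trans t)
      have := he.nn m (Ch.bot_le (c2 c'.bot.top_mem)) ((Ch.top_mono c2).trans (t1.trans t))
      beta_reduce at f
      have := he.nn m (Ch.top_mono c2) (t1.trans t)
      show e q.bot.bot c.bot.top = e q.bot.bot c'.bot.top
      omega
    · have g := gmb q (face q a n c k j')
      have c1 : c.bot ≤ q.bot := Ch.bot_anti j'
      have c2 : q.bot ≤ q'.bot := Ch.bot_anti j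
      have c3 : q'.bot ≤ c.top := Ch.le_top (j' (j q'.bot_mem))
      have m := (sD k).1
      have e1 := he.bot_bot ((dom_top (M := Inn A) m).mono c3) c2 g.1
      have e2 := he.add m (Ch.bot_anti c2) (Ch.bot_le (c1 c.bot.top_mem))
        (Ch.top_mono (c1.trans (c2.trans c3)))
      show e q.bot.bot c.bot.top = e q'.bot.bot c.bot.top
      omega
  let W : Set P := {x | Ch.pt x ∈ V}
  have wo : ∀ x ∈ W, x ∈ Om (Inn A) ∧ x ∉ A := fun x a => by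
    simpa using (⟨(v1.sub a).1, (v1.sub a).2.1⟩ : _ ∧ _)
  have ns : ∀ x ∈ W, ∀ b ∈ Fr A, ¬ x ≤ b := fun x a b hb l => by
    obtain ⟨i, i1, i2, i3⟩ := (th.inn b hb).ne
    obtain ⟨K, a1, a2, a3⟩ := cell l i2 x (Or.inl rfl)
    refine d2 ⟨K, inD K (by rw [a2, Ch.top_tr]; exact ⟨i1, i3⟩) (a1 ▸ a), _, K.bot_mem, _, a3,
      Ch.bot_le a3, fun j => ?_, ?_⟩
    · exact (show b ∈ Inn A by simpa using j).2 hb
    · simp only [pb, a1, Ch.top_pt, Ch.top_pr]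
      exact (rm_pos hA (dp_hi ⟨i1, i3⟩ l i2)).2 ⟨(wo x a).2, hb.1⟩
  have na : ∀ x ∈ W, ∀ y ∈ Om (Inn A), Cm x y → y ∉ A := fun x a y b k j => by
    rcases k with k | k
    · exact ns x a y (by_contra fun n => b.1 ⟨j, n⟩) k
    · obtain ⟨-, u, hu, l⟩ := (wo x a).1
      exact (wo x a).2 (hA.out j hu.1 ⟨k, l⟩)
  have edge : ∀ u v (l : u ≤ v), v ∈ Om (Inn A) → v ∉ A → (u ∈ W ∨ v ∈ W) →
      Ch.pr u v l ∉ Gb (Inn A) e F → u ∈ W ∧ v ∈ W := fun u v l a b c n => by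
    have m : Ch.pr u v l ∈ W1 A e F := ⟨by simpa using a, by simpa using b, n⟩
    have : Ch.pr u v l ∈ V := c.elim
      (fun c => v1.clopen c m (Or.inl (Ch.pt_le.2 (by simp))))
      fun c => v1.clopen c m (Or.inl (Ch.pt_le.2 (by simp)))
    exact ⟨vl (Ch.pt_le.2 (by simp)) this, vl (Ch.pt_le.2 (by simp)) this⟩
  have jump : ∀ u v (l : u ≤ v), v ∈ Om (Inn A) → Ch.pr u v l ∈ Gb (Inn A) e F → e u v = 1 :=
    fun u v l ⟨_, i, hi, l'⟩ g => by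
      have := he.le1 hi l l'
      have := g.1
      simp only [Ch.bot_pr, Ch.top_pr] at this
      omega
  have gbe : ∀ q ∈ Gb (Inn A) e F, Ch.pr _ _ q.bot_le_top ∈ Gb (Inn A) e F :=
    fun q ⟨a, c, c1, c2⟩ => ⟨by simpa using a, c, c1, (Ch.pr_le _ q.bot_mem q.top_mem).trans c2⟩
  have VW : V = Cq W := Set.ext fun c => ⟨fun a x hx => vl (Ch.pt_le.2 hx) a, fun a =>
    v1.clopen (a _ c.top_mem) ⟨(wo _ (a _ c.top_mem)).1, (wo _ (a _ c.top_mem)).2, fun g =>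
      one _ _ _ (a _ c.bot_mem) (a _ c.top_mem) (gbe c g)⟩ (Or.inl (Ch.pt_le.2 c.top_mem))⟩
  have wsW := ws_sr inn_up hN (W := W) fun x a => (wo x a).1
  have cW : Conn W := fun x a y b => by
    simpa using (v1.conn _ a _ b).map (F := W) (f := Ch.top) fun c hc d hd l =>
      Rch.of_cm (vl (Ch.pt_le.2 c.top_mem) hc) (vl (Ch.pt_le.2 d.top_mem) hd)
        (Or.inl (Ch.top_mono l))
  refine ⟨W, fun x a => (wo x a).1, wsW.conn_iff.2 cW, by rw [wsW.eu_eq, ← eu_cq, ← VW, euV],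
    fun x a y b n => ⟨fun l => jump x y l b (by_contra fun g =>
      n (edge x y l b (na x a y b (Or.inl l)) (Or.inl a) g).2), fun l => jump y x l (wo x a).1
        (by_contra fun g => n (edge y x l (wo x a).1 (wo x a).2 (Or.inr a) g).1)⟩, ?_,
    Or.inr fun x a y b k f hf l => ?_⟩
  · have g := gmb _ l1
    have c1 : K₀.bot ≤ L₀.bot := Ch.bot_anti l2
    have xW : K₀.bot.top ∈ W := vl (Ch.pt_le.2 K₀.bot.top_mem) (botV _ k1)
    have t : L₀.bot.top ∉ Inn A := fun j =>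
      l1.2.1 (hF.clopen l1.2.2 ⟨j, g.1⟩ (Or.inr L₀.bot_le_top))
    have o : ∀ y ∈ L₀.bot.1, y ∈ Om (Inn A) := fun y hy =>
      ⟨fun j => t (inn_up (Ch.le_top hy) j), _, (hF.sub l1.2.2).1,
        Ch.le_top (L₀.bot_le_top hy)⟩
    by_cases j : L₀.bot.bot ∈ W
    · exact ⟨_, xW, _, o _ L₀.bot.top_mem, fun i => one _ _ _ j i (gbe _ g),
        Or.inl (Ch.top_mono c1)⟩
    · exact ⟨_, xW, _, o _ L₀.bot.bot_mem, j, Or.inr (Ch.bot_le (c1 K₀.bot.top_mem))⟩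
  · rcases k with k | k
    · exact ns x a f hf (k.trans l)
    have g : Ch.pr y x k ∈ Gb (Inn A) e F := by_contra fun g =>
      ns y (edge y x k (wo x a).1 (wo x a).2 (Or.inr a) g).1 f hf l
    obtain ⟨-, i, hi, l'⟩ := (wo x a).1
    obtain ⟨n, n1, n2, n3, -, -, n4⟩ := vt.vert y x b.1 (dp_hi hi k l')
      (by simpa using g.1)
    obtain ⟨f', hf', l2⟩ := n4 ⟨f, hf, l⟩
    obtain ⟨j, j1, j2, j3⟩ := (th.inn f' hf').ne
    have g1 := gb_up he inn_up hN hF g (c := Ch.tr y n x n1 n2)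
      (Ch.pr_le _ (by simp [Ch.mem_tr]) (by simp [Ch.mem_tr]))
      ((dom_up inn_up).2 ⟨i, hi, by rwa [Ch.top_tr]⟩)
    have g2 : Ch.pr y n n1 ∈ Gb (Inn A) e F := let ⟨_, c, c1, c2⟩ := g1
      ⟨by simpa using n3, c, c1,
        (Ch.pr_le _ (by simp [Ch.mem_tr]) (by simp [Ch.mem_tr])).trans c2⟩
    have t : (Ch.tr y n f' n1 l2).top ≤ j := by rwa [Ch.top_tr]
    exact hfr _ (gb_mem he inn_up hN hF g2 (c := tp _ j t)
      ((Ch.pr_le _ (by simp [Ch.mem_tr]) (by simp [Ch.mem_tr])).trans (le_tp _ _ _))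
      (by simpa using ⟨j1, j3⟩)) f' (by simp [Ch.mem_tr]) hf'

end

theorem negMStmt : NegMStmt := fun _ _ _ st he vt hF h1 tc hfr =>
  negM_core st.conv (Sup43.good_inn st.toGood st.thick) st.thick (Sup43.sf_inn st.sfm)
    (Sup43.max_inn st.toTaut) he vt hF h1 tc hfr

end Crest.Agent.X212.Hp13
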