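import Crest.Agent.X212.Hp13.Swap
import Crest.Agent.X212.Ind26.Cov
import Crest.Agent.X212.Alg36.Sd1

/-!
# X212 / Hp13 (helper13): test surfaces for SWAP
-/

set_option autoImplicit false
set_option linter.unusedSectionVars false

open Finset Classical

noncomputable section

namespace Crest.Agent.X212.Hp13

variable {P R : Type} [PartialOrder P] [Fintype P] [PartialOrder R] [Fintype R]

theorem Mf.emb {d : ℕ} {A : Set P} {B : Set R} {f : R → P} (hf : ∀ a b, f a ≤ f b ↔ a ≤ b)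
    (hB : ∀ b ∈ B, f b ∈ A) (hs : ∀ b ∈ B, ∀ x, Cm (f b) x → ∃ y, f y = x) (h : Mf d A) :
    Mf d B := by
  have inj : Function.Injective f := fun a b e => le_antisymm ((hf a b).1 e.le) ((hf b a).1 e.ge)
  have mon : Monotone f := fun a b => (hf a b).2
  refine Ind26.Lift.mf (s := ⟨P, f '' B⟩) (s' := ⟨R, B⟩) (π := f)
    ⟨mon.strictMono_of_injective inj, inj.injOn.bijOn_image, fun b hb =>
      ⟨fun _ k => Cm.map mon k, inj.injOn, fun x k => ?_⟩, fun _ _ _ _ _ _ => (hf _ _).1⟩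
    (h.mono (Set.image_subset_iff.2 hB))
  obtain ⟨y, rfl⟩ := hs b hb x k
  exact ⟨y, Or.imp (hf _ _).1 (hf _ _).1 k, rfl⟩

theorem ws_image {B : Set R} {f : R → P} (hf : ∀ a ∈ B, ∀ b ∈ B, f a ≤ f b ↔ a ≤ b) :
    Kh11.WS B (f '' B) f :=
  Kh11.WS.of_iso (fun _ k => Set.mem_image_of_mem _ k) (fun _ k => k) hf

/-- the chains of `Q` -/
def Cq (Q : Set P) : Set (Ch P) := {c | ∀ x ∈ c.1, x ∈ Q}

/-- the chains of `Q` that meet `E` -/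
def Ce (Q E : Set P) : Set (Ch P) := {c | c ∈ Cq Q ∧ Mt E c}

theorem lower_cq (Q : Set P) : IsLowerSet (Cq Q) := fun _ _ k h x hx => h x (k hx)

theorem eu_cq (E : Set P) : eu (Cq E) = eu E := by
  rw [← ee_lower (lower_cq E), ee_ch, eu]
  congr 2
  ext c
  simp only [mem_filter, Cq, Set.mem_ofPred_eq]

theorem ws_ce {Q E : Set P} (hE : E ⊆ Q) : Kh11.WS (Cq E) (Ce Q E) id :=
  Kh11.WS.of_int' (fun c hc => ⟨fun x hx => hE (hc x hx), c.top, c.top_mem, hc _ c.top_mem⟩)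
    fun c ⟨_, x, x1, x2⟩ => ⟨c.sub (c.1.filter (· ∈ E)) ⟨x, mem_filter.2 ⟨x1, x2⟩⟩
      (filter_subset _ _), fun _ k => (mem_filter.1 k).2, filter_subset _ _,
      fun _ hb k y hy => mem_filter.2 ⟨k hy, hb y hy⟩⟩

theorem eu_ce {Q E : Set P} (hE : E ⊆ Q) : eu (Ce Q E) = eu E := (ws_ce hE).eu_eq ▸ eu_cq E

theorem conn_cq {E : Set P} (h : Conn E) : Conn (Cq E) := fun c hc d hd => by
  have k : ∀ c ∈ Cq E, Rch (Cq E) (Ch.pt c.top) c := fun c hc =>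
    Rch.of_cm (fun x hx => mem_singleton.1 hx ▸ hc _ c.top_mem) hc
      (Or.inl (Ch.pt_le.2 c.top_mem))
  refine ((k c hc).symm.trans ((h _ (hc _ c.top_mem) _ (hd _ d.top_mem)).map (f := Ch.pt)
    fun x hx y hy l => ?_)).trans (k d hd)
  have m : Ch.pr x y l ∈ Cq E := by simp [Cq, hx, hy]
  exact (Rch.of_cm (by simpa [Cq]) m (Or.inl (Ch.pt_le.2 (by simp)))).trans
    (Rch.of_cm m (by simpa [Cq]) (Or.inr (Ch.pt_le.2 (by simp))))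

theorem conn_ce {Q E : Set P} (hE : E ⊆ Q) (h : Conn E) : Conn (Ce Q E) :=
  (ws_ce hE).conn_iff.1 (conn_cq h)

theorem mf_cq {d : ℕ} {Q B : Set P} (h : Mf d (Subtype.val ⁻¹' B : Set Q)) :
    Mf d (Subtype.val ⁻¹' (Ch.top ⁻¹' B) : Set (Cq Q)) := by
  have e : ∀ C : Cq Q, (Ch.exists_up C.2).choose.up = C.1 := fun C => (Ch.exists_up C.2).choose_spec
  refine Mf.emb (f := fun C : Cq Q => (Ch.exists_up C.2).choose) (fun a b => ?_) (fun b hb => ?_)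
    (fun _ _ x _ => ⟨⟨x.up, x.up_sub⟩, Ch.up_inj (e _)⟩) (Alg36.Mf.sd h)
  · rw [← Ch.up_le, e, e]; rfl
  · show (Ch.top (Ch.exists_up b.2).choose).1 ∈ B
    rw [← Ch.top_up, e]; exact hb

/-- the subdivision of a surface `Q` is a lower set; the open star of `E` is an open piece -/
theorem low_ce {A Q B E : Set P} (h : Mf 2 (Subtype.val ⁻¹' B : Set Q)) (hB : B ⊆ A) (hE : E ⊆ Q)
    (hup : ∀ x ∈ E, ∀ y ∈ Q, x ≤ y → y ∈ B) (hc : Conn E)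
    (hne : ∃ x ∈ Q, x ∉ E ∧ ∃ y ∈ E, Cm x y) : Low (Ch.top ⁻¹' A) (Cq Q) (Ce Q E) := by
  have k : Ce Q E ⊆ Ch.top ⁻¹' B := fun c ⟨h1, x, x1, x2⟩ =>
    hup x x2 _ (h1 _ c.top_mem) (Ch.le_top x1)
  refine ⟨(mf_cq h).mono fun _ j => k j, fun _ j => hB (k j), fun y hy x l => lower_cq Q l hy.1,
    fun x hx y hy l => ⟨hy, hx.2.mono l⟩, conn_ce hE hc, ?_⟩
  obtain ⟨x, x1, x2, y, y1, l⟩ := hne
  refine ⟨Ch.pt x, fun j => x2 (mt_pt.1 j.2), (Ch.pt y).ins x fun t ht => mem_singleton.1 ht ▸ l,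
    ⟨fun t ht => ?_, y, by simp, y1⟩, Ch.pt_le.2 (by simp)⟩
  simp only [Ch.ins_val, Ch.pt_val, mem_insert, mem_singleton] at ht
  rcases ht with rfl | rfl
  exacts [x1, hE y1]

section cells

variable {A : Set P} {w : P → P → ℤ}

/-- the chain of a cell -/
def Lv.ch (p : Lv A w) : Ch P := p.1.1

variable [IsCoc A w] {S B E : Set (Lv A w)}

/-- the cells of `S` are determined by their chains -/
def Emb (S : Set (Lv A w)) : Prop := ∀ p ∈ S, ∀ q ∈ S, p.1.1 ≤ q.1.1 → p ≤ q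

theorem Emb.mono (h : Emb S) (hB : B ⊆ S) : Emb B := fun p hp q hq => h p (hB hp) q (hB hq)

theorem Emb.ws (h : Emb S) : Kh11.WS S (Lv.ch '' S) Lv.ch :=
  ws_image fun a ha b hb => ⟨h a ha b hb, Lv.ch_le⟩

theorem Emb.mem (h : Emb S) (hB : B ⊆ S) {p : Lv A w} (hp : p ∈ S) : p.ch ∈ Lv.ch '' B ↔ p ∈ B :=
  ⟨fun ⟨q, hq, e⟩ => le_antisymm (h q (hB hq) p hp e.le) (h p hp q (hB hq) e.ge) ▸ hq,
    Set.mem_image_of_mem _⟩

theorem Emb.mf {_ : Fintype (Lv.ch '' S)} (h : Emb S) (hM : Mf 3 A) (hm : Mono A w) (hB : B ⊆ LA A w)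
    (hs : ∀ p ∈ B, ∀ q, Cm p q → q ∈ S) :
    Mf 2 (Subtype.val ⁻¹' (Lv.ch '' B) : Set (Lv.ch '' S)) := by
  have BS : B ⊆ S := fun p hp => hs p hp p Cm.rfl
  have e : ∀ c : Lv.ch '' S, c.2.choose ∈ S ∧ c.2.choose.ch = c.1 := fun c => c.2.choose_spec
  have m : ∀ c : Lv.ch '' S, c.1 ∈ Lv.ch '' B → c.2.choose ∈ B := fun c hc =>
    (h.mem BS (e c).1).1 (by rw [(e c).2]; exact hc)
  refine Mf.emb (f := fun c : Lv.ch '' S => c.2.choose) (fun a b => ⟨fun k => ?_, fun k => ?_⟩)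
    (fun b hb => hB (m b hb)) (fun b hb x k => ?_) (Sf30.mf_LA hM hm)
  · show a.1 ≤ b.1
    rw [← (e a).2, ← (e b).2]; exact Lv.ch_le k
  · refine h _ (e a).1 _ (e b).1 ?_
    show Lv.ch _ ≤ Lv.ch _
    rw [(e a).2, (e b).2]; exact k
  · have hx := hs _ (m b hb) x k
    let c : Lv.ch '' S := ⟨x.ch, x, hx, rfl⟩
    exact ⟨c, le_antisymm (h _ (e c).1 _ hx (e c).2.le) (h _ hx _ (e c).1 (e c).2.ge)⟩

/-- a closed piece `E` of a level set, one level up -/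
theorem Emb.upp (h : Emb S) (hM : Mf 3 A) (hm : Mono A w) (hE : E ⊆ LA A w)
    (hA : ∀ p ∈ E, p.1.1.top ∈ A) (hs : ∀ p ∈ E, ∀ q, Cm p q → q ∈ S) (hl : IsLowerSet E)
    (hc : Conn E) (hne : ∃ p ∈ E, ∃ q, q ∉ E ∧ p ≤ q) :
    Upp (Ch.top ⁻¹' A) (Lv.ch '' S) (Lv.ch '' E) := by
  have ES : E ⊆ S := fun p hp => hs p hp p Cm.rfl
  refine ⟨h.mf hM hm hE hs, ?_, ?_, ?_, (h.mono ES).ws.conn_iff.1 hc, ?_⟩
  · rintro _ ⟨p, hp, rfl⟩; exact hA p hp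
  · rintro _ ⟨p, hp, rfl⟩ c k
    obtain ⟨q, rfl, l⟩ := Lv.exists_ge hm p (Mt.mono (hE hp) k).dom k
    exact ⟨q, hs p hp q (Or.inl l), rfl⟩
  · rintro _ ⟨p, hp, rfl⟩ _ ⟨q, hq, rfl⟩ k
    exact ⟨q, hl (h q hq p (ES hp) k) hp, rfl⟩
  · obtain ⟨p, hp, q, hq, l⟩ := hne
    exact ⟨_, ⟨p, hp, rfl⟩, q.ch, fun k => hq ((h.mem ES (hs p hp q (Or.inl l))).1 k), Lv.ch_le l⟩

/-- the open star of a piece `E` of a level set, two levels up -/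
theorem Emb.low (h : Emb S) (hM : Mf 3 A) (hm : Mono A w) (hB : B ⊆ LA A w)
    (hA : ∀ p ∈ B, p.1.1.top ∈ A) (hs : ∀ p ∈ B, ∀ q, Cm p q → q ∈ S) (hE : E ⊆ B)
    (hup : ∀ p ∈ E, ∀ q, p ≤ q → q ∈ B) (hc : Conn E) (hne : ∃ p ∈ E, ∃ q, q ∉ E ∧ Cm p q) :
    Low (Ch.top ⁻¹' (Ch.top ⁻¹' A)) (Cq (Lv.ch '' S)) (Ce (Lv.ch '' S) (Lv.ch '' E)) := by
  have ES : E ⊆ S := fun p hp => hs p (hE hp) p Cm.rfl
  refine low_ce (h.mf hM hm hB hs) ?_ (Set.image_mono ES) ?_ ((h.mono ES).ws.conn_iff.1 hc) ?_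
  · rintro _ ⟨p, hp, rfl⟩; exact hA p hp
  · rintro _ ⟨p, hp, rfl⟩ _ ⟨q, hq, rfl⟩ k
    exact ⟨q, hup p hp q (h p (ES hp) q hq k), rfl⟩
  · obtain ⟨p, hp, q, hq, l⟩ := hne
    have := hs p (hE hp) q l
    exact ⟨q.ch, ⟨q, this, rfl⟩, fun k => hq ((h.mem ES this).1 k), p.ch, ⟨p, hp, rfl⟩,
      l.symm.imp Lv.ch_le Lv.ch_le⟩

theorem Emb.eu (h : Emb E) : eu (Lv.ch '' E) = eu E := h.ws.eu_eq.symm

theorem eu_lower (hM : Mf 3 A) (hm : Mono A w) (hE : E ⊆ LA A w) (hl : IsLowerSet E) :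
    eu E = chiC E := by rw [Sf30.chiC_eq_ee hM hm hE, ee_lower hl]

theorem eu_upper (hM : Mf 3 A) (hm : Mono A w) (hE : E ⊆ LA A w) (hl : IsUpperSet E) :
    eu E = chiC E := (Sf30.chiC_eq_eu hM hm hE hl).symm

/-- jumps at most one -/
theorem emb_univ (hm : Mono A w) (h1 : ∀ x y, Dp A x y → w x y ≤ 1) :
    Emb (Set.univ : Set (Lv A w)) := fun p _ q _ k => by
  obtain ⟨r, r1, r2⟩ := Lv.exists_ge hm p q.2.1 k
  have := h1 _ _ q.2.1.bt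
  have := h1 _ _ r.2.1.bt
  have := q.2.2
  have := r.2.2
  exact Lv.ext r1 (by omega) ▸ r2

end cells

end Crest.Agent.X212.Hp13
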