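import Crest.Agent.X212.Hp13.Swap
import Crest.Agent.X212.Cut21.Defs
import Crest.Agent.X212.Alg36.Sd2

/-!
# X212 / Hp13 (helper13): existence of maximisers
-/

set_option autoImplicit false
set_option linter.unusedSectionVars false

open Finset Classical

noncomputable section

namespace Crest.Agent.X212.Hp13

section

variable {P : Type} [PartialOrder P] {A : Set P} {u w : P → P → ℤ} {g : P → ℤ}

/-- corresponding cells of `u` and of `w = u + δ g` -/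
def GR (g : P → ℤ) (q : Lv A u) (p : Lv A w) : Prop := p.1.1 = q.1.1 ∧ q.1.2 = p.1.2 + g q.1.1.bot

variable [IsCoc A u] [IsCoc A w]

theorem lr_gr (h : EqD A w (u + cb g)) : LR (GR g : Lv A u → Lv A w → Prop) := by
  refine ⟨fun k => k.1, fun {q q' p p'} k k' => ?_⟩
  rw [Lv.le_iff, Lv.le_iff, k.1, k'.1, k.2, k'.2]
  refine and_congr_right fun l => ?_
  rw [h _ _ (q'.2.1.dp q'.1.1.bot_mem (l q.1.1.bot_mem) (Ch.bot_anti l))]
  simp only [Pi.add_apply, cb]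
  omega

theorem off_bt {a : Lv A w} (ha : a ∉ LA A w) : a.1.1.bot ∉ A ∧ a.1.1.top ∉ A :=
  ⟨fun k => ha ⟨_, a.1.1.bot_mem, k⟩, fun k => ha ⟨_, a.1.1.top_mem, k⟩⟩

/-- boundary cells only depend on the class -/
theorem exists_gr (h : EqD A w (u + cb g)) (hg : ∀ x, x ∉ A → g x = 0) (hm : Mono A u)
    {p : Lv A w} (hp : p ∈ LB A w) : ∃ q ∈ LB A u, GR g q p := by
  obtain ⟨p1, a, a1, a2⟩ := hp
  obtain ⟨l, e⟩ := Lv.le_iff.1 (Lv.le_def.1 a2)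
  have e1 := h _ _ a.2.1.bt
  have e2 := h _ _ (p.2.1.dp p.1.1.bot_mem (l a.1.1.bot_mem) (Ch.bot_anti l))
  simp only [Pi.add_apply, cb, hg _ (off_bt a1).1, hg _ (off_bt a1).2] at e1 e2
  let a' : Lv A u := ⟨a.1, a.2.1, a.2.2.1, by have := a.2.2.2; omega⟩
  obtain ⟨q, q1, q2⟩ := Lv.exists_ge hm a' p.2.1 l
  have e3 := (Lv.le_iff.1 q2).2
  refine ⟨q, ⟨show Mt A q.1.1 from q1 ▸ p1, a', a1, q2⟩, q1.symm, ?_⟩
  rw [q1] at e3 ⊢
  simp only [a'] at e3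
  omega

theorem exists_gr' (h : EqD A w (u + cb g)) (hg : ∀ x, x ∉ A → g x = 0) (hm : Mono A w)
    {q : Lv A u} (hq : q ∈ LB A u) : ∃ p ∈ LB A w, GR g q p := by
  obtain ⟨p, p1, p2, p3⟩ := exists_gr (u := w) (w := u) (g := -g) (fun x y k => by
    rw [Pi.add_apply, Pi.add_apply, h x y k]; simp [cb]; ring) (fun x hx => by simp [hg x hx]) hm hq
  exact ⟨p, p1, p2.symm, by rw [p3, p2]; simp⟩

variable [Fintype P]

/-- `chi` is at most the number of values of an invariant of the boundary cells -/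
theorem chi_le_card (hM : Mf 3 A) (hw : Sf A w) {ι : Type} [Fintype ι] (r : Lv A w → ι → Prop)
    (h1 : ∀ p ∈ LB A w, ∃ i, r p i)
    (h2 : ∀ p ∈ LB A w, ∀ q ∈ LB A w, ∀ i, r p i → r q i → Rch (LA A w) p q) :
    chi A w ≤ Fintype.card ι := by
  rw [chi_eq_chiC hw.mono, chiC_eq_sum subset_rfl fun _ _ _ k _ => k]
  set S := (univ.filter (· ∈ LA A w)).image (cmp (LA A w))
  have hS : ∀ C ∈ S, IsCmp (LA A w) C := fun C hC =>
    let ⟨p, hp, e⟩ := mem_image.1 hC; ⟨p, (mem_filter.1 hp).2, e.symm⟩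
  have ex : ∀ C ∈ S, ∃ i, ∃ p ∈ C, p ∈ LB A w ∧ r p i := fun C hC =>
    let ⟨p, p1, p2⟩ := hw.noCl C (hS C hC)
    let ⟨i, hi⟩ := h1 p ⟨(hS C hC).sub p1, p2⟩
    ⟨i, p, p1, ⟨(hS C hC).sub p1, p2⟩, hi⟩
  choose F hF using ex
  calc ∑ C ∈ S, chiC C ≤ ∑ _C ∈ S, (1 : ℤ) :=
        sum_le_sum fun C hC => cmp_le_one hM hw.mono (hS C hC) (hw.noCl C (hS C hC))
    _ = (Fintype.card S : ℤ) := by simp
    _ ≤ Fintype.card ι := by
        refine Int.ofNat_le.2 (Fintype.card_le_of_injective (fun C : S => F C.1 C.2) fun C D e => ?_)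
        obtain ⟨p, p1, p2, p3⟩ := hF C.1 C.2
        obtain ⟨q, q1, q2, q3⟩ := hF D.1 D.2
        exact Subtype.ext (((hS _ C.2).eq p1).trans ((cmp_eq (h2 p p2 q q2 _ p3
          ((show F C.1 C.2 = F D.1 D.2 from e) ▸ q3))).trans ((hS _ D.2).eq q1).symm))

end

/-- the Euler characteristics in a class are bounded -/
theorem chi_bdd {s t : St} {f : t.P → s.P} {z : s.P → s.P → ℤ} (hM : Mf 3 s.A) (hz : Coc s.A z)
    (hm : Mono s.A z) (hd : Desc s t f) {w : t.P → t.P → ℤ} (hw : Sf t.A w)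
    (he : Eqv t.A (pb f z) w) : chi t.A w ≤ Fintype.card (Lv s.A z) := by
  have : IsCoc s.A z := ⟨hz⟩
  have : IsCoc t.A (pb f z) := ⟨hd.coc hz⟩
  have : IsCoc t.A w := ⟨hw.coc⟩
  obtain ⟨g, hg, he⟩ := he
  have R := hd.rf z
  refine chi_le_card (Alg36.Mf.desc hM hd) hw
    (fun p i => ∃ q ∈ LB t.A (pb f z), GR g q p ∧ R.map q = i) (fun p hp => ?_) ?_
  · obtain ⟨q, q1, q2⟩ := exists_gr he hg (hd.mono' hm) hp
    exact ⟨_, q, q1, q2, rfl⟩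
  · rintro p - p' - _ ⟨q, q1, q2, rfl⟩ ⟨q', k1, k2, e⟩
    exact ((lr_gr he).rch (fun a ha => exists_gr' he hg hw.mono ha) q2 k2
      (((R.ws_LB hm).rch_iff q1 k1).2 (e ▸ Rch.rfl))).mono fun _ k => k.1

theorem maxStmt : Cut21.MaxStmt := fun s z hs hz hm => by
  have : IsCoc s.A z := ⟨hz⟩
  obtain ⟨d1, d2, -, -⟩ := drop hs.bnd hm
  obtain ⟨_, ⟨t, f, w, h1, h2, h3, rfl⟩, hmax⟩ := Int.exists_greatest_of_bdd
    (P := fun n => ∃ (t : St) (f : t.P → s.P) (w : t.P → t.P → ℤ), Desc s t f ∧ Sf t.A w ∧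
      Eqv t.A (pb f z) w ∧ chi t.A w = n)
    ⟨_, by rintro _ ⟨t, f, w, h1, h2, h3, rfl⟩; exact chi_bdd hs.mf hz hm h1 h2 h3⟩
    ⟨_, s, id, _, Desc.refl, d1, d2, rfl⟩
  exact ⟨t, f, w, h1, h2, h3, fun u g hg z' k1 k2 =>
    hmax _ ⟨u, f ∘ g, z', h1.trans hg, k1, (hg.eqv h3).trans k2, rfl⟩⟩

end Crest.Agent.X212.Hp13
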