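import Crest.Agent.X212.Hp13.Tra1
import Crest.Agent.X212.Kh11.Leaf

/-!
# X212 / Hp13 (helper13): `TraDStmt`, a disc is moved off the innermost discs of a surface
-/

set_option autoImplicit false
set_option linter.unusedSectionVars false

open Finset Classical

namespace Crest.Agent.X212.Hp13

open Crest.Agent.X212.Alg36 Cut21
open Pt30 hiding Dsc
open Hk
open Kh11 (WS)

section
variable {P Q : Type} [PartialOrder P] [Fintype P] [PartialOrder Q] [Fintype Q]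
  {X Y H A K G Z : Set P} {w u : P → P → ℤ}

theorem cl_sd : cl (Ch.top ⁻¹' X : Set (Ch P)) = Ch.top ⁻¹' cl X :=
  Set.ext fun c => ⟨fun ⟨_, a, l⟩ => ⟨_, a, Ch.top_mono l⟩,
    fun ⟨a, h, l⟩ => ⟨tp c a l, by simpa using h, le_tp _ _ _⟩⟩

theorem om_sd' : Om (Ch.top ⁻¹' X : Set (Ch P)) = Ch.top ⁻¹' Om X := Set.ext fun _ => Hlf24.om_sd

theorem rg_sd (h : Rg X) : Rg (Ch.top ⁻¹' X : Set (Ch P)) :=
  ⟨h.up.preimage Ch.top_mono, Mf.sd h.mf, Nice.sd h.up.ordConnected h.nice⟩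

theorem amb_sd (h : Amb X) : Amb (Ch.top ⁻¹' X : Set (Ch P)) :=
  ⟨rg_sd h.toRg, Bnd.sd h.up.ordConnected h.nice h.bnd, Bnd.sd h.up.ordConnected h.nice h.bnd2,
    Esc.sd h.esc⟩

theorem sub_sd (h : Sub Y X) : Sub (Ch.top ⁻¹' Y : Set (Ch P)) (Ch.top ⁻¹' X) :=
  ⟨rg_sd h.toRg, amb_sd h.amb, Set.preimage_mono h.sub⟩

theorem cq_low (hH : IsLowerSet H) : (Ch.top ⁻¹' H : Set (Ch P)) = Cq H :=
  Set.ext fun c => ⟨fun a _ b => hH (Ch.le_top b) a, fun a => a _ c.top_mem⟩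

theorem mfIn_sd (hH : IsLowerSet H) (h : MfIn H A) :
    MfIn (Ch.top ⁻¹' H : Set (Ch P)) (Ch.top ⁻¹' A) := by
  rw [cq_low hH]; exact mf_cq h

theorem ws_ncmp {B : Set Q} {f : P → Q} (h : WS A B f) : ncmp A = ncmp B :=
  (Set.ncard_congr (fun C _ => {t | t ∈ A ∧ f t ∈ C}) (fun _ hC => h.isCmp_pre hC)
    (fun C D hC hD e => by
      obtain ⟨y, hy⟩ := IsCmp.ne hC
      obtain ⟨x, x1, x2⟩ := h.surj (IsCmp.sub hC hy)
      have a : f x ∈ C := by rw [IsCmp.eq hC hy]; exact ⟨h.maps x1, x2.symm⟩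
      have b : f x ∈ D := (show x ∈ {t | t ∈ A ∧ f t ∈ D} from e ▸ ⟨x1, a⟩).2
      rw [IsCmp.eq hC a, IsCmp.eq hD b])
    fun _ hC => let ⟨D, a, b⟩ := h.isCmp_ex hC; ⟨D, a, b.symm⟩).symm

theorem exOn_pb {G : Type} [AddCommGroup G] {f : Q → P} (hf : Monotone f) {z : P → P → G}
    (h : ExOn K z) : ExOn (f ⁻¹' K) (pb f z) :=
  let ⟨g, e⟩ := h; ⟨g ∘ f, fun x a y b l => e _ a _ b (hf l)⟩

theorem exOn_add {G : Type} [AddCommGroup G] {z z' : P → P → G} (h : ExOn K z) (h' : ExOn K z') :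
    ExOn K (z + z') :=
  let ⟨g, e⟩ := h; let ⟨g', e'⟩ := h'
  ⟨g + g', fun x a y b l => by simp only [Pi.add_apply, e x a y b l, e' x a y b l]; abel⟩

theorem exOn_neg {G : Type} [AddCommGroup G] {z : P → P → G} (h : ExOn K z) : ExOn K (-z) :=
  let ⟨g, e⟩ := h; ⟨-g, fun x a y b l => by simp only [Pi.neg_apply, e x a y b l]; abel⟩

theorem exOn_congr {G : Type} [AddCommGroup G] {z z' : P → P → G} (h : ExOn K z)
    (e : ∀ x y, z' x y = z x y) : ExOn K z' :=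
  let ⟨g, k⟩ := h; ⟨g, fun x a y b l => (e x y).trans (k x a y b l)⟩

theorem bd_on (hX : IsUpperSet X) (h : Bd X G) : IsLowerSet (Om X \ G) :=
  fun _ _ k a => ⟨om_low hX k a.1, fun j => a.2 (h.clo _ j _ a.1 k)⟩

/-- composition of moves -/
theorem tr_trans {t t' : St} {f : t.P → P} {g : t'.P → t.P} {w₁ : t.P → t.P → ℤ}
    {w₂ : t'.P → t'.P → ℤ} (hX : IsUpperSet X) (hA : A ⊆ X) (h : Tr X A w t f w₁)
    (h' : Tr (f ⁻¹' X) (f ⁻¹' A) w₁ t' g w₂) (tw : Tw P t' (f ∘ g))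
    (e1 : cl (f ⁻¹' X) = f ⁻¹' cl X) (e2 : Om (f ⁻¹' X) = f ⁻¹' Om X) :
    Tr X A w t' (f ∘ g) w₂ := by
  have mf : Monotone f := Desc.mono h.tw
  have mg : Monotone g := Desc.mono (s := lv0 t.P) h'.tw
  refine ⟨tw, h'.td, fun K a b c => ?_, fun G a b c => h.ines G a b (h'.ines (f ⁻¹' G)
    ⟨a.low.preimage mf, e2 ▸ Set.preimage_mono a.sub,
      fun x hx y hy l => a.clo _ hx _ (by rwa [e2] at hy) (mf l)⟩ ?_ c), ?_⟩
  · have := h'.flat (f ⁻¹' K) (a.preimage mf) (b.preimage f) (by rw [e1]; exact h.flat K a b c)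
    rwa [e1] at this
  · have e : (Om X \ G) ∩ cl X = Om X \ G := Set.inter_eq_left.2 fun _ k => k.1.2
    have := h.flat _ (bd_on hX a) (Set.disjoint_left.2 fun _ k j => k.1.1 (hA j)) (e.symm ▸ b)
    rw [e] at this
    rw [On, e2]; exact this
  · have d := h'.drv
    rw [e1] at d
    rcases h.drv with k | k <;> have k := exOn_pb mg k <;> rcases d with d | d
    · exact Or.inl (exOn_congr (exOn_add d k) fun x y => by simp [pb])
    · exact Or.inr (exOn_congr (exOn_add d (exOn_neg k)) fun x y => by simp [pb])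
    · exact Or.inr (exOn_congr (exOn_add d k) fun x y => by simp [pb]; ring)
    · exact Or.inl (exOn_congr (exOn_add d (exOn_neg k)) fun x y => by simp [pb]; ring)

theorem tr_mono {t : St} {f : t.P → P} {w' : t.P → t.P → ℤ} {B : Set P} (h : Tr X A w t f w')
    (k : A ⊆ B) : Tr X B w t f w' :=
  ⟨h.tw, h.td, fun K a b => h.flat K a (b.mono_right k), h.ines, h.drv⟩

theorem tr_refl (h : TD X w) : Tr X A w (lv0 P) id w :=
  ⟨Desc.refl, h, fun _ _ _ c => c, fun _ _ _ c => c, Or.inl ⟨0, fun _ _ _ _ _ => by simp [pb]⟩⟩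

theorem tr_sd {t : St} {g : t.P → Ch P} {w₁ : Ch P → Ch P → ℤ} {w₂ : t.P → t.P → ℤ}
    (hX : IsUpperSet X) (hA : A ⊆ X) (h : Tr X A w (lv0 P).sd Ch.top w₁)
    (h' : Tr (Ch.top ⁻¹' X) (Ch.top ⁻¹' A) w₁ t g w₂) : Tr X A w t (Ch.top ∘ g) w₂ :=
  tr_trans hX hA h h' ((Desc.sd (lv0 P)).trans h'.tw) cl_sd om_sd'

theorem tr_id {t : St} {g : t.P → P} {w₁ : P → P → ℤ} {w₂ : t.P → t.P → ℤ}
    (hX : IsUpperSet X) (hA : A ⊆ X) (h : Tr X A w (lv0 P) id w₁)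
    (h' : Tr X A w₁ t g w₂) : Tr X A w t g w₂ :=
  tr_trans (t := lv0 P) hX hA h h' h'.tw rfl rfl

theorem ines_congr (e : EqE G w u) (h : Ines G w) : Ines G u :=
  let ⟨Z, a, b, c⟩ := h
  ⟨Z, a, b, c.imp (fun k x p y q l => (e x p y q l).symm.trans (k x p y q l))
    fun k x p y q l => (e x p y q l).symm.trans (k x p y q l)⟩

/-- the surgery is a move -/
theorem CapV.tr (h : CapV X H w Z) (hs : Sub Y X) (hw : TD X w) [IsCoc X (w - cb (ind Z))] :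
    Tr X Z w (lv0 P) id (cnt (Cls X (w - cb (ind Z)))ᶜ) := by
  have z' := h.z1 hs.up ((s1_iff hs.up).1 hw.toS1)
  obtain ⟨a, b⟩ := h.disc hs.up hs.mf hw
  have e := cnt_add_compl (T := Cls X (w - cb (ind Z))) z'.mono
  refine ⟨Desc.refl, a, fun K _ k2 k3 x x1 y y1 l => ?_, fun G g _ c => ines_congr ?_ c,
    Or.inl ?_⟩
  · have := cnt_le (T := (Cls X (w - cb (ind Z)))ᶜ) z'.mono ((dp_iff hs.up).2 ⟨l, y1.2⟩)
    have := cnt_nonneg (T := (Cls X (w - cb (ind Z)))ᶜ) x y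
    have := h.le (x := x) (y := y) (Set.disjoint_left.1 k2 x1.1)
    have := k3 x x1 y y1 l
    omega
  · intro x x1 y y1 l
    have := e x y ((dp_iff hs.up).2 ⟨l, (g.sub y1).2⟩)
    rw [h.off (fun k => (g.sub x1).1 (h.low.sub k)) fun k => (g.sub y1).1 (h.low.sub k),
      Pi.add_apply, Pi.add_apply, b.flat x (g.sub x1) y (g.sub y1) l, zero_add] at this
    exact this.symm
  · obtain ⟨g, k⟩ := ex_of_flat hs.up hs.amb.up hs.sub hs.amb.bnd b.coc b.flat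
    refine ⟨-g - ind Z, fun x x1 y y1 l => ?_⟩
    have := e x y ((dp_iff hs.up).2 ⟨l, y1⟩)
    have := k x x1 y y1 l
    simp only [Pi.sub_apply, Pi.add_apply, Pi.neg_apply, cb, pb, id] at *
    omega

theorem capV_rev (hA : A ⊆ X) (hH : IsLowerSet H) (hm : MfIn H A) (h : CapL H A w Z)
    (k : CapH (Ch.top ⁻¹' H) (Ch.top ⁻¹' A) (rev w) (Ch.top ⁻¹' H ∩ Ch.bot ⁻¹' Z)) :
    CapV (Ch.top ⁻¹' X) (Ch.top ⁻¹' H) (rev w) (Ch.top ⁻¹' H ∩ Ch.bot ⁻¹' Z) :=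
  ⟨⟨Mf.mono (mfIn_sd hH hm) fun _ j => (k.sub j).2, fun _ j => hA (k.sub j).2,
    fun _ j _ l => hH (Ch.top_mono l) j.1, k.up, k.ctr.conn,
    let ⟨y, a, x, b, c⟩ := k.ne; ⟨x, c, y, a, b⟩⟩, k.ctr.eu, k.one,
    fun _ a _ _ l => h.flat _ (h.low (Ch.bot_anti l) a.2) _ a.2 (Ch.bot_anti l)⟩

end

/-- the statement for at most `n` curves -/
def TraN (n : ℕ) : Prop := ∀ (P : Type) [PartialOrder P] [Fintype P] (Y X A H : Set P)
  (w : P → P → ℤ), Sub Y X → IsUpperSet A → A ⊆ X → IsLowerSet H → MfIn H A → TD X w →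
    ncmp (Cv (H ∩ cl X) w) = n →
    ∃ t f w', Tr X (H ∩ A) w t f w' ∧ NoCap (f ⁻¹' H) (f ⁻¹' A) w'

theorem traDStmt (hR : RevStmt) : TraDStmt := by
  suffices k : ∀ n, TraN n from fun P _ _ Y X A H w a b c d e f => k _ P Y X A H w a b c d e f rfl
  intro n
  induction n using Nat.strong_induction_on with
  | _ n ih =>
  have rv : ∀ (P : Type) [PartialOrder P] [Fintype P] (X A H : Set P) (w : P → P → ℤ),
      IsUpperSet X → IsLowerSet H → TD X w → Tr X (H ∩ A) w (lv0 P).sd Ch.top (rev w) ∧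
        ncmp (Cv (Ch.top ⁻¹' H ∩ cl (Ch.top ⁻¹' X)) (rev w)) = ncmp (Cv (H ∩ cl X) w) :=
    fun P _ _ X A H w a b c => by
      obtain ⟨-, -, -, r1, r2, -⟩ := hR P X w a c.toS1
      refine ⟨tr_mono (r2 c) (Set.empty_subset _), ?_⟩
      rw [cl_sd]
      exact ws_ncmp (r1 _ (b.inter cl_low) Set.inter_subset_right)
  have low : ∀ (P : Type) [PartialOrder P] [Fintype P] (Y X A H Z : Set P) (w : P → P → ℤ),
      Sub Y X → IsUpperSet A → A ⊆ X → IsLowerSet H → MfIn H A → TD X w →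
      ncmp (Cv (H ∩ cl X) w) = n → CapL H A w Z →
      ∃ t f w', Tr X (H ∩ A) w t f w' ∧ NoCap (f ⁻¹' H) (f ⁻¹' A) w' := by
    intro P _ _ Y X A H Z w hs hA hAX hH hm hw e c
    obtain ⟨r1, r2⟩ := rv P X A H w hs.up hH hw
    have k := ((hR P X w hs.up hw.toS1).2.2.2.2.2.2.2 H A Z hH hA hAX).2 c
    have v := capV_rev hAX hH hm c k
    have s1 := sub_sd hs
    have td : TD (Ch.top ⁻¹' X) (rev w) := r1.td
    have z := (s1_iff s1.up).1 td.toS1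
    have i := IsCoc.mk (v.z1 s1.up z).coc
    have t1 := tr_mono (v.tr s1 td) k.sub
    have lt := v.ncmp_lt s1.up z (K := Ch.top ⁻¹' H ∩ cl (Ch.top ⁻¹' X)) Set.inter_subset_right
      Set.inter_subset_left (fun y a x l => ⟨v.low.dn y a x l, _, v.low.sub a, l⟩) sat_cls.compl
    obtain ⟨t, f, w', a, b⟩ := ih _ (lt.trans_eq (r2.trans e)) (Ch P) _ _ _ _ _ s1
      (hA.preimage Ch.top_mono) (Set.preimage_mono hAX) (hH.preimage Ch.top_mono) (mfIn_sd hH hm)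
      t1.td rfl
    have sub : H ∩ A ⊆ X := fun _ j => hAX j.2
    exact ⟨t, _, w', tr_sd hs.up sub r1 (tr_id s1.up (Set.preimage_mono sub) t1 a), b⟩
  intro P _ _ Y X A H w hs hA hAX hH hm hw e
  by_cases nc : NoCap H A w
  · exact ⟨lv0 P, id, w, tr_refl hw, nc⟩
  simp only [NoCap, not_forall, not_and_or, not_not] at nc
  obtain ⟨Z, c | c⟩ := nc
  · obtain ⟨r1, r2⟩ := rv P X A H w hs.up hH hw
    have k := ((hR P X w hs.up hw.toS1).2.2.2.2.2.2.2 H A Z hH hA hAX).1 c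
    obtain ⟨t, f, w', a, b⟩ := low (Ch P) _ _ _ _ _ _ (sub_sd hs) (hA.preimage Ch.top_mono)
      (Set.preimage_mono hAX) (hH.preimage Ch.top_mono) (mfIn_sd hH hm) r1.td (r2.trans e) k
    exact ⟨t, _, w', tr_sd hs.up (fun _ j => hAX j.2) r1 a, b⟩
  · exact low P Y X A H Z w hs hA hAX hH hm hw e c

end Crest.Agent.X212.Hp13
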