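import Crest.Agent.X212.End23.Crt

/-!
# X212 / Hp13 (helper13): ES-FLO, a Banach space of masses
-/

set_option autoImplicit false
set_option linter.unusedSectionVars false
noncomputable section
open scoped Manifold ContDiff Topology InnerProductSpace ENNReal
open Set Function Filter TopologicalSpace

namespace Crest.Agent.X212.Hp13.Flr
open An Sob92

section gen
variable {E : Type} [NormedAddCommGroup E] [NormedSpace ℝ E] [FiniteDimensional ℝ E]
  [MeasurableSpace E] [BorelSpace E]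
  {HM : Type} [TopologicalSpace HM] {I : ModelWithCorners ℝ E HM} [I.Boundaryless]
  {M : Type} [TopologicalSpace M] [ChartedSpace HM M] [IsManifold I ∞ M]
  [MeasurableSpace M] [T2Space M] [BorelSpace M] {ι : Type} [Fintype ι]
  {N : Type} [NormedAddCommGroup N] [NormedSpace ℝ N] [FiniteDimensional ℝ N]

/-- **a separable Banach space of smooth functions** that contains a given sequence -/
theorem floer [CompactSpace M] {F : Pre I M ι} {S : ℝ} (hS : Sup F S) (u : ℕ → M → N)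
    (hu : ∀ n, Sm I (u n)) : ∃ (Λ : Type) (_ : NormedAddCommGroup Λ) (_ : NormedSpace ℝ Λ)
      (H : M → Λ →L[ℝ] N), CompleteSpace Λ ∧ SecondCountableTopology Λ ∧
      (∀ x, Sm I fun y => H y x) ∧ (∀ k, ∃ C, ∀ x, F.CB k (fun y => H y x) (C * ‖x‖)) ∧
      (∀ n, ∃ x, ∀ y, H y x = u n y) ∧ ∀ (N' : Type) [NormedAddCommGroup N'] [NormedSpace ℝ N']
        (A B : N →L[ℝ] N') y, (∀ n, A (u n y) = B (u n y)) → ∀ x, A (H y x) = B (H y x) := by
  let T := toEuclidean (E := N)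
  let V := EuclideanSpace ℝ (Fin (Module.finrank ℝ N))
  let s : ℕ → Sec I (triv M V) := fun n => ⟨fun y => T (u n y), T.contDiff.contMDiff.comp (hu n),
    .of_compactSpace _, fun _ => rfl⟩
  let a : ∀ k, ℕ → F.H (k + 4) (triv M V) := fun k n => F.toH _ _ (s n)
  let w : ℕ → ℝ := fun k => 1 + ∑ n ∈ Finset.range (k + 1), ‖a k n‖
  have w0 : ∀ k, 1 ≤ w k := fun k => le_add_of_nonneg_right (by positivity)
  have w1 : ∀ k, w k ≠ 0 := fun k => (one_pos.trans_le (w0 k)).ne'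
  let v : ℕ → lp (fun k => F.H (k + 4) (triv M V)) ∞ := fun n => ⟨fun k => (w k)⁻¹ • a k n,
    memℓp_infty ⟨1 + ∑ k ∈ Finset.range n, ‖a k n‖, by
      rintro _ ⟨k, rfl⟩
      have h0 : 0 ≤ ∑ k ∈ Finset.range n, ‖a k n‖ := by positivity
      simp only [norm_smul, norm_inv, Real.norm_of_nonneg (zero_le_one.trans (w0 k))]
      rw [inv_mul_le_iff₀ (one_pos.trans_le (w0 k))]
      rcases lt_or_ge k n with h | h
      · have := Finset.single_le_sum (f := fun k => ‖a k n‖) (fun _ _ => norm_nonneg _)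
          (Finset.mem_range.2 h)
        nlinarith [w0 k]
      · have := Finset.single_le_sum (f := fun n => ‖a k n‖) (fun _ _ => norm_nonneg _)
          (Finset.mem_range.2 (Nat.lt_succ_of_le h))
        have e : w k = 1 + ∑ n ∈ Finset.range (k + 1), ‖a k n‖ := rfl
        nlinarith [w0 k]⟩⟩
  let P := fun k y => F.ev (k + 4) (triv M V) y ∘L (w k • lp.evalCLM ℝ (fun k => F.H (k + 4) (triv M V)) ∞ k)
  have P0 : ∀ k y x, P k y x = F.val _ _ (w k • x k) y := fun _ _ _ => rfl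
  have P1 : ∀ k y n, P k y (v n) = T (u n y) := fun k y n => by
    rw [P0, show (v n : ∀ k, _) k = (w k)⁻¹ • a k n from rfl, smul_inv_smul₀ (w1 k),
      val_toH hS (by omega)]
  let Λ := (Submodule.span ℝ (range v)).topologicalClosure
  have P2 : ∀ k, ∀ x : Λ, (fun y => P 0 y x) = F.val _ _ (w k • x.1 k) := fun k x => funext fun y =>
    ContinuousLinearMap.eqOn_closure_span (f := P 0 y) (g := P k y)
      (forall_mem_range.2 fun n => (P1 0 y n).trans (P1 k y n).symm) x.2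
  have sm : ∀ x : Λ, Sm I fun y => P 0 y x := fun x => contMDiff_infty.2 fun k =>
    P2 k x ▸ contMDiff_val hS le_rfl _
  have cb : ∀ k, ∀ x : Λ, F.CB k (fun y => P 0 y x) (√|S| * ‖w k • x.1 k‖) := fun k x =>
    P2 k x ▸ CB_val hS k le_rfl _
  refine ⟨Λ, inferInstance, inferInstance, fun y => (T.symm : V →L[ℝ] N) ∘L P 0 y ∘L Λ.subtypeL,
    inferInstance, ((countable_range v).isSeparable.span (R := ℝ)).closure.secondCountableTopology,
    fun x => T.symm.contDiff.contMDiff.comp (sm x), fun k => ⟨‖(T.symm : V →L[ℝ] N)‖ * (√|S| * w k),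
      fun x => CB_mono (CB_clm (T.symm : V →L[ℝ] N) (sm x) (cb k x)) ?_⟩,
    fun n => ⟨⟨v n, subset_closure (Submodule.subset_span (mem_range_self n))⟩, fun y => by simp [P1]⟩,
    fun N' _ _ A B y h x => ContinuousLinearMap.eqOn_closure_span
      (f := A ∘L (T.symm : V →L[ℝ] N) ∘L P 0 y) (g := B ∘L (T.symm : V →L[ℝ] N) ∘L P 0 y)
      (forall_mem_range.2 fun n => by simpa [P1] using h n) x.2⟩
  rw [norm_smul, Real.norm_of_nonneg (zero_le_one.trans (w0 k)), mul_assoc, mul_assoc]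
  have h1 := lp.norm_apply_le_norm ENNReal.top_ne_zero x.1 k
  have := w0 k
  gcongr
  exact h1

end gen

open End23 Sw Sw.En3

variable {κ lam ν : Type} [Fintype κ] [Fintype lam] [Fintype ν] [DecidableEq ν] {e : En3 κ lam ν}

theorem herm_pp (h : e.OK) : Herm e fun y => e.cyl.pp (y, 0) := by
  have : e.cyl.F.Cb e.cyl.pp := Cb_smul (Cb_const _) (Cb_sub h.cyl.cp (Cb_smul (Cb_const _)
    (Cb_sum _ fun i _ => Cb_sum _ fun j _ => Cb_sum _ fun k _ => Cb_sum _ fun l _ => Cb_smul (h.cyl.co i j k l)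
      (Cb_comp (Cb_comp (Cb_comp (h.cyl.cρ i) (h.cyl.cρ j)) (h.cyl.cρ k)) (h.cyl.cρ l)))))
  exact ⟨this.choose_spec.1.comp (contMDiff_id.prodMk contMDiff_const), fun y => (Sw88.p8 h.cyl _).pp_s,
    fun y => (Sw88.p8 h.cyl (y, 0)).J_pp, fun y => by
      have : e.cyl.pp (y, 0) * e.cyl.pp (y, 0) = e.cyl.pp (y, 0) := (Sw88.p8 h.cyl (y, 0)).pp_pp
      rw [this, this]⟩

theorem ok_wh (h : e.OK) {g : e.Y.M → En ν} (hs : ∀ y, Sym (g y))
    (h1 : e.cyl.F.Cb fun x => e.m.ρ none x.1 * g x.1)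
    (h2 : ∀ y, e.m.J * (e.m.ρ none y * g y) = e.m.ρ none y * g y * e.m.J)
    (h3 : ∀ x, e.cyl.pm x * (e.m.ρ none x.1 * g x.1) * e.cyl.pp x = e.m.ρ none x.1 * g x.1) :
    (wh e e.f g).OK :=
  { h with
    cyl := { h.cyl with cms := h1, msJ := fun x => h2 x.1, msp := h3, ct := fun j => j.elim0 }
    hs := hs
    per := fun v v' a b => h.per ⟨v.a, v.Φ⟩ ⟨v'.a, v'.Φ⟩ ⟨a.1, a.2, a.3, a.4⟩ b
    sp := let ⟨n, u, a, b⟩ := h.sp; ⟨n, u, a, fun c k => b c ⟨k.1, k.2, k.3⟩⟩ }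

variable (κ lam ν) in
/-- **ES-FLO** -/
theorem flo : FloStmt κ lam ν := fun e h => by
  refine ⟨?_, fun g k => ?_⟩
  · obtain ⟨t, t1, t2, t3⟩ := (IsSeparable.of_separableSpace
      {f : C(e.Y.M, En ν) | Herm e f}).exists_countable_dense_subset
    let p : C(e.Y.M, En ν) := ⟨_, (herm_pp h).sm.continuous⟩
    obtain ⟨u, hu⟩ := (t2.insert p).exists_eq_range (insert_nonempty _ _)
    have m : ∀ n, Herm e (u n) := fun n =>
      insert_subset (s := t) (a := p) (herm_pp h) t1 (hu ▸ mem_range_self n)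
    obtain ⟨C, hC⟩ := Cht98.exists_tame e.D.F (by rw [e.Y.dim]; norm_num)
    obtain ⟨Λ, _, _, H, _, _, a, b, c, d⟩ := floer (Sup.of_tame hC) (fun n => u n) fun n => (m n).sm
    refine ⟨⟨Λ, ⟨⟨fun x y => H y x, fun _ _ => funext fun y => map_add _ _ _⟩,
      fun _ _ => funext fun y => map_smul _ _ _⟩, fun x => ⟨a x, fun y v w => (real_inner_comm _ _).trans
        (d ℝ (innerSL ℝ w ∘L .apply ℝ _ v) (innerSL ℝ v ∘L .apply ℝ _ w) y
          (fun n => (real_inner_comm _ _).trans ((m n).sy y v w)) x),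
        fun y => d _ (.mul ℝ _ e.m.J) ((ContinuousLinearMap.mul ℝ (En ν)).flip e.m.J) y (fun n => (m n).J y) x,
        fun y => d _ (.mulLeftRight ℝ _ _ _) (.id ℝ _) y (fun n => (m n).p y) x⟩, b, fun g k ε hε => ?_, ?_⟩⟩
    · obtain ⟨f, f1, f2⟩ := (Metric.mem_closure_iff (α := C(e.Y.M, En ν))).1 (t3 (a := ⟨g, k.sm.continuous⟩) k) ε hε
      obtain ⟨n, rfl⟩ : f ∈ range u := hu ▸ mem_insert_of_mem _ f1
      refine (c n).imp fun x hx y => ?_
      rw [dist_comm] at f2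
      exact (congrArg (‖· - g y‖) (hx y)).trans_le
        ((dist_eq_norm _ _).symm.trans_le ((ContinuousMap.dist_apply_le_dist y).trans f2.le))
    · obtain ⟨n, e⟩ : p ∈ range u := hu ▸ mem_insert _ _
      exact (c n).imp fun x hx y => (hx y).trans (by rw [e]; rfl)
  · have h1 : e.cyl.F.Cb fun x => e.m.ρ none x.1 * g x.1 :=
      Cb_comp (h.cyl.cρ none) (Cht98.Cb_fst _ (Cb_of_compact k.sm))
    have h2 : ∀ y, e.m.J * (e.m.ρ none y * g y) = e.m.ρ none y * g y * e.m.J := fun y => by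
      rw [← mul_assoc, show e.m.J * e.m.ρ none y = e.m.ρ none y * e.m.J from
        h.cyl.m.Jρ none (y, 0) trivial, mul_assoc, k.J, mul_assoc]
    have h3 : ∀ x, e.cyl.pm x * (e.m.ρ none x.1 * g x.1) * e.cyl.pp x = e.m.ρ none x.1 * g x.1 :=
      fun x => by
        rw [← mul_assoc, ← show e.m.ρ none x.1 * e.cyl.pp x = e.cyl.pm x * e.m.ρ none x.1 from
          (Sw88.p8 h.cyl x).ρ_pp none, mul_assoc, mul_assoc, ← mul_assoc (e.cyl.pp x)]
        exact congrArg _ (k.p x.1)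
    refine ⟨ok_wh h k.sy h1 h2 h3, ok_wh h (fun y v w => ?_) ?_ (fun y => ?_) fun x => ?_⟩ <;>
      simp only [Pi.add_apply, mul_add, add_mul]
    · simp only [add_apply, inner_add_left, inner_add_right, h.hs y v w, k.sy y v w]
    · exact Cb_add h.cyl.cms h1
    · exact congrArg₂ _ (h.cyl.msJ (y, 0)) (h2 y)
    · exact congrArg₂ _ (h.cyl.msp x) (h3 x)

end Crest.Agent.X212.Hp13.Flr
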