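import Crest.Agent.X212.Deg23.Main
import Crest.Agent.X212.Crt72.GM

/-!
# X212 / Hp13 (helper13): the spectral flow is unique and invariant under conjugation
-/

set_option autoImplicit false
set_option linter.unusedSectionVars false
noncomputable section
open Set Filter Topology Function Module
open scoped InnerProductSpace

namespace Crest.Agent.X212.Hp13.SfU
open Crt72

theorem glue {X : Type*} [TopologicalSpace X] [PreconnectedSpace X] {B : Set X} (hB : Dense B)
    {φ : X → ℤ} (h : ∀ x, ∃ U ∈ 𝓝 x, ∀ b ∈ U ∩ B, ∀ c ∈ U ∩ B, φ b = φ c) {x y : X} (hx : x ∈ B)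
    (hy : y ∈ B) : φ x = φ y := by
  choose U hU h using h
  choose b hb using fun x => hB.inter_nhds_nonempty (hU x)
  have k : IsLocallyConstant fun x => φ (b x) := (IsLocallyConstant.iff_eventually_eq _).2 fun x => by
    filter_upwards [eventually_mem_nhds_iff.2 (hU x)] with y hy
    obtain ⟨c, c1, c2, c3⟩ := hB.inter_nhds_nonempty (inter_mem hy (hU y))
    exact (h y _ (hb y).symm c ⟨c3, c1⟩).trans (h x c ⟨c2, c1⟩ _ (hb x).symm)
  exact (h x x ⟨mem_of_mem_nhds (hU x), hx⟩ _ (hb x).symm).trans ((k.apply_eq_of_preconnectedSpace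
    x y).trans (h y _ (hb y).symm y ⟨mem_of_mem_nhds (hU y), hy⟩))

variable {X₁ X₀ : Type*} [NormedAddCommGroup X₁] [NormedSpace ℝ X₁] [CompleteSpace X₁]
  [NormedAddCommGroup X₀] [InnerProductSpace ℝ X₀] [CompleteSpace X₀] {i L : X₁ →L[ℝ] X₀}
  {sf sf' : (X₀ →L[ℝ] X₀) → (X₀ →L[ℝ] X₀) → ℤ} {a b a' b' : X₀ →L[ℝ] X₀}

theorem one_mem : (1 : X₀ →L[ℝ] X₀) ∈ symA X₀ := fun _ _ => rfl

theorem sh_mem (ha : a ∈ symA X₀) (t : ℝ) : a + t • 1 ∈ symA X₀ :=
  add_mem ha (Submodule.smul_mem _ _ one_mem)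

theorem cont_Op : Continuous (Op i L) := by unfold Op; fun_prop

variable (H : SF i L (symA X₀) sf)
include H

theorem near (ha : a ∈ symA X₀) (hb : Bijective (Op i L a)) :
    ∀ᶠ c in 𝓝 a, c ∈ symA X₀ → Bijective (Op i L c) ∧ sf a c = 0 := by
  obtain ⟨δ, hδ, hs⟩ := Metric.mem_nhds_iff.1 ((isOpen_bij.preimage cont_Op).mem_nhds hb)
  filter_upwards [Metric.ball_mem_nhds a hδ] with c hc hcs
  exact ⟨hs hc, H.hom a ha c hcs fun s hs' =>
    hs ((convex_ball a δ).add_smul_sub_mem (Metric.mem_ball_self hδ) hc hs')⟩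

/-- no spectral flow along a continuous path of invertible operators -/
theorem path {γ : ℝ → X₀ →L[ℝ] X₀} (hγ : Continuous γ) (hs : ∀ t, γ t ∈ symA X₀)
    (hb : ∀ t, Bijective (Op i L (γ t))) (s t : ℝ) : sf (γ s) (γ t) = 0 := by
  rw [← H.self (hs s) (hb s)]
  refine IsLocallyConstant.apply_eq_of_preconnectedSpace (f := fun t => sf (γ s) (γ t))
    ((IsLocallyConstant.iff_eventually_eq _).2 fun x => ?_) t s
  filter_upwards [hγ.continuousAt.eventually (near H (hs x) (hb x))] with y hy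
  rw [← H.add _ (hs s) _ (hs x) _ (hs y) (hb s) (hb x) (hb y), (hy (hs y)).2, add_zero]

theorem jmp (ha : a ∈ symA X₀) (t : ℝ) : ∀ᶠ ε in 𝓝[>] (0 : ℝ),
    Bijective (Op i L (a + (t + ε) • 1)) ∧ Bijective (Op i L (a + (t - ε) • 1)) ∧
      sf (a + (t + ε) • 1) (a + (t - ε) • 1) = -finrank ℝ (Op i L (a + t • 1)).ker := by
  filter_upwards [Deg23.jump H (sh_mem ha t) one_mem fun k _ h0 =>
    real_inner_self_pos.2 fun h => h0 (H.inj (h.trans (map_zero i).symm))] with ε h
  rwa [add_smul, sub_smul, ← add_assoc, add_sub_assoc', sub_eq_add_neg, ← smul_neg]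

theorem dense_sh (ha : a ∈ symA X₀) : Dense {t : ℝ | Bijective (Op i L (a + t • 1))} := fun t =>
  mem_closure_of_tendsto (b := 𝓝[>] (0 : ℝ)) (f := fun ε => t + ε)
    (tendsto_nhdsWithin_of_tendsto_nhds (Continuous.tendsto' (by fun_prop) _ _ (add_zero t)))
    ((jmp H ha t).mono fun _ h => h.1)

theorem seg (ha : a ∈ symA X₀) {s t : ℝ} (h : ∀ r ∈ uIcc s t, Bijective (Op i L (a + r • 1))) :
    sf (a + s • 1) (a + t • 1) = 0 := H.hom _ (sh_mem ha s) _ (sh_mem ha t) fun r hr => by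
  have := h (s + r * (t - s)) (by
    rw [← segment_eq_uIcc, segment_eq_image']; exact ⟨r, hr, rfl⟩)
  convert this using 3
  module

variable (H' : SF i L (symA X₀) sf')
include H'

theorem line (ha : a ∈ symA X₀) {s t : ℝ} (hs : Bijective (Op i L (a + s • 1)))
    (ht : Bijective (Op i L (a + t • 1))) :
    sf (a + s • 1) (a + t • 1) = sf' (a + s • 1) (a + t • 1) := by
  have m := sh_mem ha
  have := glue (dense_sh H ha) (φ := fun t => sf (a + s • 1) (a + t • 1) - sf' (a + s • 1) (a + t • 1))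
    (fun x => ?_) hs ht
  · simp only [H.self (m s) hs, H'.self (m s) hs] at this
    omega
  obtain ⟨δ, hδ, h⟩ := mem_nhdsGT_iff_exists_Ioc_subset.1 ((jmp H ha x).and (jmp H' ha x))
  have hδ : 0 < δ := hδ
  have e := h ⟨hδ, le_rfl⟩
  have key : ∀ b ∈ Icc (x - δ) (x + δ), Bijective (Op i L (a + b • 1)) →
      sf (a + (x + δ) • 1) (a + b • 1) = sf' (a + (x + δ) • 1) (a + b • 1) := fun b hb k => by
    have j : ∀ r ∈ Icc (x - δ) (x + δ), r = b ∨ r ≠ x → Bijective (Op i L (a + r • 1)) := by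
      rintro r hr (rfl | h0)
      · exact k
      rcases lt_or_gt_of_ne h0 with h0 | h0
      · simpa using (h (a := x - r) ⟨by linarith, by linarith [hr.1]⟩).1.2.1
      · simpa using (h (a := r - x) ⟨by linarith, by linarith [hr.2]⟩).1.1
    rcases le_or_gt x b with h0 | h0
    · have : ∀ r ∈ uIcc (x + δ) b, Bijective (Op i L (a + r • 1)) := fun r hr => by
        rw [uIcc_of_ge hb.2] at hr
        exact j r ⟨hb.1.trans hr.1, hr.2⟩ (hr.1.eq_or_lt.imp Eq.symm fun k => (h0.trans_lt k).ne')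
      rw [seg H ha this, seg H' ha this]
    · have : ∀ r ∈ uIcc (x - δ) b, Bijective (Op i L (a + r • 1)) := fun r hr => by
        rw [uIcc_of_le hb.1] at hr
        exact j r ⟨hr.1, hr.2.trans hb.2⟩ (.inr (hr.2.trans_lt h0).ne)
      rw [← H.add _ (m _) _ (m _) _ (m _) e.1.1 e.1.2.1 k, ← H'.add _ (m _) _ (m _) _ (m _) e.1.1
        e.1.2.1 k, seg H ha this, seg H' ha this, e.1.2.2, e.2.2.2]
  refine ⟨_, Icc_mem_nhds (a := x - δ) (b := x + δ) (by linarith) (by linarith), fun b hb c hc => ?_⟩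
  rw [← H.add _ (m _) _ (m _) _ (m _) hs e.1.1 hb.2, ← H'.add _ (m _) _ (m _) _ (m _) hs e.1.1 hb.2,
    ← H.add _ (m _) _ (m _) _ (m _) hs e.1.1 hc.2, ← H'.add _ (m _) _ (m _) _ (m _) hs e.1.1 hc.2,
    key b hb.1 hb.2, key c hc.1 hc.2]
  ring

/-- **uniqueness of the spectral flow** -/
theorem uniq (ha : a ∈ symA X₀) (hb : b ∈ symA X₀) (ba : Bijective (Op i L a))
    (bb : Bijective (Op i L b)) : sf a b = sf' a b := by
  let γ : ℝ → X₀ →L[ℝ] X₀ := fun s => a + s • (b - a)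
  have m : ∀ s, γ s ∈ symA X₀ := fun s => add_mem ha (Submodule.smul_mem _ _ (sub_mem hb ha))
  choose t ht using fun s => (dense_sh H (m s)).nonempty
  have k : ∀ s r, Bijective (Op i L (γ s + r • 1)) → sf a (γ s + t s • 1) - sf' a (γ s + t s • 1) =
      sf a (γ s + r • 1) - sf' a (γ s + r • 1) := fun s r h => by
    rw [← H.add _ ha _ (sh_mem (m s) r) _ (sh_mem (m s) _) ba h (ht s), line H H' (m s) h (ht s),
      ← H'.add _ ha _ (sh_mem (m s) r) _ (sh_mem (m s) _) ba h (ht s)]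
    ring
  have := IsLocallyConstant.apply_eq_of_preconnectedSpace
    (f := fun s => sf a (γ s + t s • 1) - sf' a (γ s + t s • 1))
    ((IsLocallyConstant.iff_eventually_eq _).2 fun x => ?_) 0 1
  · have e0 : γ 0 + (0 : ℝ) • 1 = a := by simp [γ]
    have e1 : γ 1 + (0 : ℝ) • 1 = b := by simp [γ]
    simp only [k 0 0 (e0 ▸ ba), k 1 0 (e1 ▸ bb), e0, e1, H.self ha ba, H'.self ha ba] at this
    omega
  have c : ContinuousAt (fun s => γ s + t x • 1) x := by fun_prop
  filter_upwards [c.eventually (near H (sh_mem (m x) _) (ht x)),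
    c.eventually (near H' (sh_mem (m x) _) (ht x))] with y h h'
  have h := h (sh_mem (m y) _)
  rw [k y _ h.1, ← H.add _ ha _ (sh_mem (m x) _) _ (sh_mem (m y) _) ba (ht x) h.1,
    ← H'.add _ ha _ (sh_mem (m x) _) _ (sh_mem (m y) _) ba (ht x) h.1, h.2, (h' (sh_mem (m y) _)).2,
    add_zero, add_zero]

omit H'

omit H in
theorem bij_conj {U₁ : X₁ ≃L[ℝ] X₁} {U : X₀ ≃ₗᵢ[ℝ] X₀}
    (h : ∀ x, Op i L a' (U₁ x) = U (Op i L a x)) :
    Bijective (Op i L a') ↔ Bijective (Op i L a) := by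
  rw [← Bijective.of_comp_iff _ U₁.bijective, ← Bijective.of_comp_iff' U.bijective (Op i L a)]
  exact iff_of_eq (congrArg _ (funext h))

/-- **invariance under conjugation** -/
theorem conj (U₁ : X₁ ≃L[ℝ] X₁) (U : X₀ ≃ₗᵢ[ℝ] X₀) (hi : ∀ x, i (U₁ x) = U (i x))
    (ha : a ∈ symA X₀) (hb : b ∈ symA X₀) (ha' : a' ∈ symA X₀) (hb' : b' ∈ symA X₀)
    (ea : ∀ x, Op i L a' (U₁ x) = U (Op i L a x)) (eb : ∀ x, Op i L b' (U₁ x) = U (Op i L b x))
    (ba : Bijective (Op i L a)) (bb : Bijective (Op i L b)) : sf a' b' = sf a b := by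
  let A : (X₀ →L[ℝ] X₀) → X₀ →L[ℝ] X₀ := fun x => (U : X₀ →L[ℝ] X₀) ∘L x ∘L (U.symm : X₀ →L[ℝ] X₀)
  have A0 : ∀ x y, A x (U y) = U (x y) := fun x y => by simp [A]
  have A1 : ∀ x ∈ symA X₀, A x ∈ symA X₀ := fun x hx y z => by
    obtain ⟨y, rfl⟩ := U.surjective y
    obtain ⟨z, rfl⟩ := U.surjective z
    rw [A0, A0, U.inner_map_map, U.inner_map_map, hx]
  have A2 : ∀ x y (s : ℝ), A (x + s • y) = A x + s • A y := fun x y s => by ext; simp [A]
  have A3 : ∀ x y, A (x - y) = A x - A y := fun x y => by ext; simp [A]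
  let c := fun x => a' + A (x - a)
  have m : ∀ x ∈ symA X₀, c x ∈ symA X₀ := fun x hx => add_mem ha' (A1 _ (sub_mem hx ha))
  have e : ∀ x y, Op i L (c x) (U₁ y) = U (Op i L x y) := fun x y => by
    rw [Op_add, add_apply, ea, ContinuousLinearMap.comp_apply, hi, A0, ← map_add, Op_apply, Op_apply,
      sub_apply, add_assoc, add_sub_cancel]
  have j : ∀ {x}, Bijective (Op i L x) → Bijective (Op i L (c x)) := fun h => (bij_conj (e _)).2 h
  have l : ∀ x y (s : ℝ), c (x + s • y) = c x + s • A y := fun x y s => by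
    simp only [c, add_sub_right_comm, A2, add_assoc]
  have H' : SF i L (symA X₀) fun x y => sf (c x) (c y) :=
    { H with
      add := fun x hx y hy z hz p q r => H.add _ (m x hx) _ (m y hy) _ (m z hz) (j p) (j q) (j r)
      hom := fun x hx y hy h => H.hom _ (m x hx) _ (m y hy) fun s hs => by
        have := j (h s hs)
        rw [l, A3] at this
        convert this using 4
        simp only [c, A3]; abel_nf
      flip := fun x hx K P ε hε hP hK hf h p q => by
        have := H.flip _ (m x hx) (K.map (U₁ : X₁ →ₗ[ℝ] X₁)) (A P) ε hε (A1 P hP) ⟨A1 P hP, ?_, ?_⟩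
          inferInstance ?_ (j p) (l x P _ ▸ j q)
        · rw [l, this]
          exact congrArg _ (LinearEquiv.finrank_map_eq U₁.toLinearEquiv K)
        · rintro _ ⟨k, hk, rfl⟩
          exact (congrArg _ (hi k)).trans ((A0 _ _).trans ((congrArg _ (hK.fix k hk)).trans (hi k).symm))
        · intro y
          obtain ⟨y, rfl⟩ := U.surjective y
          obtain ⟨k, hk, e⟩ := hK.mem y
          exact ⟨_, ⟨k, hk, rfl⟩, by rw [A0, e]; exact (hi k).symm⟩
        · rintro _ ⟨k, hk, rfl⟩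
          exact (e x k).trans (by rw [h k hk, map_smul, ← hi]; rfl) }
  have e1 : c a = a' := by ext; simp [c, A]
  have e2 : Op i L (c b) = Op i L b' := ContinuousLinearMap.ext fun y => by
    obtain ⟨y, rfl⟩ := U₁.surjective y
    rw [e, eb]
  have e3 : sf (c b) b' = 0 := H.hom _ (m b hb) _ hb' fun s _ => by
    have : Op i L (c b + s • (b' - c b)) = Op i L (c b) + s • (Op i L b' - Op i L (c b)) := by
      ext; simp [Op_apply, add_assoc]
    rw [this, ← e2, sub_self, smul_zero, add_zero]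
    exact j bb
  rw [uniq H H' ha hb ba bb, ← H.add _ ha' _ (m b hb) _ hb' (e1 ▸ j ba) (j bb) (e2 ▸ j bb), e3, e1,
    add_zero]

end Crest.Agent.X212.Hp13.SfU
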