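import Crest.Agent.X212.End23.Crt
import Crest.Agent.X212.Pb50.Cyl
import Crest.Agent.X212.Hp13.SfU

/-!
# X212 / Hp13 (helper13): ES-MU, gauge invariance of the degree
-/

set_option autoImplicit false
set_option linter.unusedSectionVars false
noncomputable section
open scoped Manifold ContDiff Topology InnerProductSpace
open MeasureTheory Set Function Filter

namespace Crest.Agent.X212.Hp13.Mu
open An Cyf70 Sw Sw.En3 End23 Sob92
open Pb50 hiding th
open Map77 (P2 f2 s2 i1 i2 sm2 ext2 inner2)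
open Crt72 (Op SF symA)

variable {κ lam ν : Type} [Fintype κ] [Fintype lam] [Fintype ν] [DecidableEq ν] {e : En3 κ lam ν}
  {u u' : e.Y.M → ℂ} {v v' : e.YC}

theorem ok_lf (h : e.OK) : (lf e).OK :=
  { h with
    cyl := { h.cyl with w := zero_le_two, ct := fun j => j.elim0 }
    per := fun v v' a b => h.per ⟨v.a, v.Φ⟩ ⟨v'.a, v'.Φ⟩ ⟨a.1, a.2, a.3, a.4⟩ b
    sp := let ⟨n, u, a, b⟩ := h.sp; ⟨n, u, a, fun c k => b c ⟨k.1, k.2, k.3⟩⟩
    sb := contDiff_const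
    b0 := fun _ => le_rfl
    b1 := fun _ _ => rfl
    S := isCompact_empty
    sψ := contDiff_const
    mψ := monotone_const }

/-- `v'` is the transform of `v` -/
abbrev Act (u : e.Y.M → ℂ) (v v' : e.YC) : Prop := fz v' = e.cyl.act (fun x => u x.1) (fz v)

theorem act_ac (hu : Gau e.Y.I u) (v : e.YC) : Act u v (ac u v) :=
  sl_act (fz v) fun _ => (gau_fst hu).1 _

theorem gau_star (hu : Gau e.Y.I u) : Gau e.Y.I fun y => star (u y) :=
  ⟨fun y => sa_star (hu.1 y), fun y => (norm_star _).trans (hu.2 y)⟩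

variable (e) in
/-- the action on the fibre -/
def gV (z : ℂ) : VV κ ν →L[ℝ] VV κ ν := sm2 (.id ℝ _) (cB e.m.J z)

@[simp] theorem f2_gV (z : ℂ) (x : VV κ ν) : f2 _ _ (gV e z x) = f2 _ _ x := Map77.f2_sm2 _ _ _

@[simp] theorem s2_gV (z : ℂ) (x : VV κ ν) : s2 _ _ (gV e z x) = cs e.m.J z (s2 _ _ x) :=
  Map77.s2_sm2 _ _ _

variable (e) in
/-- the action on Sobolev spaces -/
def gH (k : ℕ) (u : e.Y.M → ℂ) : XH e k →L[ℝ] XH e k :=
  e.D.F.mulH k (pV e) (pV e) fun y => gV e (u y)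

theorem cb_gV (hu : Gau e.Y.I u) : e.D.F.Cb fun y => gV e (u y) :=
  Map77.Cb_pr2 (Cb_const _) (Cb_comp (Cb_of_compact ((cB e.m.J).contMDiff.comp hu.1)) (Cb_const _))

theorem adm_vt (hv : e.cyl.Adm (fz v)) {x : e.Y.M → VV κ ν} (hx : x ∈ Sec e.Y.I (pV e)) (r : ℝ) :
    e.cyl.Adm (fz (v.vr (tg e x) r)) := by
  let c : e.ZC := ⟨fun i z => (fz v).a i z + r * f2 _ _ (x z.1) i,
    fun z => (fz v).Φ z + r • (dl e)⁻¹ • s2 _ _ (x z.1)⟩
  refine sl_adm (c := c) (s := 0) fun y => ⟨fun i => (hv.sa i).add (contMDiff_const.mul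
    (sm_fst ((PiLp.proj 2 (fun _ : Option κ => ℝ) i ∘L f2 _ _).contMDiff.comp hx.1))) _,
    hv.sΦ.add (sm_fst ((r • (dl e)⁻¹ • s2 (Fm (Option κ) ℝ) (Eu ν)).contMDiff.comp hx.1)) _, fun i => ?_, ?_⟩
  · have := congrArg (fun t : VV κ ν => f2 _ _ t i) (hx.2.2 y)
    simp only [pV, Map77.f2_sm2, Bg.p1, Wz78.idx_apply, ContinuousLinearMap.id_apply,
      smul_eq_mul] at this
    simp only [c, mul_add, Finset.sum_add_distrib, hv.pa i, mul_left_comm _ r, ← Finset.mul_sum, this]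
  · have := congrArg (s2 _ _) (hx.2.2 y)
    simp only [pV, Map77.s2_sm2] at this
    simp only [c, map_add, map_smul, hv.pΦ, this]

theorem tH_incl (x : e.Y.M → VV κ ν) : iH e (tH e 1 x) = tH e 0 x := by
  unfold tH
  split_ifs
  exacts [incl_toH (Nat.zero_le _) _, map_zero _]

section
variable (he : e.OK)
include he

/-- the extended Hessian is equivariant -/
theorem hs_act (hu : Gau e.Y.I u) (hv : e.cyl.Adm (fz v)) (h : Act u v v') {x : e.Y.M → VV κ ν}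
    (hx : x ∈ Sec e.Y.I (pV e)) (y : e.Y.M) :
    hs v' (fun y => gV e (u y) (x y)) y = gV e (u y) (hs v x y) := by
  have h1 : ∀ y, v'.Φ y = cs e.m.J (u y) (v.Φ y) := fun y => congrArg (fun c : e.ZC => c.Φ (y, 0)) h
  have k := fun r => gr_act (v' := v'.vr (tg e fun y => gV e (u y) (x y)) r) he (adm_vt hv hx r) hu
    (Cfg.ext (funext fun i => funext fun z => by
      have := congrArg (fun c : e.ZC => c.a i z) h
      cases i with
      | none => exact this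
      | some k =>
        simp only [act_a, fz, Nd18.ca, YC.vr, tg, f2_gV] at this ⊢
        rw [this]; ring) (funext fun z => by
      simp only [act_Φ, fz, YC.vr, tg, s2_gV, h1, ← cB_apply, map_add, map_smul]; rfl))
  have J : ∀ w, e.m.J (cs e.m.J (u y) w) = cs e.m.J (u y) (e.m.J w) := cs_comm rfl _
  let T : Eu ν ≃L[ℝ] Eu ν := .equivOfInverse (cB e.m.J (u y)) (cB e.m.J (star (u y)))
    (fun w => (Eqv71.cs_mul (J := e.m.J) he.cyl.m.Jsq (star (u y)) (u y) w).trans (by rw [star_mul_one (hu.2 y), Eqv71.cs_one]))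
    fun w => (Eqv71.cs_mul (J := e.m.J) he.cyl.m.Jsq (u y) (star (u y)) w).trans (by
      rw [mul_comm, star_mul_one (hu.2 y), Eqv71.cs_one])
  have d : ∀ f : ℝ → Eu ν, deriv (fun r => cs e.m.J (u y) (f r)) 0 = cs e.m.J (u y) (deriv f 0) :=
    fun f => congrArg (· 1) (T.comp_fderiv (f := f) (x := 0))
  refine ext2 ?_ ?_
  · simp only [hs, f2_gV, s2_gV, map_add, Map77.f2_i1, Map77.f2_i2, fun r => (k r).1, h1, J,
      inner_cs (J := e.m.J) he.cyl.m.Jsq he.cyl.m.Jsk (hu.2 y)]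
    simp only [tg, f2_gV]
  · simp only [hs, f2_gV, s2_gV, map_add, Map77.s2_i1, Map77.s2_i2, fun r => (k r).2, h1, J, d]
    simp only [← cB_apply, map_add, map_smul, map_zero]

/-- the orbit of a one-parameter group -/
theorem orb (hv : e.cyl.Adm (fz v)) (h : Eq0 v v') : ∃ γ : ℝ → e.YC, γ 0 = v ∧ γ 1 = v' ∧
    (∀ t, e.cyl.Adm (fz (γ t))) ∧ ∀ s, ∃ u, Gau e.Y.I u ∧ ∀ t, Act u (γ t) (γ (s + t)) := by
  obtain ⟨χ, hχ, h⟩ := h
  have g : ∀ t : ℝ, Gau e.Y.I fun y => Complex.exp ((t * χ y : ℝ) * Complex.I) := fun t =>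
    ⟨(Complex.contDiff_exp.comp (Complex.ofRealCLM.contDiff.mul contDiff_const)).contMDiff.comp
      (contMDiff_const.mul hχ), fun _ => Complex.norm_exp_ofReal_mul_I _⟩
  refine ⟨fun t => ac (fun y => Complex.exp ((t * χ y : ℝ) * Complex.I)) v, ?_, ?_,
    fun t => Eqv.adm he hv ⟨_, g t, act_ac (g t) v⟩, fun s => ⟨_, g s, fun t => ?_⟩⟩
  · simp only [ac, zero_mul, Complex.ofReal_zero, Complex.exp_zero, act_one]; rfl
  · simp only [ac, one_mul, ← h]; rfl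
  · rw [Act, act_ac (g t), act_ac (g (s + t)), act_act he.cyl (gau_fst (g t)) (gau_fst (g s))]
    simp only [add_mul, Complex.ofReal_add, Complex.exp_add]

end

section lf
variable (he : (lf e).OK)
include he

theorem maps_gV (u : e.Y.M → ℂ) : Maps (pV e) (pV e) fun y => gV e (u y) := fun y x h =>
  ext2 (by simpa [pV] using congrArg (f2 _ _) h) (by
    have := congrArg (s2 _ _) h
    simp only [pV, Map77.s2_sm2, s2_gV] at this ⊢
    exact (cs_comm (Jpp he.cyl (y, 0)) _ _).trans (congrArg _ this))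

theorem rep_gH (hu : Gau e.Y.I u) (k : ℕ) : e.D.F.Rep (gH e k u) fun x y => gV e (u y) (x y) :=
  rep_mulH (cb_gV hu) (maps_gV he u)

theorem gH_gH (hu : Gau e.Y.I u) (hu' : Gau e.Y.I u') (h : ∀ y, u' y * u y = 1) (k : ℕ)
    (x : XH e k) : gH e k u' (gH e k u x) = x :=
  (mulH_mulH (cb_gV hu) (maps_gV he u) (cb_gV hu') (maps_gV he u') x).trans (mulH_id (fun y w _ =>
    ext2 (by simp) (by simp [Eqv71.cs_mul (J := e.m.J) he.cyl.m.Jsq, h])) x)

/-- as an isomorphism -/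
def gE (hu : Gau e.Y.I u) (k : ℕ) : XH e k ≃L[ℝ] XH e k :=
  .equivOfInverse (gH e k u) (gH e k fun y => star (u y))
    (gH_gH he hu (gau_star hu) (fun y => star_mul_one (hu.2 y)) k)
    (gH_gH he (gau_star hu) hu (fun y => (mul_comm _ _).trans (star_mul_one (hu.2 y))) k)

theorem inner_gV {z : ℂ} (hz : ‖z‖ = 1) (a b : VV κ ν) : ⟪gV e z a, gV e z b⟫_ℝ = ⟪a, b⟫_ℝ := by
  rw [inner2, inner2 a, f2_gV, f2_gV, s2_gV, s2_gV, inner_cs (J := e.m.J) he.cyl.m.Jsq he.cyl.m.Jsk hz]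

/-- as an isometry of `L²` -/
def gI (hu : Gau e.Y.I u) : XH e 0 ≃ₗᵢ[ℝ] XH e 0 :=
  (gE he hu 0).toLinearEquiv.isometryOfInner fun x y =>
    H_eq₂ (f := fun x y => ⟪gH e 0 u x, gH e 0 u y⟫_ℝ) (g := fun x y => ⟪x, y⟫_ℝ) (by fun_prop)
      (by fun_prop) (fun a b => by
        simp only [RepT_toH (rep_gH he hu 0), Pre.inner_toH, Pre.ip, inner_gV he (hu.2 _)]) x y

theorem iH_gH (hu : Gau e.Y.I u) (x : XH e 1) : iH e (gH e 1 u x) = gH e 0 u (iH e x) :=
  incl_mulH (cb_gV hu) (maps_gV he u) (Nat.zero_le _) x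

theorem gH_cst (hu : Gau e.Y.I u) : gH e 0 u (tH e 0 (cst e)) = tH e 0 (cst e) := by
  unfold tH
  split_ifs
  · exact RepT_toH' (rep_gH he hu 0) _ _ (funext fun y => ext2 (by simp) (by simp [cst, cs]))
  · exact map_zero _

variable (e) in
/-- conjugate operators -/
def Cj (u : e.Y.M → ℂ) (a a' : XH e 0 →L[ℝ] XH e 0) : Prop :=
  ∀ x, Op (iH e) (L0 e) a' (gH e 1 u x) = gH e 0 u (Op (iH e) (L0 e) a x)

theorem Cj.bij (hu : Gau e.Y.I u) {a a' : XH e 0 →L[ℝ] XH e 0} (h : Cj e u a a')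
    (b : Bijective (Op (iH e) (L0 e) a)) : Bijective (Op (iH e) (L0 e) a') :=
  (SfU.bij_conj (U₁ := gE he hu 1) (U := gI he hu) h).2 b

theorem Cj.tt (hu : Gau e.Y.I u) {a a' : XH e 0 →L[ℝ] XH e 0} (h : Cj e u a a') :
    Cj e u (a - Rad96.tt (tH e 0 (cst e))) (a' - Rad96.tt (tH e 0 (cst e))) := fun x => by
  have := (gI he hu).inner_map_map (tH e 0 (cst e)) (iH e x)
  have k := h x
  change ⟪gH e 0 u _, gH e 0 u _⟫_ℝ = _ at this
  rw [gH_cst he hu] at this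
  simp only [Crt72.Op_apply, sub_apply, Rad96.tt_apply, ← add_sub_assoc, iH_gH he hu, this] at k ⊢
  rw [map_sub, map_smul, gH_cst he hu, k]

variable (hS : SfStmt κ lam ν)
include hS

theorem sf_lf : SF (iH e) (L0 e) (symA _) (sfE e) := (hS _ he).2

theorem Cj.sf (hu : Gau e.Y.I u) {a a' b b' : XH e 0 →L[ℝ] XH e 0} (h : Cj e u a a')
    (h' : Cj e u b b') (ha : a ∈ symA _) (hb : b ∈ symA _) (ha' : a' ∈ symA _) (hb' : b' ∈ symA _)
    (ba : Bijective (Op (iH e) (L0 e) a)) (bb : Bijective (Op (iH e) (L0 e) b)) :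
    sfE e a' b' = sfE e a b :=
  SfU.conj (sf_lf he hS) (gE he hu 1) (gI he hu) (iH_gH he hu) ha hb ha' hb' h h' ba bb

/-- one-parameter groups have no spectral flow -/
theorem sf_grp {A : ℝ → XH e 0 →L[ℝ] XH e 0} (hA : ∀ t, A t ∈ symA _)
    (hc : ∀ s, ∃ u, Gau e.Y.I u ∧ ∀ t, Cj e u (A t) (A (s + t)))
    (b : Bijective (Op (iH e) (L0 e) (A 0))) : sfE e (A 0) (A 1) = 0 := by
  choose u hu hc using hc
  have h0 : ∀ s, Cj e (u s) (A 0) (A s) := fun s => by simpa only [add_zero] using hc s 0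
  have b' := fun s => (h0 s).bij he (hu s) b
  let φ : ℝ →+ ℤ := .mk' (fun t => sfE e (A 0) (A t)) fun s t => by
    rw [← (sf_lf he hS).add _ (hA 0) _ (hA s) _ (hA _) b (b' s) (b' _),
      (h0 s).sf he hS (hu s) (hc s t) (hA _) (hA _) (hA _) (hA _) b (b' t)]
  refine Int.eq_zero_of_abs_lt_dvd (m := (φ 1).natAbs + 1 ) ⟨φ (1 / ((φ 1).natAbs + 1 : ℕ)), ?_⟩ ?_
  · have := map_nsmul φ ((φ 1).natAbs + 1) (1 / ((φ 1).natAbs + 1 : ℕ) : ℝ)
    rwa [nsmul_eq_mul, nsmul_eq_mul, mul_one_div_cancel (by positivity)] at this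
  · exact (Int.natCast_natAbs _).symm.trans_lt (lt_add_one _)

variable (hA : AhStmt κ lam ν)
include hA

omit he in
theorem rep_TT (he : e.OK) (hw : 0 < e.w) (hv : e.cyl.Adm (fz v)) : e.D.F.Rep (TT v) (hs v) := by
  obtain ⟨⟨σ, B, C, g, -, -, k⟩, -⟩ := hS e he
  have r : e.D.F.Rep _ (hs0 e) := RepT_congr (rep_OpH g 0).1 k
  have r' : e.D.F.Rep (L0 e) (hs0 e) := (show L0 e = _ from r.liftT_eq) ▸ r
  obtain ⟨a, b, -⟩ := hA e he hw v hv
  exact RepT_congr (RepT_add r' (RepT_comp b (rep_incl (Nat.zero_le _)))) fun x =>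
    funext fun y => (eq_sub_iff_add_eq'.1 (a x.1 x.2 y).symm)

omit he in
theorem cj_aH (he : e.OK) (hw : 0 < e.w) (hu : Gau e.Y.I u) (hv : e.cyl.Adm (fz v))
    (h : Act u v v') : Cj e u (aH v) (aH v') := fun x => DFunLike.congr_fun (RepT_eq
  (RepT_comp (rep_TT hS hA he hw (Eqv.adm he hv ⟨u, hu, h⟩)) (rep_gH (ok_lf he) hu 1))
  (RepT_comp (rep_gH (ok_lf he) hu 0) (rep_TT hS hA he hw hv)) fun x =>
    funext (hs_act he hu hv h x.2)) x

omit he hS hA in
theorem cj_lf (a a' : XH e 0 →L[ℝ] XH e 0) : Cj (lf e) u a a' = Cj e u a a' := rfl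

theorem cj_rf (hu : Gau e.Y.I u) {θ θ' : (lf e).YC} (hθ : (lf e).cyl.Adm (fz θ))
    (h : Act (e := lf e) u θ θ') : Cj e u (rf θ) (rf θ') :=
  Cj.tt he hu ((cj_lf (aL θ) (aL θ')).mp (cj_aH hS hA he two_pos hu hθ h))

omit hS in
theorem sym_rf {θ : (lf e).YC} (hθ : (lf e).cyl.Adm (fz θ)) : rf θ ∈ symA _ :=
  sub_mem (x := aL θ) (hA _ he two_pos θ hθ).2.2.1 fun x y => by
    simp only [Rad96.tt_apply, real_inner_smul_left, real_inner_smul_right, real_inner_comm x]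
    ring

omit he hS hA in
theorem adm_th : (lf e).cyl.Adm (fz (th e)) := by
  unfold th
  split_ifs with h
  · exact h.choose_spec.1.1
  · refine ⟨fun i => ?_, contMDiff_const, fun i x => ?_, fun x => map_zero _⟩
    · cases i <;> exact contMDiff_const
    · have : ∀ j, (fz (⟨0, 0⟩ : (lf e).YC)).a j x = 0 := fun j => by cases j <;> rfl
      simp only [this, mul_zero, Finset.sum_const_zero]

omit hA in
theorem bij_rf (hD : DatStmt κ lam ν) {θ : (lf e).YC} (hθ : Red θ) (hn : NdF θ) (h0 : 0 ∉ spec θ) :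
    Bijective (Op (iH e) (L0 e) (rf θ)) := (sf_lf he hS).bij_of_inj fun x hx => by
  obtain ⟨a, b⟩ := hD e he θ hθ hn
  obtain ⟨b, c⟩ := b 0
  rw [show e.D.F.incl 0 0 (pV e) = .id ℝ _ from ContinuousLinearMap.ext incl_self] at b
  obtain ⟨φ, h1, rfl⟩ := (c 0 x).1 ((Deg23.kerR b).1 (by
    rw [zero_smul, sub_zero, a, tH_incl, ← hx]
    simp only [rf, Crt72.Op_apply, sub_apply, add_sub_assoc]))
  obtain rfl : φ = 0 := by_contra fun k => h0 ⟨φ, k, h1⟩
  simp only [Pi.zero_apply, map_zero, tH]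
  split_ifs
  exacts [map_zero _, rfl]

end lf

/-- **ES-MU** -/
theorem muStmt (hS : SfStmt κ lam ν) (hA : AhStmt κ lam ν) (hB : BijStmt κ lam ν)
    (hD : DatStmt κ lam ν) (hF : FlatStmt κ lam ν) : MuStmt κ lam ν where
  eq0 e he hw b v v' hv bv h := by
    obtain ⟨γ, rfl, rfl, h1, h2⟩ := orb he hv h
    have hl := ok_lf he
    have s := fun t => (hA e he hw _ (h1 t)).2.2.1
    have c := fun s => (h2 s).imp fun u h => And.intro h.1 fun t => cj_aH hS hA he hw h.1 (h1 t) (h.2 t)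
    obtain ⟨u, hu, c1⟩ := c 1
    rw [mu, mu, ← (hS e he).2.add _ (sym_rf hl hA adm_th) _ (s 0) _ (s 1) b bv
      (by simpa only [add_zero] using (c1 0).bij hl hu bv), sf_grp hl hS s c bv, add_zero]
  rf e M h := by
    have he := h.ok
    have r : ∀ j, Red (M.θ j) := fun j => ⟨h.crit (.inr j), h.red j⟩
    have b := fun j => bij_rf he hS hD (r j) ((hB.red _ he two_pos _ (r j)).1 (h.nd (.inr j))).1 (h.z j)
    have t : Red (th e) := by
      have k : ∃ θ : (lf e).YC, Red θ := ⟨_, r h.ne.some⟩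
      rw [th, dif_pos k]
      exact k.choose_spec
    have bt : Bijective (Op (iH e) (L0 e) (rf (th e))) := by
      obtain ⟨j | j, u, hu, k⟩ := h.all _ t.1
      · obtain ⟨y, hy⟩ := h.irr j
        have := congrArg (fun c : (lf e).ZC => ‖c.Φ (y, 0)‖) k
        simp only [norm_act he.cyl (u := fun x => u x.1) (x := (y, 0)) (hu.2 y)] at this
        exact (hy (norm_eq_zero.1 (this.symm.trans (norm_eq_zero.2 (congrFun t.2 y))))).elim
      · exact (cj_rf he hS hA hu (r j).1.1 k).bij he hu (b j)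
    refine ⟨bt, b, fun h1 h2 j => ?_⟩
    obtain ⟨γ, e0, e1, h1, h2⟩ := orb he t.1.1
      ((hF _ he ⟨fun a k => h1.ex a ⟨k.1, k.2, k.3⟩, h1.lg⟩ h.om h2).2.2.1 _ _ t (r j))
    rw [mu0, ← e0, ← e1, sf_grp he hS (A := fun t => rf (γ t)) (fun t => sym_rf he hA (h1 t)) (fun s =>
      (h2 s).imp fun u h => ⟨h.1, fun t => cj_rf he hS hA h.1 (h1 t) (h.2 t)⟩) (e0 ▸ bt), neg_zero]
  nat e he hw b u hu v hv bv := by
    have hl := ok_lf he
    have c := cj_aH hS hA he hw hu hv (act_ac hu v)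
    have c' := cj_rf hl hS hA hu adm_th (act_ac (e := lf e) hu _)
    have s := (hA e he hw _ hv).2.2.1
    have s' := (hA e he hw _ (Eqv.adm he hv ⟨u, hu, act_ac hu v⟩)).2.2.1
    have r := sym_rf hl hA adm_th
    have r' := sym_rf hl hA (Eqv.adm hl adm_th ⟨u, hu, act_ac (e := lf e) hu _⟩)
    refine ⟨c.bij hl hu bv, ?_⟩
    rw [mu, mu, mu0, ← (hS e he).2.add _ r _ r' _ s' b (c'.bij hl hu b) (c.bij hl hu bv),
      c'.sf hl hS hu c r s r' s' b bv]
    ring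

end Crest.Agent.X212.Hp13.Mu
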