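import Crest.Agent.X212.Hp13.Defs

/-!
# X212 / Hp13 (helper13): elementary API (chains, cocycles, pull back, descendants, components)
-/

set_option autoImplicit false
set_option linter.unusedSectionVars false

open Finset Classical

noncomputable section

namespace Crest.Agent.X212.Hp13

section basic

variable {P Q G : Type} [PartialOrder P] [PartialOrder Q] [AddCommGroup G] {A : Set P}

theorem Cm.rfl {x : P} : Cm x x := Or.inl le_rfl
theorem Cm.symm {x y : P} (h : Cm x y) : Cm y x := Or.symm h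
theorem Cm.map {f : Q → P} (hf : Monotone f) {x y : Q} (h : Cm x y) : Cm (f x) (f y) :=
  h.imp (fun h => hf h) fun h => hf h

theorem isChain_iff {c : Finset P} : IsChain (· ≤ ·) (c : Set P) ↔ ∀ x ∈ c, ∀ y ∈ c, Cm x y :=
  ⟨fun h _ hx _ hy => h.total (mem_coe.2 hx) (mem_coe.2 hy), fun h x hx y hy _ => h x hx y hy⟩

namespace Ch

theorem cm (c : Ch P) {x y : P} (hx : x ∈ c.1) (hy : y ∈ c.1) : Cm x y := c.total hx hy

/-- a chain from a finset -/
def mk' (c : Finset P) (h : c.Nonempty) (h' : ∀ x ∈ c, ∀ y ∈ c, Cm x y) : Ch P :=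
  ⟨c, h, isChain_iff.2 h'⟩

/-- a nonempty subset of a chain -/
def sub (c : Ch P) (d : Finset P) (h : d.Nonempty) (h' : d ⊆ c.1) : Ch P :=
  mk' d h fun _ hx _ hy => c.cm (h' hx) (h' hy)

/-- insert a comparable point -/
def ins (c : Ch P) (a : P) (h : ∀ x ∈ c.1, Cm a x) : Ch P :=
  mk' (insert a c.1) (insert_nonempty _ _) fun x hx y hy => by
    rcases mem_insert.1 hx with e | hx' <;> rcases mem_insert.1 hy with e' | hy'
    exacts [e ▸ e' ▸ Cm.rfl, e ▸ h _ hy', e' ▸ (h _ hx').symm, c.cm hx' hy']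

@[simp] theorem ins_val (c : Ch P) (a : P) (h : ∀ x ∈ c.1, Cm a x) :
    (c.ins a h).1 = insert a c.1 := rfl
@[simp] theorem sub_val (c : Ch P) (d : Finset P) (h : d.Nonempty) (h' : d ⊆ c.1) :
    (c.sub d h h').1 = d := rfl
theorem le_ins (c : Ch P) (a : P) (h : ∀ x ∈ c.1, Cm a x) : c ≤ c.ins a h := subset_insert _ _
theorem sub_le (c : Ch P) (d : Finset P) (h : d.Nonempty) (h' : d ⊆ c.1) : c.sub d h h' ≤ c := h'
theorem pt_le {c : Ch P} {x : P} : pt x ≤ c ↔ x ∈ c.1 := singleton_subset_iff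

/-- the chain of a pair -/
def pr (x y : P) (h : x ≤ y) : Ch P := (pt y).ins x fun _ hw => Or.inl (mem_singleton.1 hw ▸ h)

@[simp] theorem pr_val (x y : P) (h : x ≤ y) : (pr x y h).1 = {x, y} := rfl
@[simp] theorem top_pr (x y : P) (h : x ≤ y) : (pr x y h).top = y :=
  top_eq (by simp) (by simp [h])
@[simp] theorem bot_pr (x y : P) (h : x ≤ y) : (pr x y h).bot = x :=
  bot_eq (by simp) (by simp [h])

/-- image under a monotone map -/
def img (f : Q → P) (hf : Monotone f) (d : Ch Q) : Ch P :=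
  mk' (d.1.image f) (d.2.1.image f) fun x hx y hy => by
    obtain ⟨a, ha, rfl⟩ := mem_image.1 hx
    obtain ⟨b, hb, rfl⟩ := mem_image.1 hy
    exact (d.cm ha hb).map hf

theorem mem_img {f : Q → P} {hf : Monotone f} {d : Ch Q} {x : P} :
    x ∈ (img f hf d).1 ↔ ∃ a ∈ d.1, f a = x := mem_image

theorem top_img {f : Q → P} (hf : Monotone f) (d : Ch Q) : (img f hf d).top = f d.top :=
  top_eq (mem_img.2 ⟨_, d.top_mem, rfl⟩) fun _ hx =>
    let ⟨_, ha, e⟩ := mem_img.1 hx; e ▸ hf (le_top ha)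

theorem bot_img {f : Q → P} (hf : Monotone f) (d : Ch Q) : (img f hf d).bot = f d.bot :=
  bot_eq (mem_img.2 ⟨_, d.bot_mem, rfl⟩) fun _ hx =>
    let ⟨_, ha, e⟩ := mem_img.1 hx; e ▸ hf (bot_le ha)

theorem img_mono {f : Q → P} (hf : Monotone f) : Monotone (img f hf) :=
  fun _ _ h => image_subset_image h

theorem card_pos (c : Ch P) : 0 < c.1.card := c.2.1.card_pos
theorem card_lt {c d : Ch P} (h : c < d) : c.1.card < d.1.card :=
  card_lt_card (Finset.ssubset_iff_subset_ne.2 ⟨h.le, fun e => h.ne (ext e)⟩)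
theorem sg_pt (x : P) : (pt x).sg = -1 := by simp [sg]
theorem sg_sq (c : Ch P) : c.sg * c.sg = 1 := by
  rw [sg, ← pow_add, ← two_mul, pow_mul]; simp
theorem sg_ins (c : Ch P) {a : P} (h : ∀ x ∈ c.1, Cm a x) (ha : a ∉ c.1) :
    (c.ins a h).sg = -c.sg := by
  simp [sg, card_insert_of_notMem ha, pow_succ]

end Ch

theorem mt_pt {x : P} : Mt A (Ch.pt x) ↔ x ∈ A := by simp [Mt]

theorem mt_img {f : Q → P} (hf : Monotone f) {d : Ch Q} : Mt A (Ch.img f hf d) ↔ Mt (f ⁻¹' A) d :=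
  ⟨fun ⟨_, hx, h⟩ => let ⟨a, ha, e⟩ := Ch.mem_img.1 hx; ⟨a, ha, by rwa [Set.mem_preimage, e]⟩,
    fun ⟨a, ha, h⟩ => ⟨f a, Ch.mem_img.2 ⟨a, ha, rfl⟩, h⟩⟩

theorem Dom.img {f : Q → P} (hf : Monotone f) {d : Ch Q} (h : Dom (f ⁻¹' A) d) :
    Dom A (Ch.img f hf d) :=
  let ⟨a, ha, h⟩ := h
  ⟨f a, ha, fun _ hx => let ⟨b, hb, e⟩ := Ch.mem_img.1 hx; e ▸ (h b hb).map hf⟩

theorem dom_iff {c : Ch P} : Dom A c ↔ ∃ d, c ≤ d ∧ Mt A d :=
  ⟨fun ⟨a, ha, h⟩ => ⟨c.ins a h, c.le_ins a h, a, mem_insert_self _ _, ha⟩,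
    fun ⟨_, h, hd⟩ => hd.dom.mono h⟩

theorem Dp.le {x y : P} (h : Dp A x y) : x ≤ y := h.1
theorem Dp.of_left {x y : P} (hx : x ∈ A) (h : x ≤ y) : Dp A x y := ⟨h, x, hx, Cm.rfl, Or.inl h⟩
theorem Dp.of_right {x y : P} (hy : y ∈ A) (h : x ≤ y) : Dp A x y := ⟨h, y, hy, Or.inr h, Cm.rfl⟩
theorem Dp.mono {B : Set P} (hB : A ⊆ B) {x y : P} (h : Dp A x y) : Dp B x y :=
  let ⟨h, a, ha, h'⟩ := h; ⟨h, a, hB ha, h'⟩
theorem Dp.map {f : Q → P} (hf : Monotone f) {x y : Q} (h : Dp (f ⁻¹' A) x y) :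
    Dp A (f x) (f y) :=
  let ⟨h, a, ha, h1, h2⟩ := h; ⟨hf h, f a, ha, h1.map hf, h2.map hf⟩
theorem dom_pr {x y : P} (h : x ≤ y) : Dom A (Ch.pr x y h) ↔ Dp A x y := by
  simp [Dom, Dp, h]
theorem Dom.bt {c : Ch P} (h : Dom A c) : Dp A c.bot c.top := h.dp c.bot_mem c.top_mem c.bot_le_top
theorem Mt.bt {c : Ch P} (h : Mt A c) : Dp A c.bot c.top := h.dom.bt

/-! ### cocycles -/

variable {z z' w : P → P → G}

theorem EqD.rfl : EqD A z z := fun _ _ _ => Eq.refl _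
theorem EqD.symm (h : EqD A z z') : EqD A z' z := fun x y hp => (h x y hp).symm
theorem EqD.trans (h : EqD A z z') (h' : EqD A z' w) : EqD A z w :=
  fun x y hp => (h x y hp).trans (h' x y hp)
theorem EqD.mono {B : Set P} (h : EqD B z z') (hB : A ⊆ B) : EqD A z z' :=
  fun x y hp => h x y (hp.mono hB)
theorem EqD.add {u u' : P → P → G} (h : EqD A z z') (h' : EqD A u u') : EqD A (z + u) (z' + u') :=
  fun x y hp => by simp only [Pi.add_apply, h x y hp, h' x y hp]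
theorem EqD.pb {f : Q → P} (hf : Monotone f) (h : EqD A z z') : EqD (f ⁻¹' A) (pb f z) (pb f z') :=
  fun _ _ hp => h _ _ (hp.map hf)

theorem Coc.self (h : Coc A z) {a x : P} (ha : a ∈ A) (hx : Cm a x) : z x x = 0 := by
  have := h a ha x x x le_rfl le_rfl hx hx hx
  simpa using this
theorem Coc.mono {B : Set P} (h : Coc B z) (hB : A ⊆ B) : Coc A z := fun a ha => h a (hB ha)
theorem Coc.congr (h : Coc A z) (e : EqD A z' z) : Coc A z' := fun a ha x y u h1 h2 c1 c2 c3 => by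
  rw [e x u ⟨h1.trans h2, a, ha, c1, c3⟩, e x y ⟨h1, a, ha, c1, c2⟩, e y u ⟨h2, a, ha, c2, c3⟩]
  exact h a ha x y u h1 h2 c1 c2 c3
theorem coc_cb (g : P → G) : Coc A (cb g) := fun _ _ _ _ _ _ _ _ _ _ => by simp [cb]
theorem coc_zero : Coc A (0 : P → P → G) := fun _ _ _ _ _ _ _ _ _ _ => by simp
theorem Coc.add (h : Coc A z) (h' : Coc A z') : Coc A (z + z') :=
  fun a ha x y u h1 h2 c1 c2 c3 => by
    simp only [Pi.add_apply, h a ha x y u h1 h2 c1 c2 c3, h' a ha x y u h1 h2 c1 c2 c3]; abel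
theorem Coc.neg (h : Coc A z) : Coc A (-z) := fun a ha x y u h1 h2 c1 c2 c3 => by
  simp only [Pi.neg_apply, h a ha x y u h1 h2 c1 c2 c3]; abel
theorem Coc.sub (h : Coc A z) (h' : Coc A z') : Coc A (z - z') := by
  rw [sub_eq_add_neg]; exact h.add h'.neg
theorem Coc.zsmul (h : Coc A z) (k : ℤ) : Coc A (k • z) := fun a ha x y u h1 h2 c1 c2 c3 => by
  simp only [Pi.smul_apply, h a ha x y u h1 h2 c1 c2 c3, smul_add]
theorem Coc.sum {ι : Type} (s : Finset ι) {u : ι → P → P → G} (h : ∀ i ∈ s, Coc A (u i)) :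
    Coc A (∑ i ∈ s, u i) := sum_induction u (Coc A) (fun _ _ => Coc.add) coc_zero h
theorem Coc.pb {f : Q → P} (hf : Monotone f) (h : Coc A z) : Coc (f ⁻¹' A) (pb f z) :=
  fun a ha _ _ _ h1 h2 c1 c2 c3 =>
    h (f a) ha _ _ _ (hf h1) (hf h2) (c1.map hf) (c2.map hf) (c3.map hf)

theorem cb_add (g g' : P → G) : cb (g + g') = cb g + cb g' := by
  funext x y; simp only [cb, Pi.add_apply]; abel
theorem cb_neg (g : P → G) : cb (-g) = -cb g := by
  funext x y; simp only [cb, Pi.neg_apply]; abel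
theorem cb_sub (g g' : P → G) : cb (g - g') = cb g - cb g' := by
  funext x y; simp only [cb, Pi.sub_apply]; abel
theorem cb_zero : cb (0 : P → G) = 0 := by funext x y; simp [cb]
theorem pb_cb (f : Q → P) (g : P → G) : pb f (cb g) = cb (g ∘ f) := rfl
theorem pb_add (f : Q → P) : pb f (z + z') = pb f z + pb f z' := rfl
theorem pb_comp {R : Type} (f : Q → P) (g : R → Q) : pb (f ∘ g) z = pb g (pb f z) := rfl
theorem pb_id : pb id z = z := rfl

theorem Eqv.of_eqD (h : EqD A z z') : Eqv A z z' :=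
  ⟨0, fun _ _ => rfl, by rw [cb_zero, add_zero]; exact h.symm⟩
theorem Eqv.rfl : Eqv A z z := Eqv.of_eqD EqD.rfl
theorem Eqv.symm (h : Eqv A z z') : Eqv A z' z := by
  obtain ⟨g, h0, h⟩ := h
  refine ⟨-g, fun x hx => by simp [h0 x hx], fun x y hp => ?_⟩
  simp only [Pi.add_apply, h x y hp, cb, Pi.neg_apply]; abel
theorem Eqv.trans (h : Eqv A z z') (h' : Eqv A z' w) : Eqv A z w := by
  obtain ⟨g, h0, h⟩ := h
  obtain ⟨g', h0', h'⟩ := h'
  refine ⟨g + g', fun x hx => by simp [h0 x hx, h0' x hx], fun x y hp => ?_⟩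
  simp only [Pi.add_apply, h x y hp, h' x y hp, cb]; abel
theorem Eqv.add {u u' : P → P → G} (h : Eqv A z z') (h' : Eqv A u u') :
    Eqv A (z + u) (z' + u') := by
  obtain ⟨g, h0, h⟩ := h
  obtain ⟨g', h0', h'⟩ := h'
  refine ⟨g + g', fun x hx => by simp [h0 x hx, h0' x hx], fun x y hp => ?_⟩
  simp only [Pi.add_apply, h x y hp, h' x y hp, cb]; abel
theorem eqv_add_cb {g : P → G} (h : ∀ x, x ∉ A → g x = 0) : Eqv A z (z + cb g) := ⟨g, h, EqD.rfl⟩
theorem Eqv.pb {f : Q → P} (hf : Monotone f) (h : Eqv A z z') :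
    Eqv (f ⁻¹' A) (pb f z) (pb f z') :=
  let ⟨g, h0, h⟩ := h; ⟨g ∘ f, fun x hx => h0 (f x) hx, h.pb hf⟩
theorem Eqv.coc (h : Eqv A z z') (hz : Coc A z) : Coc A z' :=
  let ⟨g, _, h⟩ := h; (hz.add (coc_cb g)).congr h
theorem Eqv.off (h : Eqv A z z') {x y : P} (hp : Dp A x y) (hx : x ∉ A) (hy : y ∉ A) :
    z x y = z' x y := by
  obtain ⟨g, h0, h⟩ := h
  simp [h x y hp, cb, h0 x hx, h0 y hy]
/-- with `Bnd`, the class is determined by the boundary data -/
theorem Bnd.eqv (hb : Bnd G A) (hz : Coc A z) (hz' : Coc A z')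
    (h : ∀ x y, Dp A x y → x ∉ A → y ∉ A → z x y = z' x y) : Eqv A z z' := by
  have := (hb (z' - z) (hz'.sub hz) fun x y hp hx hy => by simp [h x y hp hx hy]).add
    (Eqv.rfl (z := z))
  rwa [zero_add, sub_add_cancel] at this

theorem Coc.rev (h : Coc A z) : Coc (Ch.top ⁻¹' A) (rev z) := by
  intro c hc x y u h1 h2 c1 c2 c3
  have k : ∀ {e : Ch P}, Cm c e → Cm c.top e.bot := fun {e} he =>
    he.elim (fun h => e.cm (h c.top_mem) e.bot_mem) fun h => c.cm c.top_mem (h e.bot_mem)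
  rw [Hp13.rev, Hp13.rev, Hp13.rev, add_comm]
  exact h _ hc _ _ _ (Ch.bot_anti h2) (Ch.bot_anti h1) (k c3) (k c2) (k c1)

/-- all points of a chain in the star of `top ⁻¹' A` are comparable with one point of `A` -/
theorem Dp.dom_top {c d : Ch P} (h : Dp (Ch.top ⁻¹' A) c d) : Dom A d := by
  obtain ⟨-, e, he, -, h2⟩ := h
  exact ⟨e.top, he, fun x hx =>
    h2.elim (fun h => d.cm (h e.top_mem) hx) fun h => e.cm e.top_mem (h hx)⟩

section mono
variable {u u' : P → P → ℤ}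

theorem Mono.congr (h : Mono A u) (e : EqD A u' u) : Mono A u' :=
  fun x y hp => e x y hp ▸ h x y hp
theorem Mono.mono {B : Set P} (h : Mono B u) (hB : A ⊆ B) : Mono A u :=
  fun x y hp => h x y (hp.mono hB)
theorem Mono.add (h : Mono A u) (h' : Mono A u') : Mono A (u + u') :=
  fun x y hp => add_nonneg (h x y hp) (h' x y hp)
theorem mono_zero : Mono A (0 : P → P → ℤ) := fun _ _ _ => le_rfl
theorem Mono.smul (h : Mono A u) {k : ℤ} (hk : 0 ≤ k) : Mono A (k • u) :=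
  fun x y hp => mul_nonneg hk (h x y hp)
theorem Mono.sum {ι : Type} (s : Finset ι) {v : ι → P → P → ℤ} (h : ∀ i ∈ s, Mono A (v i)) :
    Mono A (∑ i ∈ s, v i) := sum_induction v (Mono A) (fun _ _ => Mono.add) mono_zero h
theorem Mono.pb {f : Q → P} (hf : Monotone f) (h : Mono A u) : Mono (f ⁻¹' A) (pb f u) :=
  fun _ _ hp => h _ _ (hp.map hf)
theorem Mono.rev (h : Mono A u) : Mono (Ch.top ⁻¹' A) (rev u) := fun c d hp =>
  h _ _ (hp.dom_top.dp d.bot_mem (hp.1 c.bot_mem) (Ch.bot_anti hp.1))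
theorem mono_cb {g : P → ℤ} (h : ∀ x y, Dp A x y → g x ≤ g y) : Mono A (cb g) :=
  fun x y hp => sub_nonneg.2 (h x y hp)
theorem mono_ind {U : Set P} (h : ∀ x y, Dp A x y → x ∈ U → y ∈ U) : Mono A (cb (ind U)) :=
  mono_cb fun x y hp => by
    unfold ind
    by_cases hx : x ∈ U
    · rw [if_pos hx, if_pos (h x y hp hx)]
    · rw [if_neg hx]; split_ifs <;> norm_num

/-- inside a chain of the star the values are bounded by the range -/
theorem Mono.le_range (h : Mono A u) (hc : Coc A u) {c : Ch P} (hd : Dom A c) {x y : P}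
    (hx : x ∈ c.1) (hy : y ∈ c.1) (hxy : x ≤ y) : u x y ≤ u c.bot c.top := by
  rw [hc.add' hd c.bot_mem hx c.top_mem (Ch.bot_le hx) (Ch.le_top hx),
    hc.add' hd hx hy c.top_mem hxy (Ch.le_top hy)]
  have := h _ _ (hd.dp c.bot_mem hx (Ch.bot_le hx))
  have := h _ _ (hd.dp hy c.top_mem (Ch.le_top hy))
  omega

end mono

theorem ind_of_mem {E : Set P} {x : P} (h : x ∈ E) : ind E x = 1 := if_pos h
theorem ind_of_not {E : Set P} {x : P} (h : x ∉ E) : ind E x = 0 := if_neg h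
theorem ind_comp (E : Set P) (f : Q → P) : ind E ∘ f = ind (f ⁻¹' E) := rfl

theorem coc_Rm : Coc A (Rm A) := coc_cb _
theorem coc_Rp : Coc A (Rp A) := coc_cb _
theorem mono_Rm : Mono A (Rm A) :=
  mono_ind fun _ _ hp ⟨a, ha, h⟩ => ⟨a, ha, h.trans hp.1⟩
theorem mono_Rp (hA : A.OrdConnected) : Mono A (Rp A) :=
  mono_ind fun _ _ hp ⟨hx, a, ha, h⟩ =>
    ⟨fun hy => hx (hA.out ha hy ⟨h, hp.1⟩), a, ha, h.trans hp.1⟩
theorem Rm_eq : Rm A = Rp A + cb (ind A) := by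
  rw [Rm, Rp, ← cb_add]
  congr 1
  funext x
  by_cases hx : x ∈ A
  · simp only [ind, Pi.add_apply, Set.mem_setOf_eq, hx, not_true, false_and, if_false, if_true,
      zero_add]
    exact if_pos ⟨x, hx, le_rfl⟩
  · simp [ind, hx]
theorem eqv_Rp_Rm : Eqv A (Rp A) (Rm A) := Rm_eq (A := A) ▸ eqv_add_cb fun _ => ind_of_not
instance : IsCoc A (Rm A) := ⟨coc_Rm⟩
instance : IsCoc A (Rp A) := ⟨coc_Rp⟩

theorem convex_pre {f : Q → P} (hf : Monotone f) (hA : A.OrdConnected) : (f ⁻¹' A).OrdConnected :=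
  hA.preimage_mono hf

/-- a point comparable with a point of a convex `A` is in `A`, above `A` or below `A`;
`up_iff` decides it -/
theorem up_iff (hA : A.OrdConnected) {a x : P} (ha : a ∈ A) (h : Cm a x) :
    (∃ b ∈ A, b ≤ x) ↔ x ∈ A ∨ a ≤ x :=
  ⟨fun ⟨_, hb, hx⟩ => h.elim Or.inr fun h => Or.inl (hA.out hb ha ⟨hx, h⟩),
    fun h => h.elim (fun h => ⟨x, h, le_rfl⟩) fun h => ⟨a, ha, h⟩⟩

theorem Rm_pb {f : Q → P} (hf : Monotone f) (hA : A.OrdConnected) :
    EqD (f ⁻¹' A) (pb f (Rm A)) (Rm (f ⁻¹' A)) := by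
  have k : ∀ a ∈ f ⁻¹' A, ∀ x, Cm a x →
      ind {x | ∃ a ∈ A, a ≤ x} (f x) = ind {x | ∃ a ∈ f ⁻¹' A, a ≤ x} x := fun a ha x h => by
    have : (∃ b ∈ A, b ≤ f x) ↔ ∃ b ∈ f ⁻¹' A, b ≤ x := by
      rw [up_iff hA ha (h.map hf), up_iff (convex_pre hf hA) ha h]
      refine ⟨fun h' => h'.elim Or.inl fun h' => h.elim Or.inr fun h => Or.inl ?_,
        fun h' => h'.imp id fun h => hf h⟩
      show f x ∈ A
      rwa [le_antisymm (hf h) h']
    simp only [ind, Set.mem_setOf_eq, this]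
  rintro x y ⟨-, a, ha, h1, h2⟩
  simp only [pb, Rm, cb, k a ha x h1, k a ha y h2]

theorem Rp_pb {f : Q → P} (hf : Monotone f) (hA : A.OrdConnected) :
    EqD (f ⁻¹' A) (pb f (Rp A)) (Rp (f ⁻¹' A)) := fun x y hp => by
  have := Rm_pb hf hA x y hp
  rw [Rm_eq, Rm_eq] at this
  exact add_right_cancel this

/-! ### components -/

variable {E : Set P} {x y t : P}

theorem Rch.rfl : Rch E x x := Relation.ReflTransGen.refl
theorem Rch.trans (h : Rch E x y) (h' : Rch E y t) : Rch E x t := Relation.ReflTransGen.trans h h'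
theorem Rch.of_cm (hx : x ∈ E) (hy : y ∈ E) (h : Cm x y) : Rch E x y :=
  Relation.ReflTransGen.single ⟨hx, hy, h⟩
theorem Rch.symm (h : Rch E x y) : Rch E y x := by
  induction h with
  | refl => exact Rch.rfl
  | tail _ h2 ih => exact (Rch.of_cm h2.2.1 h2.1 h2.2.2.symm).trans ih
theorem Rch.mono {F : Set P} (hF : E ⊆ F) (h : Rch E x y) : Rch F x y := by
  induction h with
  | refl => exact Rch.rfl
  | tail _ h2 ih => exact ih.trans (Rch.of_cm (hF h2.1) (hF h2.2.1) h2.2.2)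
theorem Rch.mem (h : Rch E x y) (hx : x ∈ E) : y ∈ E := by
  induction h with
  | refl => exact hx
  | tail _ h2 _ => exact h2.2.1
theorem Rch.ind (h : Rch E x y) {p : P → Prop} (hx : p x)
    (hp : ∀ a ∈ E, ∀ b ∈ E, a ≤ b → (p a ↔ p b)) : p y := by
  induction h with
  | refl => exact hx
  | tail _ h2 ih =>
    exact h2.2.2.elim (fun h => (hp _ h2.1 _ h2.2.1 h).1 ih) fun h => (hp _ h2.2.1 _ h2.1 h).2 ih
theorem Rch.eq {γ : Type*} (h : Rch E x y) {g : P → γ}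
    (hg : ∀ a ∈ E, ∀ b ∈ E, a ≤ b → g a = g b) : g x = g y :=
  h.ind (p := fun t => g x = g t) (Eq.refl _) fun a ha b hb hab => by rw [hg a ha b hb hab]
theorem Rch.map {F : Set Q} {f : P → Q}
    (hf : ∀ x ∈ E, ∀ y ∈ E, x ≤ y → Rch F (f x) (f y)) (h : Rch E x y) : Rch F (f x) (f y) :=
  h.ind (p := fun t => Rch F (f x) (f t)) Rch.rfl fun a ha b hb hab =>
    ⟨fun h => h.trans (hf a ha b hb hab), fun h => h.trans (hf a ha b hb hab).symm⟩
theorem conn_cone {m : P} (hm : m ∈ E) (h : ∀ x ∈ E, Cm x m) : Conn E :=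
  fun x hx y hy => (Rch.of_cm hx hm (h x hx)).trans (Rch.of_cm hm hy (h y hy).symm)
theorem mem_cmp_self (hx : x ∈ E) : x ∈ cmp E x := ⟨hx, Rch.rfl⟩
theorem cmp_sub : cmp E x ⊆ E := fun _ h => h.1
theorem cmp_eq (h : Rch E x y) : cmp E x = cmp E y :=
  Set.ext fun _ => ⟨fun a => ⟨a.1, h.symm.trans a.2⟩, fun a => ⟨a.1, h.trans a.2⟩⟩
theorem IsCmp.sub {C : Set P} (h : IsCmp E C) : C ⊆ E := let ⟨_, _, e⟩ := h; e ▸ cmp_sub
theorem IsCmp.ne {C : Set P} (h : IsCmp E C) : C.Nonempty :=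
  let ⟨x, hx, e⟩ := h; ⟨x, e ▸ mem_cmp_self hx⟩
theorem IsCmp.eq {C : Set P} (h : IsCmp E C) (hx : x ∈ C) : C = cmp E x := by
  obtain ⟨y, -, rfl⟩ := h
  exact cmp_eq hx.2
theorem IsCmp.clopen {C : Set P} (h : IsCmp E C) (hx : x ∈ C) (hy : y ∈ E) (hc : Cm x y) :
    y ∈ C := h.eq hx ▸ ⟨hy, Rch.of_cm (h.sub hx) hy hc⟩
theorem Rch.in_clopen {C : Set P} (hC : ∀ x ∈ C, ∀ y ∈ E, Cm x y → y ∈ C) (hx : x ∈ C)
    (h : Rch E x y) : Rch C x y := by
  have : y ∈ C ∧ Rch C x y := by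
    induction h with
    | refl => exact ⟨hx, Rch.rfl⟩
    | tail _ h2 ih =>
      have := hC _ ih.1 _ h2.2.1 h2.2.2
      exact ⟨this, ih.2.trans (Rch.of_cm ih.1 this h2.2.2)⟩
  exact this.2
theorem IsCmp.conn {C : Set P} (h : IsCmp E C) : Conn C := fun x hx y hy =>
  Rch.in_clopen (fun _ ha _ hb hc => h.clopen ha hb hc) hx (by rw [h.eq hx] at hy; exact hy.2)
theorem isCmp_cmp (hx : x ∈ E) : IsCmp E (cmp E x) := ⟨x, hx, rfl⟩

end basic

section fin

variable {P : Type} [PartialOrder P] [Fintype P] {A : Set P} {z z' : P → P → ℤ}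

theorem chi_congr (h : EqD A z z') : chi A z = chi A z' :=
  sum_congr rfl fun c hc => by rw [h _ _ (mem_filter.1 hc).2.bt]
theorem chi_add : chi A (z + z') = chi A z + chi A z' := by
  simp only [chi, Pi.add_apply, mul_add, sum_add_distrib]
theorem chi_neg : chi A (-z) = -chi A z := by simp [chi]
theorem chi_sub : chi A (z - z') = chi A z - chi A z' := by
  rw [sub_eq_add_neg, chi_add, chi_neg, sub_eq_add_neg]
theorem chi_zero : chi A (0 : P → P → ℤ) = 0 := by simp [chi]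
theorem chi_smul (k : ℤ) : chi A (k • z) = k * chi A z := by
  simp only [chi, Pi.smul_apply, smul_eq_mul, mul_sum]
  exact sum_congr rfl fun _ _ => by ring
theorem chi_sum {ι : Type} (s : Finset ι) (u : ι → P → P → ℤ) :
    chi A (∑ i ∈ s, u i) = ∑ i ∈ s, chi A (u i) := by
  induction s using Finset.induction_on with
  | empty => simp [chi_zero]
  | insert a s ha ih => rw [sum_insert ha, sum_insert ha, chi_add, ih]
theorem crs_congr (h : EqD A z z') : crs A z = crs A z' :=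
  sum_congr rfl fun c hc => by rw [h _ _ (mem_filter.1 hc).2.1.bt]
theorem crs_add : crs A (z + z') = crs A z + crs A z' := by
  simp only [crs, Pi.add_apply, mul_add, sum_add_distrib]
theorem Eqv.crs (h : Eqv A z z') : crs A z = crs A z' :=
  sum_congr (Eq.refl _) fun c hc => by
    obtain ⟨h1, h2, h3⟩ := (mem_filter.1 hc).2
    rw [h.off h1.bt h2 h3]
theorem Sf.coc (h : Sf A z) : Coc A z := let ⟨_, h, _⟩ := h; h.coc
theorem Sf.mono (h : Sf A z) : Mono A z := h.1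
theorem Sf.noCl (h : Sf A z) [IsCoc A z] : NoCl A z := let ⟨_, _, h⟩ := h; h

end fin

/-! ### descendants -/

namespace Desc

variable {s t u : St} {f : t.P → s.P} {g : u.P → t.P}

theorem mono (h : Desc s t f) : Monotone f := by
  induction h with
  | refl => exact monotone_id
  | step _ ih => exact ih.comp Ch.top_mono

theorem A_eq (h : Desc s t f) : t.A = f ⁻¹' s.A := by
  induction h with
  | refl => rfl
  | step _ ih => exact congrArg (fun B => Ch.top ⁻¹' B) ih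

theorem trans (h : Desc s t f) (h' : Desc t u g) : Desc s u (f ∘ g) := by
  induction h' with
  | refl => exact h
  | step _ ih => exact ih.step

theorem sd (s : St) : Desc s s.sd Ch.top := Desc.step Desc.refl

theorem surj (h : Desc s t f) : Function.Surjective f := by
  induction h with
  | refl => exact Function.surjective_id
  | step _ ih => exact ih.comp fun x => ⟨Ch.pt x, Ch.top_pt x⟩

/-- the same tower for another region -/
theorem «at» (h : Desc s t f) (B : Set s.P) : Desc (s.at B) (t.at (f ⁻¹' B)) f := by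
  induction h with
  | refl => exact Desc.refl
  | step _ ih => exact ih.step

/-- induction principle for hereditary properties of a state with data -/
theorem keep {X : St → Type*} (pull : ∀ s, X s → X s.sd) (p : ∀ s, X s → Prop)
    (hp : ∀ s x, p s x → p s.sd (pull s x)) (h : Desc s t f) {x : X s} (hx : p s x) :
    ∃ y : X t, p t y := by
  induction h with
  | refl => exact ⟨x, hx⟩
  | step _ ih => exact let ⟨y, hy⟩ := ih; ⟨_, hp _ y hy⟩

end Desc

/-- the tower -/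
def tw (s : St) : ℕ → (t : St) × (t.P → s.P)
  | 0 => ⟨s, id⟩
  | n + 1 => ⟨(tw s n).1.sd, (tw s n).2 ∘ Ch.top⟩

theorem desc_tw (s : St) : ∀ n, Desc s (tw s n).1 (tw s n).2
  | 0 => Desc.refl
  | n + 1 => (desc_tw s n).step

theorem Desc.eq_tw {s t : St} {f : t.P → s.P} (h : Desc s t f) : ∃ n, tw s n = ⟨t, f⟩ := by
  induction h with
  | refl => exact ⟨0, rfl⟩
  | step _ ih => exact let ⟨n, e⟩ := ih; ⟨n + 1, by rw [tw, e]⟩

theorem tw_le (s : St) (n : ℕ) : ∀ m, ∃ g, Desc (tw s n).1 (tw s (n + m)).1 g ∧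
    (tw s (n + m)).2 = (tw s n).2 ∘ g
  | 0 => ⟨id, Desc.refl, rfl⟩
  | m + 1 => let ⟨g, h, e⟩ := tw_le s n m
    ⟨g ∘ Ch.top, h.step, by show (tw s (n + m)).2 ∘ Ch.top = _; rw [e]; rfl⟩

/-- THE TOWER IS LINEAR: two descendants have a common descendant -/
theorem Desc.common {s t t' : St} {f : t.P → s.P} {f' : t'.P → s.P} (h : Desc s t f)
    (h' : Desc s t' f') : ∃ (u : St) (g : u.P → t.P) (g' : u.P → t'.P),
      Desc t u g ∧ Desc t' u g' ∧ f ∘ g = f' ∘ g' := by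
  obtain ⟨n, e⟩ := h.eq_tw
  obtain ⟨n', e'⟩ := h'.eq_tw
  have k : ∀ {a b : St} {p : a.P → s.P} {q : b.P → s.P} {n m : ℕ}, tw s n = ⟨a, p⟩ →
      tw s (n + m) = ⟨b, q⟩ → ∃ g, Desc a b g ∧ q = p ∘ g := fun {a b p q n m} e1 e2 => by
    have := tw_le s n m
    rw [e1, e2] at this
    exact this
  rcases le_total n n' with hn | hn
  · obtain ⟨m, rfl⟩ := Nat.exists_eq_add_of_le hn
    obtain ⟨g, hg, e⟩ := k e e'
    exact ⟨t', g, id, hg, Desc.refl, e.symm⟩
  · obtain ⟨m, rfl⟩ := Nat.exists_eq_add_of_le hn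
    obtain ⟨g, hg, e⟩ := k e' e
    exact ⟨t, id, g, Desc.refl, hg, e⟩

end Crest.Agent.X212.Hp13
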