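import Crest.Agent.X212.Es42.Nb
import Crest.Agent.X212.Cyc79.Ed
import Crest.Agent.X212.Cyl58.PsC
import Crest.Agent.X212.Dr9.Main
import Crest.Agent.X212.Mp86.Wd

/-!
# X212 / Hp13 (helper13): ES-CRIT, tools
-/

set_option autoImplicit false
set_option linter.unusedSectionVars false
noncomputable section
open scoped Manifold ContDiff Topology InnerProductSpace
open MeasureTheory Set Function Filter

namespace Crest.Agent.X212.Hp13.Cr
open An Cyf70 Sw Sw.En3 End23 Sob92 Es42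
open Dl42 (Ay ay_of)
open Cyl58 (hcs)

variable {κ lam ν : Type} [Fintype κ] [Fintype lam] [Fintype ν] [DecidableEq ν] {e : En3 κ lam ν}
  {v v' v'' : e.YC} {θ : (lf e).YC}

theorem gap {F : Set ℝ} (h : F.Finite) :
    ∀ᶠ η in 𝓝[>] (0 : ℝ), ∀ a ∈ F, ∀ b ∈ F, |a - b| ≤ 2 * η → a = b := by
  simp only [eventually_all_finite h]
  intro a _ b _
  rcases eq_or_ne a b with k | k
  · exact .of_forall fun _ _ => k
  · filter_upwards [Ioo_mem_nhdsGT (half_pos (abs_pos.2 (sub_ne_zero.2 k)))] with η h1 h2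
    linarith [h1.2]

theorem unif (c : ℝ) {ε : ℝ} (hε : 0 < ε) : ∀ᶠ η in 𝓝[>] (0 : ℝ), ∀ r s : ℝ, |r - s| ≤ η →
    |c * prf (r ^ 2) - c * prf (s ^ 2)| ≤ ε := by
  have := cd_prf.continuous
  obtain ⟨δ, hδ, h⟩ := Metric.uniformContinuous_iff_le.1 ((HasCompactSupport.intro
    (isCompact_Icc (a := -1) (b := 1)) (f := fun r : ℝ => c * prf (r ^ 2)) fun r hr => by
      rw [prf_one (by by_contra! k; exact hr (abs_le.1 ((sq_lt_one_iff_abs_lt_one r).1 k).le)),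
        mul_zero]).uniformContinuous_of_continuous (by fun_prop)) ε hε
  filter_upwards [Ioc_mem_nhdsGT hδ] with η h1 r s h2 using h (h2.trans h1.2)

theorem nm_eq (v : e.YC) : nm v = e.D.F.nrm 0 v.Φ ^ 2 := by rw [nrm_sq]; rfl

theorem nm_pos (hv : Ay v) (h : ∃ y, v.Φ y ≠ 0) : 0 < nm v := by
  obtain ⟨y, h⟩ := h
  rw [Cyl58.nm_H hv.adm]
  exact pow_pos (norm_pos_iff.2 fun k => h (congrArg (·.1 y) (Ell97.toH_inj _ 0 _
    (k.trans (map_zero _).symm)))) 2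

theorem nm_zero (h : ∀ y, v.Φ y = 0) : nm v = 0 := by simp [nm, h]

theorem d0 (k : ℕ) (v v' : e.YC) : e.D.F.nrm k (v.Φ - v'.Φ) ≤ dist k v v' :=
  le_add_of_nonneg_left (Finset.sum_nonneg fun _ _ => nrm_nonneg _ _)

theorem nrm_le (k : ℕ) {f g : e.Y.M → Eu ν} (hf : Sm e.Y.I f) (hg : Sm e.Y.I g) :
    e.D.F.nrm k f ≤ e.D.F.nrm k g + e.D.F.nrm k (f - g) := by
  simpa using nrm_add_le (F := e.D.F.toPre) (v := f - g) k hg hcs (hf.sub hg) hcs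

theorem nrm_abs {f g : e.Y.M → Eu ν} (hf : Sm e.Y.I f) (hg : Sm e.Y.I g) :
    |e.D.F.nrm 0 f - e.D.F.nrm 0 g| ≤ e.D.F.nrm 0 (f - g) := by
  have := nrm_const_smul (F := e.D.F.toPre) (u := f - g) 0 (-1) (hf.sub hg)
  rw [neg_one_smul, neg_sub, abs_neg, abs_one, one_mul] at this
  exact abs_sub_le_iff.2 ⟨by linarith [nrm_le 0 hf hg], by linarith [nrm_le 0 hg hf]⟩

/-- the point of a level with given true variables -/
def ut (θ : (lf e).YC) : e.YC := ⟨θ.a, fun y => (dl e)⁻¹ • θ.Φ y⟩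

theorem tv_ut (hw : 0 < e.w) (θ : (lf e).YC) : tv (ut θ) = θ := by
  simp only [tv, ut, smul_inv_smul₀ (dl_ne hw)]

theorem ay_ut (h : Ay θ) : Ay (ut θ) := ⟨h.sa, fun y => Wz78.SA.smul contMDiffAt_const (h.sΦ y), h.pa,
  fun y => (map_smul _ _ _).trans (congrArg ((dl e)⁻¹ • ·) (h.pΦ y))⟩

theorem nm_tv (hw : 0 < e.w) (v : e.YC) : nm (tv v) = e.w / 2 * nm v := by
  simp only [nm, tv, norm_smul, mul_pow, Real.norm_eq_abs, sq_abs, integral_const_mul]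
  rw [sq, dl_sq hw.le]

theorem eqv_tv (hw : 0 < e.w) : Eqv (tv v) (tv v') ↔ Eqv v v' :=
  exists_congr fun g => and_congr_right fun hg => by
    rw [Cyc79.act_iff (e := lf e) hg.1, Cyc79.act_iff (e := e) hg.1]
    exact and_congr_right' (forall_congr' fun y => (iff_of_eq (congrArg (dl e • v'.Φ y = ·) (map_smul
      (Pb50.cB e.m.J (g y)) (dl e) (v.Φ y)))).trans (smul_right_injective _ (dl_ne hw)).eq_iff)

theorem eqv_ut (hw : 0 < e.w) : Eqv (ut θ) v ↔ Eqv θ (tv v) := by rw [← eqv_tv hw, tv_ut hw]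

theorem eqv_ut₂ (hw : 0 < e.w) {θ' : (lf e).YC} (h : Eqv (ut θ) (ut θ')) : Eqv θ θ' :=
  tv_ut hw θ' ▸ (eqv_ut hw).1 h

theorem nm_ut (hw : 0 < e.w) (h : e.w ≤ nm θ) : 2 ≤ nm (ut θ) := by
  rw [← tv_ut hw θ, nm_tv hw] at h
  nlinarith

theorem spec_tv (v : e.YC) : spec (tv v) = spec v := Set.ext fun _ => exists_congr fun _ =>
  and_congr_right' (and_congr_left' ⟨fun h => ⟨h.1, h.2, h.3, h.4⟩, fun h => ⟨h.1, h.2, h.3, h.4⟩⟩)

variable (he : e.OK)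
include he

theorem eqv_trans (h : Eqv v v') (h' : Eqv v' v'') : Eqv v v'' := by
  obtain ⟨g, hg, h⟩ := h
  obtain ⟨g', hg', h'⟩ := h'
  exact ⟨_, Dec47.gau_mul hg' hg, by
    rw [h', h, Pb50.act_act he.cyl (Pb50.gau_fst hg) (Pb50.gau_fst hg')]⟩

theorem crit0 (hw : 0 < e.w) (A : Ay v) (h : ∀ y, v.Φ y = 0) : Crit v ↔ Crit (tv v) := by
  simp only [Crit, A.adm, (ay_tv A).adm, gr_tv_a he A, gr_tv_Φ he A, h, smul_zero, add_zero,
    smul_eq_zero, dl_ne hw, false_or]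

theorem ndF_tv (A : Ay v) (h : NdF (tv v)) : NdF v := fun a ha k =>
  h a ⟨ha.1, ha.2, ha.3, ha.4⟩ fun i y => by
    have := fun_tv he A (ay_of ha) i y ▸ k i y
    simpa only [tv, Pi.zero_apply, smul_zero, ← Pi.zero_def] using this

theorem mu_tv (hw : 0 < e.w) (A : Ay v) (h : 1 < nm v) : mu v = mu (e := lf e) (tv v) := by
  rw [mu, aH_tv he hw A.adm h]
  rfl

theorem L_tv_le (A : Ay v) {B : ℝ} (hB : ∀ r, e.b r ≤ B) : |L v - L (tv v)| ≤ e.w / 2 * B := by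
  have : 0 ≤ e.w / 2 := div_nonneg he.cyl.w zero_le_two
  rw [L_tv he A, sub_add_cancel_left, abs_neg, abs_mul, abs_of_nonneg this]
  exact mul_le_mul_of_nonneg_left (abs_Bi he hB (integral_nonneg fun _ => sq_nonneg _)) this

theorem crit_ut (hw : 0 < e.w) (h : Crit θ) (k : 1 ≤ nm (ut θ) ∨ θ.Φ = 0) : Crit (ut θ) := by
  have A := ay_ut (ay_of h.1)
  rw [← tv_ut hw θ] at h
  exact k.elim (fun k => (crit_tv he hw A.adm k).1.2 h) fun k =>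
    (crit0 he hw A fun y => by simp [ut, k]).2 h

theorem nd_ut (hw : 0 < e.w) (A : Ay θ) (h : Nd θ) (k : 1 < nm (ut θ)) :
    Nd (ut θ) ∧ mu (ut θ) = mu (e := lf e) θ :=
  ⟨nd_tv he hw (ay_ut A).adm k (by rwa [tv_ut hw]), by rw [mu_tv he hw (ay_ut A) k, tv_ut hw]⟩

theorem nd_red (hB : BijStmt κ lam ν) (hw : 0 < e.w) (h : Red θ) (hn : Nd θ) (k : e.b 0 ∉ spec θ) :
    Nd (ut θ) := (hB.red e he hw _ ⟨crit_ut he hw h.1 (.inr h.2), funext fun y => by simp [ut, h.2]⟩).2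
  ⟨ndF_tv he (ay_ut (ay_of h.1.1)) (by
    rw [tv_ut hw]; exact ((hB.red _ (ok_lf he) two_pos _ h).1 hn).1), by rwa [← spec_tv, tv_ut hw]⟩

theorem L_ut (hw : 0 < e.w) (A : Ay θ) {B : ℝ} (hB : ∀ r, e.b r ≤ B) :
    |L (ut θ) - L θ| ≤ e.w / 2 * B := by
  simpa only [tv_ut hw] using L_tv_le he (ay_ut A) hB

/-- the functional is continuous -/
theorem L_cont (hv : Ay v) {ε : ℝ} (hε : 0 < ε) :
    ∀ᶠ δ in 𝓝[>] (0 : ℝ), ∀ v' : e.YC, Ay v' → dist 1 v' v ≤ δ → |L v' - L v| ≤ ε := by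
  obtain ⟨δ, hδ, h⟩ := Metric.continuous_iff.1 (Cyl58.cont_LH he) (Cyl58.zH hv.adm) ε hε
  filter_upwards [Ioo_mem_nhdsGT hδ] with η h1 v' hv' h2
  rw [Cyl58.L_zH he hv.adm, Cyl58.L_zH he hv'.adm]
  refine (h _ (lt_of_le_of_lt ?_ (h2.trans_lt h1.2))).le
  classical
  rw [Prod.dist_eq]
  simp only [dist_eq_norm, Cyl58.zH, ← map_sub, Pre.norm_toH]
  refine max_le (le_add_of_le_of_nonneg ?_ (nrm_nonneg _ _)) (d0 1 v' v)
  let s : κ → ℝ →L[ℝ] Fm κ ℝ := fun k => .toSpanSingleton ℝ (EuclideanSpace.single k 1)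
  have m := fun k => (hv'.sa k).sub (hv.sa k)
  refine (le_of_eq (congrArg _ (funext fun y => ?_))).trans ((nrm_sum_le Finset.univ 1
    (u := fun k y => s k ((v'.a k - v.a k) y)) (fun k _ => (s k).contMDiff.comp (m k))
      fun _ _ => hcs).trans (Finset.sum_le_sum fun k _ => (Cyl58.nrm_clm _ 1 (s k) (m k)).trans_eq ?_))
  · ext k
    simp [s, Cyl58.sa, Cyl58.sec1, Pi.single_apply]
  · simp [s, Pi.sub_def]

/-- eigenspinors of simple eigenvalues are bounded -/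
theorem eg_bd {l : ℝ} (h : Smp v l) : ∃ K ≥ 0, ∀ φ, Eg v l φ → e.D.F.nrm 0 φ ≤ 1 →
    e.D.F.nrm 1 φ ≤ K := by
  by_cases k : ∃ φ, φ ≠ 0 ∧ Eg v l φ
  · obtain ⟨φ, h0, h1⟩ := k
    have s := (ay_of h1.1).sΦ
    have p : 0 < e.D.F.nrm 0 φ := (sq_pos_iff.1 ((nm_pos (ay_of h1.1) (ne_iff.1 h0)).trans_eq
      (nm_eq _))).lt_of_le' (nrm_nonneg _ _)
    refine ⟨‖Pb50.cB e.m.J‖ / e.D.F.nrm 0 φ * e.D.F.nrm 1 φ, by
      have := nrm_nonneg (F := e.D.F.toPre) 1 φ; positivity, fun φ' h2 h3 => ?_⟩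
    obtain ⟨z, hz⟩ := h φ φ' h0 h1 h2
    obtain rfl : φ' = _ := funext hz
    have : e.D.F.nrm 0 (fun y => cs e.m.J z (φ y)) = ‖z‖ * e.D.F.nrm 0 φ := by
      simp only [Pre.nrm, Pre.ip, real_inner_self_eq_norm_sq,
        Mp86.norm_cs (J := e.m.J) he.cyl.m.Jsq he.cyl.m.Jsk, mul_pow, integral_const_mul, Real.sqrt_mul (sq_nonneg _), Real.sqrt_sq (norm_nonneg _)]
    refine (Cyl58.nrm_clm _ 1 (Pb50.cB e.m.J z) s).trans (mul_le_mul_of_nonneg_right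
      (((Pb50.cB e.m.J).le_opNorm z).trans ?_) (nrm_nonneg _ _))
    rw [le_div_iff₀ p, mul_assoc, ← this]
    exact mul_le_of_le_one_right (norm_nonneg _) h3
  · refine ⟨0, le_rfl, fun φ h1 _ => ?_⟩
    obtain rfl : φ = 0 := by_contra fun h0 => k ⟨φ, h0, h1⟩
    simpa using (nrm_const_smul (F := e.D.F.toPre) 1 0 (ay_of h1.1).sΦ).le

end Crest.Agent.X212.Hp13.Cr
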