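import Crest.Agent.X212.Hp13.Cr0

/-!
# X212 / Hp13 (helper13): ES-CRIT, the generators of a level
-/

set_option autoImplicit false
set_option linter.unusedSectionVars false
noncomputable section
open scoped Manifold ContDiff Topology InnerProductSpace
open MeasureTheory Set Function Filter

namespace Crest.Agent.X212.Hp13.Cr
open An Cyf70 Sw Sw.En3 End23 Sob92 Es42
open Dl42 (Ay ay_of)

variable {κ lam ν : Type} [Fintype κ] [Fintype lam] [Fintype ν] [DecidableEq ν]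

/-- **ES-CRIT** -/
theorem critStmt (hB : BijStmt κ lam ν) (hG : GapStmt κ lam ν) (hC : CptStmt κ lam ν)
    (hT : TowStmt κ lam ν) : CritStmt κ lam ν := fun e M h c hc hs k η hη => by
  classical
  have he := h.ok
  have A : ∀ o, Ay (M.pt o) := fun o => ay_of (h.crit o).1
  let T : Set (M.ρ × ℝ) := {p | p.2 ∈ spec (M.θ p.1) ∩ Ioo 0 c}
  have hT' : T.Finite := (finite_iUnion fun j => ((hG _ he _ (A (.inr j)).adm).1 c).image
    (Prod.mk j)).subset fun p hp => mem_iUnion.2 ⟨p.1, p.2, ⟨hp.1, by linarith [hp.2.1], hp.2.2.le⟩, rfl⟩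
  have := hT'.to_subtype
  have : Finite {o : Lb M // o.In c} := ((finite_range Sum.inl).union (hT'.image Sum.inr)).subset (by
    rintro (i | p) hp
    exacts [.inl ⟨i, rfl⟩, .inr ⟨p, hp, rfl⟩])
  let := Fintype.ofFinite {o : Lb M // o.In c}
  obtain ⟨η₂, g1, g2⟩ := ((gap (((hT'.image Prod.snd).insert c).insert 0)).and
    (Ioc_mem_nhdsGT hη)).exists
  obtain ⟨K, K0, hK⟩ := Dr9.hol_lip he
  obtain ⟨ε₀, s0, hsep⟩ := h.sep
  obtain ⟨δ, hδ, δ0⟩ := ((eventually_all.2 fun j => L_cont he (A (.inr j)) (half_pos hη)).and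
    self_mem_nhdsWithin).exists
  obtain ⟨η₁, ⟨⟨u1, u2⟩, u3⟩, u4⟩ := ((((unif c g2.1).and (Ioc_mem_nhdsGT hη)).and (Ioc_mem_nhdsGT
    (half_pos δ0))).and (Ioc_mem_nhdsGT (show 0 < ε₀ / (2 * K + 1) by positivity))).exists
  choose k' ε hε w₀ hw₀ hx using fun j => hT e M h j c hc (hs j) (max k 1) η₁ u2.1
  choose B B0 hB' using fun p : T => eg_bd he (h.smp p.1.1 p.1.2 p.2.2.1.le)
  obtain ⟨k₀, hk₀⟩ := Finite.exists_le k'
  obtain ⟨ε₁, hε₁, e0⟩ := ((eventually_all.2 fun j => Ioc_mem_nhdsGT (hε j)).and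
    self_mem_nhdsWithin).exists
  obtain ⟨w₁, hw₁, hm⟩ := hC.mo e M h c hc.le k₀ ε₁ e0
  refine mem_nhdsGT_iff_exists_Ioc_subset.1 (?_ : ∀ᶠ w in 𝓝[>] (0 : ℝ), _)
  filter_upwards [eventually_all.2 fun j => Ioc_mem_nhdsGT (hw₀ j), Ioc_mem_nhdsGT hw₁,
    eventually_all.2 fun i => Ioc_mem_nhdsGT (nm_pos (A (.inl i)) (h.irr i)),
    Ioc_mem_nhdsGT (show 0 < η / (3 * c) by positivity), eventually_all.2 fun p : T =>
      nhdsWithin_le_nhds ((Continuous.tendsto' (f := fun w : ℝ => √(w / 2) * (B p + η₁))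
        (by fun_prop) 0 0 (by simp)).eventually_le_const (half_pos δ0))] with w a1 a2 a3 a4 a5
  have hw := a2.1
  choose x hx hu using fun j => hx j w (a1 j)
  choose! x1 x2 x3 φ x4 x5 x6 using hx
  let g : ∀ S ψ, (lv e c w S ψ).Gen := fun S ψ =>
    { ι := {o : Lb M // o.In c}, ρ := M.ρ, θ := fun j => ut (M.θ j)
      x := fun o => o.1.elim (fun i => ut (M.x i)) fun p => ⟨(x p.1 p.2).a, (x p.1 p.2).Φ⟩ }
  obtain ⟨S, ψ, hS, sψ, mψ, hl⟩ := lvlStmt.1 _ (finite_range fun o => L ((g ∅ 0).pt o))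
  have eL : ∀ o, L ((g ∅ 0).pt o) = L ((g S ψ).pt o) := by rintro (⟨i | p, _⟩ | j) <;> rfl
  simp only [eL, forall_mem_range] at hl
  have H : (lv e c w S ψ).OK := ok_re he hw.le (contDiff_const.mul cd_prf)
    (fun r => mul_nonneg hc.le (prf_mem r).1) (fun r h => by rw [prf_one h, mul_zero]) hS sψ mψ
  have b0 : c * prf 0 = c := (lvlStmt.2.2.1 c hc).zero
  have b3 : ∀ r, c * prf r ≤ c * 3 := fun r => mul_le_mul_of_nonneg_left (prf_mem r).2 hc.le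
  have b4 : w / 2 * (c * 3) ≤ η / 2 := by linarith [(le_div_iff₀ (by positivity)).1 a4.2]
  have n2 : ∀ i, 2 ≤ nm (ut (e := lv e c w S ψ) (M.x i)) := fun i => nm_ut hw (a3 i).2
  have sφ : ∀ j l, (j, l) ∈ T → Sm e.Y.I (φ j l) := fun j l a => (ay_of (x4 j l a).1).sΦ
  have Ax := fun j l a => ay_of (x1 j l a).1
  have d1 : ∀ j l, (j, l) ∈ T → ∀ i ≤ 1, e.D.F.nrm i ((x j l).Φ - φ j l) ≤ η₁ := fun j l a i hi =>
    ((nrm_mono (le_max_of_le_right hi) _).trans (d0 _ (x j l) ⟨_, φ j l⟩)).trans (x6 j l a)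
  have tw : ∀ j l, (j, l) ∈ T → |c * prf (nm (x j l)) - l| ≤ η₂ := fun j l a => by
    have := u1 _ _ ((nrm_abs (Ax j l a).sΦ (sφ j l a)).trans (d1 j l a 0 zero_le_one))
    have k := x5 j l a
    rw [nm_eq] at k ⊢
    exact (congrArg (|_ - ·|) k.symm).trans_le this
  have ne : ∀ j l, (j, l) ∈ T → ∃ y, (x j l).Φ y ≠ 0 := fun j l a => by
    by_contra! k
    have := tw j l a
    rw [nm_zero k, b0] at this
    exact a.2.2.ne' (g1 _ (by simp) _ (.inr (.inr ⟨_, a, rfl⟩)) (by linarith [g2.1]))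
  have cr : ∀ o, Crit ((g S ψ).pt o) := by
    rintro (⟨i | p, a⟩ | j)
    exacts [crit_ut H hw (h.crit (.inl i)) (.inl (one_le_two.trans (n2 i))), x1 p.1 p.2 a,
      crit_ut H hw (h.crit (.inr j)) (.inr (h.red j))]
  have rd : ∀ j y, ((g S ψ).θ j).Φ y = 0 := fun j y => by simp [g, ut, h.red j]
  let lv' : (g S ψ).ι ⊕ (g S ψ).ρ → ℝ := Sum.elim (fun o => o.1.elim (fun _ => 0) Prod.snd) fun _ => c
  have hv : ∀ o, lv' o ∈ insert 0 (insert c (Prod.snd '' T)) ∧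
      |c * prf (nm ((g S ψ).pt o)) - lv' o| ≤ η₂ := by
    rintro (⟨i | p, a⟩ | j)
    · exact ⟨.inl rfl, (congrArg (|c * · - 0|) (prf_one (one_le_two.trans (n2 i)))).trans_le
        (by simpa using g2.1.le)⟩
    · exact ⟨.inr (.inr ⟨p, a, rfl⟩), tw p.1 p.2 a⟩
    · exact ⟨.inr (.inl rfl), (congrArg (|c * prf · - c|) (nm_zero (rd j))).trans_le
        (by simpa [b0] using g2.1.le)⟩
  have hh : ∀ j l, (j, l) ∈ T → |hol (x j l) - hol (M.θ j)| ≤ K * η₁ := fun j l a =>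
    (hK ⟨(x j l).a, (x j l).Φ⟩ ⟨(M.θ j).a, φ j l⟩ (let b := (x1 j l a).1; ⟨b.1, b.2, b.3, b.4⟩)
      (x4 j l a).1).trans (mul_le_mul_of_nonneg_left ((Dr9.dist_mono (Nat.zero_le _) (x j l)
        ⟨(M.θ j).a, φ j l⟩).trans (x6 j l a)) K0)
  refine ⟨S, ψ, g S ψ, Subtype.val, ⟨H, hw, fun _ => inv_of H h.inv, cr, ?_, ?_, rd,
    fun v hv => ?_, fun o o' q => ?_, fun o => (hl o).1, fun o o' q => ((hl o).2.2 o' q).2,
    fun o => (hl o).2.1, fun o o' q => ((hl o).2.2 o' q).1⟩, Subtype.val_injective,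
    fun o => by simp [g], ?_, ?_, ?_, fun j => ⟨j, tv_ut hw _⟩, ?_⟩
  · rintro (⟨i | p, a⟩ | j)
    exacts [(nd_ut H hw (A (.inl i)) (h.nd (.inl i)) (one_lt_two.trans_le (n2 i))).1,
      (hB.irr _ H hw _ (cr (.inl ⟨.inr p, a⟩)) (ne p.1 p.2 a)).2 (x2 p.1 p.2 a),
      nd_red H hB hw ⟨h.crit (.inr j), h.red j⟩ (h.nd (.inr j)) (b0.symm ▸ hs j :)]
  · rintro ⟨i | p, a⟩
    · by_contra! k
      linarith [n2 i, (nm_zero k : nm (ut (e := lv e c w S ψ) (M.x i)) = 0)]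
    · exact ne p.1 p.2 a
  · have k : Crit (tv v) → ∃ o, Eqv ((g S ψ).pt o) v := fun k => by
      obtain ⟨i | j, q⟩ := h.all _ k
      exacts [⟨.inl ⟨.inl i, trivial⟩, (eqv_ut hw).2 q⟩, ⟨.inr j, (eqv_ut hw).2 q⟩]
    rcases le_total 1 (nm v) with h1 | h1
    · exact k ((crit_tv H hw hv.1 h1).1.1 hv)
    by_cases h0 : ∀ y, v.Φ y = 0
    · exact k ((crit0 H hw (ay_of hv.1) h0).1 hv)
    obtain ⟨j, v', q1, q2, q3⟩ := hm w a2 S ψ H v hv h1
    obtain ⟨l, a, q⟩ := hu j ⟨v'.a, v'.Φ⟩ (Pb50.Eqv.crit H hv q1 :) ((not_forall.1 h0).imp fun y hy k =>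
      hy (norm_eq_zero.1 ((Cyl58.eqv_norm H hv.1 q1 y).symm.trans (norm_eq_zero.2 k)))) q2
      fun i => (nrm_mono (hk₀ j) _).trans ((q3 i).trans (hε₁ j).2)
    exact ⟨.inl ⟨.inr (j, l), a⟩, eqv_trans H (v' := v') q (Cyc79.eqv_symm H q1)⟩
  · have k := g1 _ (hv o).1 _ (hv o').1 (by
      have a := abs_le.1 (hv o).2
      have b := abs_le.1 (hv o').2
      rw [Pb50.Eqv.nm H q] at b
      exact abs_le.2 ⟨by linarith [a.2, b.1], by linarith [a.1, b.2]⟩)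
    rcases o with ⟨i | ⟨j, l⟩, a⟩ | j <;> rcases o' with ⟨i' | ⟨j', l'⟩, a'⟩ | j'
    · obtain ⟨⟩ := h.inj (.inl i) (.inl i') (eqv_ut₂ (e := lv e c w S ψ) hw q :); rfl
    · exact (a'.2.1.ne k).elim
    · exact (hc.ne k).elim
    · exact (a.2.1.ne' k).elim
    · obtain rfl : l = l' := k
      obtain ⟨u, hu, q⟩ := q
      have b := Dr9.hol_act H (cr (.inl ⟨_, a⟩)).1 hu.1 q
      change hol (x j' l) = hol (x j l) - per e u at b
      have b1 := abs_le.1 (hh j l a)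
      have b2 := abs_le.1 (hh j' l a')
      have b3 := (le_div_iff₀ (by positivity)).1 u4.2
      obtain rfl := hsep j j' u hu (abs_le.2 ⟨by linarith [u2.1], by linarith [u2.1]⟩)
      rfl
    · exact (a.2.2.ne k).elim
    · exact (hc.ne' k).elim
    · exact (a'.2.2.ne' k).elim
    · obtain ⟨⟩ := h.inj (.inr j) (.inr j') (eqv_ut₂ (e := lv e c w S ψ) hw q :); rfl
  · rintro ⟨i | p, a⟩
    exacts [(nd_ut H hw (A (.inl i)) (h.nd (.inl i)) (one_lt_two.trans_le (n2 i))).2, x3 p.1 p.2 a]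
  · rintro ⟨_, a⟩ i rfl
    exact ⟨tv_ut hw _, n2 i⟩
  · rintro ⟨_, a⟩ j l rfl
    exact ⟨(tw j l a).trans g2.2, φ j l, x4 j l a, x5 j l a, ((Dr9.dist_mono (le_max_left _ _) (x j l)
      ⟨(M.θ j).a, φ j l⟩).trans (x6 j l a)).trans u2.2⟩
  · rintro (⟨i | ⟨j, l⟩, a⟩ | j)
    · exact ⟨.inl i, (L_ut H hw (A (.inl i)) b3).trans (b4.trans (half_le_self hη.le))⟩
    · have b := ay_of (cr (.inl ⟨_, a⟩)).1
      have b1 := (L_tv_le H b b3).trans b4
      suffices k : En3.dist (e := lf e) 1 (tv ((g S ψ).pt (.inl ⟨_, a⟩)) :) (M.pt (.inr j)) ≤ δ from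
        ⟨.inr j, (abs_sub_le _ _ _).trans ((add_le_add b1 (hδ j _ (ay_tv b :) k :)).trans_eq
          (add_halves η))⟩
      have n : e.D.F.nrm 0 (φ j l) ≤ 1 := by
        by_contra! k
        have := x5 j l a
        rw [nm_eq, prf_one (one_le_pow₀ k.le), mul_zero] at this
        exact a.2.1.ne this
      have n1 := (nrm_le 1 (Ax j l a).sΦ (sφ j l a)).trans
        (add_le_add (hB' ⟨_, a⟩ _ (x4 j l a) n) (d1 j l a 1 le_rfl))
      refine (add_le_add (((le_add_of_nonneg_right (nrm_nonneg _ _)).trans ((Dr9.dist_mono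
        (le_max_right _ _) (x j l) ⟨(M.θ j).a, φ j l⟩).trans (x6 j l a))).trans u3.2)
        (le_trans ?_ (a5 ⟨_, a⟩))).trans_eq (add_halves δ)
      rw [show (M.pt (.inr j)).Φ = 0 from h.red j, sub_zero]
      exact (nrm_const_smul 1 √(w / 2) (Ax j l a).sΦ).trans_le (by
        rw [abs_of_nonneg (Real.sqrt_nonneg _)]
        exact mul_le_mul_of_nonneg_left n1 (Real.sqrt_nonneg _))
    · exact ⟨.inr j, (L_ut H hw (A (.inr j)) b3).trans (b4.trans (half_le_self hη.le))⟩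

end Crest.Agent.X212.Hp13.Cr
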