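import Crest.Agent.X212.Hp13.Rsl3
import Crest.Agent.X212.St29.E1
import Crest.Agent.X212.Hd34.Pc
import Crest.Agent.X212.Inn9.Inn
import Crest.Agent.X212.Alg36.Rev

/-!
# X212 / Hp13 (helper13): E1 for a cut in position (after helper29's `e1Stmt`), no hypotheses
-/

set_option autoImplicit false

namespace Crest.Agent.X212.Hp13

open Crest.Agent.X212.Hk St29.E1

theorem traD : TraDStmt := traDStmt Alg36.revStmt

theorem traS : TraSStmt := traSStmt Alg36.revStmt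

theorem ic : IcStmt := Hd34.Pc.icStmt Inn9.innStmt Inn9.capStmt Inn9.circStmt

theorem e1c {t s' : St} {z : t.P → t.P → ℤ} {ρ : s'.P → t.P} (h : CutH t s' z ρ)
    (cp : Cut21.CondP t.A z) (vm : Cut21.VM t.A z) {R : Type} [PartialOrder R] {car : t.P → R}
    {k : ℕ} {U G V : Fin k → Set s'.P} (hc : Monotone car) (F : Fm (car ∘ ρ) (Yo s'.A) k U G V) :
    ∃ U' G' V', Fm car (Yo t.A) k U' G' V' ∧ ∀ j, Flat (G' j) z := by
  obtain ⟨r1, r2, r3⟩ := rsl h cp vm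
  have S : Sit ρ _ _ _ := ⟨li_yo h, amb_yo h.st, hs_low (s1_yo h), r1, r2, r3⟩
  refine ⟨fun i => ρ '' U i, fun i => ρ '' G i, fun i => Yo t.A \ ρ '' (U i ∪ G i),
    ⟨fun i => S.mem traD traS ic (F.mem i) hc, fun i j n => Set.disjoint_left.2 ?_,
      fun i j n => S.np (F.mem i) (F.mem j) (F.np i j n)⟩, fun j => ?_⟩
  · rintro _ ⟨q, a, rfl⟩ c
    exact Set.disjoint_left.1 (F.dj i j n) a ((S.li.mem_img (F.mem j).sub ((F.mem i).sub a)).1 c)
  · rintro _ ⟨p, a, rfl⟩ _ ⟨q, c, rfl⟩ l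
    exact zero_yo h (S.li.mem ((F.mem j).sub a)).2 (S.li.mem ((F.mem j).sub c)).1 l

end Crest.Agent.X212.Hp13
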