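import Crest.Agent.X212.Hp13.ExtW

/-!
# X212 / Hp13 (helper13): EXT-A and EXT-G, extension of functions from the faces
-/

set_option autoImplicit false
set_option linter.unusedSectionVars false
noncomputable section
open scoped Manifold ContDiff Topology
open Set Function Filter

namespace Crest.Agent.X212.Hp13.Ext
open Flo2 Sw
open Prm93 (JAt JS)
open Real (smoothTransition)

variable {κ lam ν : Type} [Fintype κ] [Fintype lam] [Fintype ν] [DecidableEq ν]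
  {g : Gc κ lam ν} {τ : Tr g} {F : ∀ x : Nod κ lam ν, Sc x.1} {c c' : Fin g.k} {s s' : Bool}
  {t : Tk g.k} {T : ℝ} {p q : Flo2.Pi g} {f : Sc g}

/-- the function of a piece -/
def pv (F : ∀ x : Nod κ lam ν, Sc x.1) (t : Tk g.k) (p : Flo2.Pi g) : g.X.M → ℝ :=
  psh (p.φ t) (F ⟨_, p.τ⟩ (t ∘ p.ι))

/-- `t` lies on the face `(c, s)` -/
def At (g : Gc κ lam ν) (T : ℝ) (c : Fin g.k) (s : Bool) (t : Tk g.k) : Prop :=
  bif s then (if g.wl c = none then t c = 1 else T ≤ t c) else t c = 0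

theorem At.mono (h : At g T c s t) {T' : ℝ} (k : T' ≤ T) : At g T' c s t := by
  cases s
  · exact h
  · unfold At at *
    split_ifs at * <;> [exact h; exact k.trans h]

theorem one_ne (hc : g.wl c = none) : {t ∈ g.dom | t c = 1}.Nonempty := ⟨Pi.single c 1, fun c' => by
  rcases eq_or_ne c' c with rfl | k <;> simp [*], by simp⟩

theorem pcs_nw (hc : g.wl c = none) (G : Flo2.Pi g → g.X.M → ℝ) : ((τ.pcs c true).map G).sum =
    G ⟨_, τ.f1 c, τ.nd.ι1 c, fun _ => τ.nd.l c 3⟩ := by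
  simp [Tr.pcs, hc, (τ.nd.f1 c hc).2.1]

theorem pcs_wl (hc : g.wl c ≠ none) : ((τ.pcs c true).map (pv F t)).sum =
    psh (τ.nd.l c (t c)) (F ⟨_, τ.f1 c⟩ (t ∘ τ.nd.ι1 c)) + psh ((τ.nd.φ2 c).trans (τ.nd.r c (t c)))
      (F ⟨_, τ.f2 c⟩ (t ∘ τ.nd.ι2 c ∘ τ.nd.ι3 c)) := by
  simp [Tr.pcs, hc, pv]

/-- consistency beyond `T` -/
def Cn (τ : Tr g) (f : Sc g) (F : ∀ x : Nod κ lam ν, Sc x.1) (T : ℝ) : Prop :=
  ∀ c s, ∀ t ∈ g.dom, At g T c s t → f t = ((τ.pcs c s).map (pv F t)).sum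

theorem gl0 (τ : Tr g) (c : Fin g.k) : (τ.nd.φ0 c).source = univ ∧ (τ.nd.φ0 c).target = univ :=
  let k := fc_gl (τ.nd.f0 c).2 ⟨0, zero_dom _, rfl⟩; ⟨k.1, k.2.1⟩

theorem gl1 (τ : Tr g) (hc : g.wl c = none) : (τ.nd.l c 3).source = univ ∧ (τ.nd.l c 3).target = univ :=
  let k := fc_gl (τ.nd.f1 c hc).2.2 (one_ne hc); ⟨k.1, k.2.1⟩

theorem con_cn (h : Con ⟨g, τ⟩ f F) : ∀ᶠ T in atTop, Cn τ f F T := by
  refine eventually_all.2 fun c => eventually_all.2 fun s => ?_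
  cases s
  · exact .of_forall fun T t ht k => by
      simpa [Tr.pcs, pv] using (eq_psh (gl0 τ c).1 (gl0 τ c).2).2 (h.f0 c t ht k)
  by_cases hc : g.wl c = none
  · exact .of_forall fun T t ht k => by
      rw [pcs_nw hc]
      exact (eq_psh (gl1 τ hc).1 (gl1 τ hc).2).2 (h.f1 c hc t ht (by simpa [At, hc] using k))
  · obtain ⟨T₀, k₀⟩ := h.wl c hc
    filter_upwards [eventually_ge_atTop T₀] with T hT t _ k
    rw [pcs_wl hc]
    exact k₀ t (hT.trans (by simpa [At, hc] using k))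

theorem clp_dom (t : Tk g.k) : g.clp t ∈ g.dom := fun c => by
  rcases e : g.wl c with _ | i <;> simp [Bs.clp, e]

/-- properties of the pieces of a face -/
structure PG (τ : Tr g) (c : Fin g.k) (s : Bool) (p : Flo2.Pi g) : Prop where
  ch : Nod.Ch ⟨g, τ⟩ ⟨_, p.τ⟩
  mt : Mt _ g p.ι
  inj : Injective p.ι
  ne : ∀ j, p.ι j ≠ c
  ex : ∃ l, Exh l ∧ (∀ t, p.φ t = l (t c)) ∧ ((s = true ∧ g.wl c ≠ none) ∨ ∀ u, l u = l 3)

theorem pg (h : p ∈ τ.pcs c s) : PG τ c s p := by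
  have r : ∀ {n} {ι : Fin n → Fin g.k}, range ι = {c}ᶜ → ∀ j, ι j ≠ c := fun e j =>
    (e ▸ mem_range_self j : _ ∈ ({c}ᶜ : Set _))
  cases s
  · obtain rfl := List.mem_singleton.1 h
    exact ⟨⟨c, .inl rfl⟩, fc_mt (τ.nd.f0 c).2, (τ.nd.f0 c).2.inj, r (τ.nd.f0 c).1, _,
      exh_const (gl0 τ c).1, fun _ => rfl, .inr fun _ => rfl⟩
  have ex := exh_l τ.nd (τ.f1 c).nd.ok
  rcases hi : g.wl c with _ | i
  · obtain rfl : p = _ := by simpa [Tr.pcs, hi] using h
    obtain ⟨a, b, d⟩ := τ.nd.f1 c hi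
    exact ⟨⟨c, .inr (.inl rfl)⟩, fc_mt d, d.inj, r a, _, ex, fun _ => rfl, .inr b⟩
  obtain ⟨-, -, -, -, m1, m2⟩ := sides τ.nd (τ.f1 c).nd.ok hi
  obtain ⟨W, -, -, fc, -⟩ := τ.nd.wl c i hi
  have b := W.bij.1
  have hc : g.wl c ≠ none := by simp [hi]
  obtain rfl | rfl : p = _ ∨ p = _ := by simpa [Tr.pcs, hi] using h
  · exact ⟨⟨c, .inr (.inl rfl)⟩, m1, fun a a' e => by simpa using @b (.inl (.inl a)) (.inl (.inl a')) e,
      fun j e => by simpa using @b (.inl (.inl j)) (.inr ()) e, _, ex, fun _ => rfl, .inl ⟨rfl, hc⟩⟩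
  · exact ⟨⟨c, .inr (.inr ⟨hc, rfl⟩)⟩, fun j => (fc_mt fc j).trans (m2 _),
      fun a a' e => fc.inj (by simpa using @b (.inl (.inr _)) (.inl (.inr _)) e),
      fun j e => by simpa using @b (.inl (.inr _)) (.inr ()) e, _, exh_r τ.nd (τ.f1 c).nd.ok hi,
      fun _ => rfl, .inl ⟨rfl, hc⟩⟩

theorem ch_pcs {y : Nod κ lam ν} (h : Nod.Ch ⟨g, τ⟩ y) : ∃ c s, ∃ p ∈ τ.pcs c s, y = ⟨_, p.τ⟩ := by
  obtain ⟨c, h | h | ⟨h', h⟩⟩ := h
  · exact ⟨c, false, _, List.mem_singleton_self _, h⟩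
  · exact ⟨c, true, _, List.mem_cons_self, h⟩
  · exact ⟨c, true, _, List.mem_cons_of_mem _ (by rw [if_neg h']; exact List.mem_singleton_self _), h⟩

theorem ch_lt {x y : Nod κ lam ν} (h : x.Ch y) : y.1.k < x.1.k := by
  obtain ⟨c, s, p, k, rfl⟩ := ch_pcs h
  simpa using Fintype.card_lt_of_injective_of_notMem _ (pg k).inj (b := c) fun ⟨j, e⟩ => (pg k).ne j e

theorem cn_con (hf : f.OK) (hF : ∀ y, Nod.Ch ⟨g, τ⟩ y → (F y).OK) (h : Cn τ f F T) : Con ⟨g, τ⟩ f F := by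
  refine ⟨fun c t ht k => (eq_psh (gl0 τ c).1 (gl0 τ c).2).1 (by simpa [Tr.pcs, pv] using h c false t ht k),
    fun c hc t ht k => (eq_psh (gl1 τ hc).1 (gl1 τ hc).2).1
      ((h c true t ht ((if_pos hc).mpr k)).trans (pcs_nw hc _)),
    fun c hc => ⟨max 0 T, fun t ht => ?_⟩⟩
  have e : g.clp t c = t c := by rw [clp_wl hc, max_eq_right ((le_max_left _ _).trans ht)]
  rw [hf.ret, h c true _ (clp_dom t) (by simpa [At, hc, e] using (le_max_right _ _).trans ht), ← pcs_wl hc]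
  refine congrArg _ (List.map_congr_left fun p hp => ?_)
  obtain ⟨l, -, k, -⟩ := (pg hp).ex
  rw [pv, pv, k, k, e, (pg hp).mt.clp, ← (hF _ (pg hp).ch).ret]

theorem At.comp {g₁ : Gc κ lam ν} {ι : Fin g₁.k → Fin g.k} (m : Mt g₁ g ι) {j : Fin g₁.k}
    (h : At g T (ι j) s t) : At g₁ T j s (t ∘ ι) := by
  simpa only [At, m j, comp_apply] using h

theorem two (h : g.k ≤ 2) (n : c ≠ c') {j : Fin g.k} (k : j ≠ c) : j = c' := by
  have := c.2; have := c'.2; have := j.2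
  rw [Ne, Fin.ext_iff] at n k
  exact Fin.ext (by omega)

theorem sum_flat {α β γ : Type*} [AddCommMonoid γ] (L : List α) (a : α → List β) (G : β → γ) :
    ((L.flatMap a).map G).sum = (L.map fun x => ((a x).map G).sum).sum := by
  induction L with
  | nil => rfl
  | cons x L ih => simp [ih]

theorem crn_eq (hF : ∀ y, Nod.Ch ⟨g, τ⟩ y → Con y (F y) F) (n : c ≠ c') (s s' : Bool) :
    ∀ᶠ T in atTop, ∀ t ∈ g.dom, At g T c' s' t →
      ((τ.pcs c s).map (pv F t)).sum = ((τ.crn c s s').map (pv F t)).sum := by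
  filter_upwards [(eventually_all_finite (τ.pcs c s).finite_toSet).2 fun p hp => con_cn (hF _ (pg hp).ch)]
    with T hT t ht k
  rw [Tr.crn, sum_flat]
  refine congrArg _ (List.map_congr_left fun p hp => ?_)
  split_ifs with h
  · rw [pv, hT p hp ⟨0, h⟩ s' _ ((pg hp).mt.dom ht)
      (At.comp (pg hp).mt (two τ.nd.ok.k2 n ((pg hp).ne _) ▸ k)), psh_sum, List.map_map, List.map_map]
    exact congrArg _ (List.map_congr_left fun q _ => (psh_trans _).symm)
  · simp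

theorem PG.cpt (h : PG τ c s p) {K : Set p.g'.X.M} (hK : IsCompact K) : ∃ K', IsCompact K' ∧
    ∀ᶠ T in atTop, ∀ t, At g T c s t → K ⊆ (p.φ t).source ∧ MapsTo (p.φ t) K K' ∧
      p.φ t = p.φ fun j => max 3 (t j) := by
  obtain ⟨l, e, k, w⟩ := h.ex
  obtain ⟨T₀, K', a, b⟩ := e K hK
  refine ⟨K', a, ?_⟩
  filter_upwards [eventually_ge_atTop T₀, eventually_ge_atTop 3] with T h1 h2 t ht
  rw [k, k]
  obtain ⟨rfl, hc⟩ | w := w
  · have : T ≤ t c := by simpa [At, hc] using ht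
    exact ⟨(b _ (h1.trans this)).1, (b _ (h1.trans this)).2, by rw [max_eq_right (h2.trans this)]⟩
  · rw [w, w (max _ _), ← w T₀]
    exact ⟨(b _ le_rfl).1, (b _ le_rfl).2, rfl⟩

theorem crn_cpt (h1 : ∀ y, Nod.Ch ⟨g, τ⟩ y → (F y).OK)
    (h2 : ∀ y z, Nod.Ch ⟨g, τ⟩ y → y.Ch z → (F z).OK) (n : c ≠ c') (h : p ∈ τ.crn c s s') :
    p.g'.k = 0 ∧ ∀ᶠ T in atTop, ∀ t, At g T c s t → At g T c' s' t →
      (∀ u x, F ⟨_, p.τ⟩ u x ≠ 0 → x ∈ (p.φ t).source) ∧ p.φ t = p.φ fun j => max 3 (t j) := by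
  obtain ⟨a, ha, h⟩ := List.mem_flatMap.1 h
  split_ifs at h with k
  · obtain ⟨b, hb, rfl⟩ := List.mem_map.1 h
    obtain ⟨K, k1, k2⟩ := ok_cpt b.τ.nd.ok (h2 _ _ (pg ha).ch (pg hb).ch)
    obtain ⟨K', k3, k4⟩ := (pg hb).cpt k1
    obtain ⟨_, -, k5⟩ := (pg ha).cpt k3
    refine ⟨by
      have := ch_lt (pg ha).ch; have := ch_lt (pg hb).ch; have := τ.nd.ok.k2
      simp only [Pi.comp] at *; omega, ?_⟩
    filter_upwards [k4, k5] with T a1 a2 t t1 t2
    obtain ⟨b1, b2, b3⟩ := a1 _ (At.comp (pg ha).mt (two τ.nd.ok.k2 n ((pg ha).ne _) ▸ t2))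
    obtain ⟨b4, -, b5⟩ := a2 t t1
    exact ⟨fun u x hx => have m : x ∈ K := by_contra fun j => hx (k2 u x j); ⟨b1 m, b4 (b2 m)⟩,
      congrArg₂ OpenPartialHomeomorph.trans b3 b5⟩
  · obtain rfl := List.mem_singleton.1 h
    obtain ⟨K, k1, k2⟩ := ok_cpt p.τ.nd.ok (h1 _ (pg ha).ch)
    obtain ⟨_, -, k4⟩ := (pg ha).cpt k1
    exact ⟨by omega, k4.mono fun T a t t1 _ =>
      ⟨fun u x hx => (a t t1).1 (by_contra fun j => hx (k2 u x j)), (a t t1).2.2⟩⟩

theorem pv_eq (e : p.Eq q) (h0 : p.g'.k = 0) (h1 : ∀ u x, F ⟨_, p.τ⟩ u x ≠ 0 → x ∈ (p.φ t).source)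
    (h2 : ∀ u x, F ⟨_, q.τ⟩ u x ≠ 0 → x ∈ (q.φ t).source) (h3 : p.φ t = p.φ fun j => max 3 (t j))
    (h4 : q.φ t = q.φ fun j => max 3 (t j)) : pv F t p = pv F t q := by
  obtain ⟨g₁, τ₁, ι₁, φ₁⟩ := p
  obtain ⟨g₂, τ₂, ι₂, φ₂⟩ := q
  obtain ⟨a, b, e⟩ := e
  obtain rfl : g₂ = g₁ := a
  obtain rfl : τ₁ = τ₂ := b
  have := e _ fun j => le_max_left 3 (t j)
  rw [← h3, ← h4] at this
  rw [pv, pv, show t ∘ ι₂ = t ∘ ι₁ from funext fun j => (h0 ▸ j).elim0]
  exact psh_congr fun x hx => ⟨h1 _ x hx, h2 _ x hx, this x (h1 _ x hx) x (h2 _ x hx) HEq.rfl⟩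

theorem map_eq {α β : Type*} {R : α → α → Prop} {a b : List α} (h : List.Forall₂ R a b) {G : α → β}
    (k : ∀ x ∈ a, ∀ y ∈ b, R x y → G x = G y) : a.map G = b.map G := by
  induction h with
  | nil => rfl
  | cons h _ ih => rw [List.map_cons, List.map_cons, k _ List.mem_cons_self _ List.mem_cons_self h,
      ih fun x hx y hy => k x (List.mem_cons_of_mem _ hx) y (List.mem_cons_of_mem _ hy)]

theorem corner (hc : τ.Coh) (h1 : ∀ y, Nod.Ch ⟨g, τ⟩ y → (F y).OK ∧ Con y (F y) F)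
    (h2 : ∀ y z, Nod.Ch ⟨g, τ⟩ y → y.Ch z → (F z).OK) (n : c ≠ c') (s s' : Bool) :
    ∀ᶠ T in atTop, ∀ t ∈ g.dom, At g T c s t → At g T c' s' t →
      ((τ.pcs c s).map (pv F t)).sum = ((τ.pcs c' s').map (pv F t)).sum := by
  obtain ⟨l, l1, l2⟩ := hc c c' n s s'
  filter_upwards [crn_eq (fun y k => (h1 y k).2) n s s', crn_eq (fun y k => (h1 y k).2) n.symm s' s,
    (eventually_all_finite (τ.crn c s s').finite_toSet).2 fun p hp =>
      (crn_cpt (fun y k => (h1 y k).1) h2 n hp).2,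
    (eventually_all_finite (τ.crn c' s' s).finite_toSet).2 fun p hp =>
      (crn_cpt (fun y k => (h1 y k).1) h2 n.symm hp).2] with T a1 a2 a3 a4 t ht t1 t2
  rw [a1 t ht t2, a2 t ht t1, (l1.map _).sum_eq, map_eq l2 fun p hp q hq e =>
    pv_eq e (crn_cpt (fun y k => (h1 y k).1) h2 n hp).1 (a3 p hp t t1 t2).1
      (a4 q (l1.symm.subset hq) t t2 t1).1 (a3 p hp t t1 t2).2 (a4 q (l1.symm.subset hq) t t2 t1).2]

/-! ### blending -/

open Classical in
/-- the weight of the face `(c, true)` -/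
def wt (g : Gc κ lam ν) (T : ℝ) (c : Fin g.k) (t : Tk g.k) : ℝ :=
  smoothTransition (t c - if g.wl c = none then 0 else T)

open Classical in
/-- the projection to the face `(c, s)` -/
def pj (g : Gc κ lam ν) (c : Fin g.k) (s : Bool) (t : Tk g.k) : Tk g.k :=
  bif s then (if g.wl c = none then update t c 1 else t) else update t c 0

/-- the blend of two functions -/
def bl (T : ℝ) (c : Fin g.k) (h : Bool → Sc g) : Sc g := fun t =>
  (1 - wt g T c t) • h false (pj g c false t) + wt g T c t • h true (pj g c true t)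

theorem ok_add {f' : Sc g} (h : g.OK) (a : f.OK) (b : f'.OK) : Sc.OK (f + f') := by
  obtain ⟨K, k1, k2⟩ := ok_cpt h a
  obtain ⟨K', k3, k4⟩ := ok_cpt h b
  exact ok_of (fun t _ x => (a.sm t trivial x).add (b.sm t trivial x)) (k1.union k3) (fun t x hx => by
    simp [k2 t x fun j => hx (.inl j), k4 t x fun j => hx (.inr j)]) fun t => by
    simp only [Pi.add_apply, ← a.ret, ← b.ret]

theorem ok_smul (a : f.OK) {w : Tk g.k → ℝ} (hw : ContDiff ℝ ∞ w) (e : ∀ t, w (g.clp t) = w t) :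
    Sc.OK (g := g) fun t => w t • f t :=
  ⟨fun t _ x => (JAt.of_par hw.contDiffAt).mul (a.sm t trivial x),
    a.cf.imp fun _ k t x hx => by simp [k t x hx], fun t => by simp only [e, ← a.ret]⟩

theorem ok_sub {f' : Sc g} (h : g.OK) (a : f.OK) (b : f'.OK) : Sc.OK (f - f') := by
  convert ok_add h a (ok_smul b (contDiff_const (c := -1)) fun _ => rfl) using 1
  funext t; simp [sub_eq_add_neg]

theorem ok_zero : Sc.OK (g := g) 0 :=
  ⟨fun _ _ _ => contMDiffAt_const, ⟨0, fun _ _ _ => rfl⟩, fun _ => rfl⟩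

theorem ok_upd (a : f.OK) (c : Fin g.k) (v : ℝ) : Sc.OK (g := g) fun t => f (update t c v) :=
  ⟨fun t _ x => (a.sm _ trivial x).reparam (φ := fun t : Tk g.k => update t c v)
    (contDiff_pi.2 fun j => by
      rcases eq_or_ne j c with rfl | k
      · simpa using contDiff_const
      · simpa [k] using contDiff_apply ℝ ℝ j).contDiffAt, a.cf.imp fun _ k t => k _, fun t => by
    rw [a.ret, a.ret (update _ _ _)]
    congr 1
    funext j
    rcases eq_or_ne j c with rfl | k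
    · simp [Bs.clp]
    · rcases e : g.wl j with _ | i <;> simp [Bs.clp, k, e]⟩

theorem ok_bl (h : g.OK) (hT : 0 ≤ T) {H : Bool → Sc g} (a : ∀ s, (H s).OK) : (bl T c H).OK := by
  have w1 : ContDiff ℝ ∞ (wt g T c) :=
    smoothTransition.contDiff.comp ((contDiff_apply ℝ ℝ c).sub contDiff_const)
  have w2 : ∀ t, wt g T c (g.clp t) = wt g T c t := fun t => by
    rcases e : g.wl c with _ | i <;> simp only [wt, Bs.clp, e, Option.elim, reduceCtorEq, if_true, if_false]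
    · rcases le_total (t c) 0 with k | k
      · simp [k, smoothTransition.zero_of_nonpos]
      · rcases le_total (t c) 1 with k' | k' <;> simp [k, k', smoothTransition.one_of_one_le]
    · rcases le_total (t c) 0 with k | k
      · rw [max_eq_left k, smoothTransition.zero_of_nonpos (by linarith),
          smoothTransition.zero_of_nonpos (by linarith)]
      · rw [max_eq_right k]
  refine ok_add h (ok_smul (ok_upd (a false) c 0) (contDiff_const.sub w1) fun t => by rw [w2])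
    (ok_smul (f := fun t => H true (pj g c true t)) ?_ w1 w2)
  by_cases hc : g.wl c = none <;> simp only [pj, hc, cond_true, if_true, if_false]
  exacts [ok_upd (a true) c 1, a true]

theorem bl_at (hT : 0 ≤ T) {H : Bool → Sc g} (k : At g (T + 1) c s t) : bl T c H t = H s t := by
  cases s
  · have e : t c = 0 := k
    rw [bl, wt, smoothTransition.zero_of_nonpos (by split_ifs <;> linarith), pj, cond_false,
      update_eq_self_iff.2 e.symm]
    simp
  · by_cases hc : g.wl c = none <;> simp only [At, hc, cond_true, if_true, if_false] at k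
    · simp [bl, wt, pj, hc, k, (update_eq_self_iff (f := t)).2 k.symm]
    · simp [bl, wt, pj, hc, smoothTransition.one_of_one_le (le_sub_iff_add_le'.2 k)]

theorem bl_zero {H : Bool → Sc g} (ht : t ∈ g.dom) (k : ∀ s, ∀ u ∈ g.dom, At g T c s u →
    (∀ j ≠ c, u j = t j) → H s u = 0) : bl T c H t = 0 := by
  have u : ∀ v ∈ Icc (0 : ℝ) 1, update t c v ∈ g.dom := fun v hv j => by
    rcases eq_or_ne j c with rfl | n
    · simp [hv.1, hv.2]
    · simpa [n] using ht j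
  rw [bl, k false (pj g c false t) (u 0 (by simp)) (by simp [At, pj]) fun j n => by simp [pj, n]]
  by_cases hc : g.wl c = none
  · rw [k true _ (by simpa [pj, hc] using u 1 (by simp)) (by simp [At, pj, hc])
      fun j n => by simp [pj, hc, n]]
    simp
  · rcases le_total T (t c) with h | h
    · rw [k true _ (by simpa [pj, hc]) (by simpa [At, pj, hc]) fun j n => by simp [pj, hc]]
      simp
    · simp [wt, hc, smoothTransition.zero_of_nonpos (sub_nonpos.2 h)]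

variable {mk : Mk κ lam ν}

/-- **EXT-A**, for functions that are good on the faces of the faces -/
theorem extA (hw : τ.WF mk) (h1 : ∀ y, Nod.Ch ⟨g, τ⟩ y → (F y).OK ∧ Con y (F y) F)
    (h2 : ∀ y z, Nod.Ch ⟨g, τ⟩ y → y.Ch z → (F z).OK) : ∃ f : Sc g, f.OK ∧ Con ⟨g, τ⟩ f F := by
  have ok := τ.nd.ok
  have : ∀ c s, ∃ X : Sc g, X.OK ∧ ∀ᶠ T in atTop, ∀ t, At g T c s t →
      X t = ((τ.pcs c s).map (pv F t)).sum := fun c s => by
    cases s
    · exact ⟨_, ok_psh (τ.nd.f0 c).2 ⟨0, zero_dom _, rfl⟩ (τ.f0 c).nd.ok (h1 _ ⟨c, .inl rfl⟩).1,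
        .of_forall fun T t _ => by simp [Tr.pcs, pv]⟩
    have a := (h1 _ ⟨c, .inr (.inl rfl)⟩).1
    by_cases hc : g.wl c = none
    · exact ⟨_, ok_psh (τ.nd.f1 c hc).2.2 (one_ne hc) (τ.f1 c).nd.ok a,
        .of_forall fun T t _ => (pcs_nw (τ := τ) hc (pv F t)).symm⟩
    · obtain ⟨T₀, X, x1, x2⟩ := extW mk ⟨g, τ⟩ hw c hc _ _ a (h1 _ ⟨c, .inr (.inr ⟨hc, rfl⟩)⟩).1
      exact ⟨X, x1, (eventually_ge_atTop T₀).mono fun T hT t k =>
        (x2 t (hT.trans (by simpa [At, hc] using k))).trans (pcs_wl hc).symm⟩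
  choose X x1 x2 using this
  obtain ⟨T, t0, t1, t2⟩ := ((eventually_ge_atTop 0).and ((eventually_all.2 fun c => eventually_all.2
    (x2 c)).and (eventually_all.2 fun c => eventually_all.2 fun c' => eventually_all.2 fun n : c ≠ c' =>
      eventually_all.2 fun s => eventually_all.2 (corner hw.all.2.1 h1 h2 n s)))).exists
  have m : ∀ {c s t}, At g (T + 1) c s t → At g T c s t := fun k => k.mono (by linarith)
  suffices ∃ f : Sc g, f.OK ∧ ∀ c s, ∀ t ∈ g.dom, At g (T + 1) c s t → f t = X c s t from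
    this.imp fun f h => ⟨h.1, cn_con h.1 (fun y k => (h1 y k).1) fun c s t ht k =>
      (h.2 c s t ht k).trans (t1 c s t (m k))⟩
  rcases isEmpty_or_nonempty (Fin g.k) with e | ⟨⟨c⟩⟩
  · exact ⟨0, ok_zero, fun c => e.elim c⟩
  by_cases n : ∀ c', c' = c
  · exact ⟨_, ok_bl ok t0 (x1 c), fun c' s t _ k => by rw [n c'] at k ⊢; exact bl_at t0 k⟩
  obtain ⟨c', n⟩ := not_forall.1 n
  have q := ok_bl (c := c) ok t0 (x1 c)
  refine ⟨_, ok_add ok q (ok_bl (c := c') ok t0 fun s => ok_sub ok (x1 c' s) q), fun j s t ht k => ?_⟩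
  rcases eq_or_ne j c with rfl | e
  · rw [Pi.add_apply, bl_at t0 k, bl_zero ht fun s' u hu a b => ?_, add_zero]
    have k' : At g (T + 1) j s u := by simpa only [At, b j (Ne.symm n)] using k
    rw [Pi.sub_apply, bl_at t0 k', t1 _ _ _ a, t1 _ _ _ (m k'), t2 _ _ n _ _ u hu a (m k'), sub_self]
  · obtain rfl := two ok.k2 (Ne.symm n) e
    rw [Pi.add_apply, bl_at t0 k, Pi.sub_apply, add_sub_cancel]

theorem con_congr {x : Nod κ lam ν} {f : Sc x.1} {F' : ∀ x : Nod κ lam ν, Sc x.1} (h : Con x f F)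
    (e : ∀ y, x.Ch y → F' y = F y) : Con x f F' :=
  ⟨fun c => e _ ⟨c, .inl rfl⟩ ▸ h.f0 c, fun c => e _ ⟨c, .inr (.inl rfl)⟩ ▸ h.f1 c, fun c k =>
    e _ ⟨c, .inr (.inl rfl)⟩ ▸ e _ ⟨c, .inr (.inr ⟨k, rfl⟩)⟩ ▸ h.wl c k⟩

theorem cld_ch {𝒦 : Set (Nod κ lam ν)} (h : Cld 𝒦) {x y : Nod κ lam ν} (hx : x ∈ 𝒦) (k : x.Ch y) :
    y ∈ 𝒦 := by
  obtain ⟨c, rfl | rfl | ⟨k, rfl⟩⟩ := k
  exacts [(h x hx c).1, (h x hx c).2.1, (h x hx c).2.2 k]

open Classical in
/-- **EXT-G** -/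
theorem extG (mk : Mk κ lam ν) : ExtGStmt mk := fun 𝒦 hc hw x _ f hf h0 => by
  have : ∀ n, x.1.k < n → ∃ F : ∀ y : Nod κ lam ν, Sc y.1, F x = f ∧
      ∀ y ∈ 𝒦, y.1.k < n → (F y).OK ∧ Con y (F y) F := fun n hn => by
    induction n, hn using Nat.le_induction with
    | base =>
      refine ⟨update 0 x f, update_self .., fun y _ k => ?_⟩
      have e : ∀ z, y.Ch z → update (0 : ∀ y : Nod κ lam ν, Sc y.1) x f z = 0 := fun z j =>
        update_of_ne (fun e => by have := ch_lt j; rw [e] at this; omega) _ _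
      rcases eq_or_ne y x with rfl | n
      · rw [update_self]
        exact ⟨hf, con_congr h0 e⟩
      · rw [update_of_ne n]
        exact ⟨ok_zero, con_congr (F := 0) ⟨fun _ _ _ _ _ => rfl, fun _ _ _ _ _ _ => rfl,
          fun _ _ => ⟨0, fun _ _ => by simp [psh_zero]⟩⟩ e⟩
    | succ n hn ih =>
      obtain ⟨F, e, k⟩ := ih
      have : ∀ y : Nod κ lam ν, ∃ f : Sc y.1, (y.1.k < n → f = F y) ∧
          (y ∈ 𝒦 → y.1.k < n + 1 → f.OK ∧ Con y f F) := fun y => by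
        by_cases h : y ∈ 𝒦 ∧ y.1.k = n
        · exact (extA (hw y h.1) (fun z j => k z (cld_ch hc h.1 j) (h.2 ▸ ch_lt j)) fun z z' j j' =>
            (k z' (cld_ch hc (cld_ch hc h.1 j) j') (h.2 ▸ (ch_lt j').trans (ch_lt j))).1).imp
            fun f a => ⟨fun j => (j.ne h.2).elim, fun _ _ => a⟩
        · exact ⟨F y, fun _ => rfl, fun a b => k y a (by have := not_and.1 h a; omega)⟩
      choose F' a b using this
      exact ⟨F', (a x hn).trans e, fun y hy j => ⟨(b y hy j).1,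
        con_congr (b y hy j).2 fun z i => a z (by have := ch_lt i; omega)⟩⟩
  exact (this (x.1.k + 3) (by omega)).imp fun F h => ⟨h.1, fun y hy => h.2 y hy (by
    have := y.2.nd.ok.k2; omega)⟩

end Crest.Agent.X212.Hp13.Ext
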