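import Crest.Agent.X212.Flo2.Ext

/-!
# X212 / Hp13 (helper13): extension by zero along a stretched neck
-/

set_option autoImplicit false
set_option linter.unusedSectionVars false
noncomputable section
open scoped Manifold ContDiff Topology
open Set Function Filter

namespace Crest.Agent.X212.Hp13.Ext
open Flo2 (psh)
open M (Mf)
open Prm93 (JAt JS)

section psh
variable {A B C : Type} [TopologicalSpace A] [TopologicalSpace B] [TopologicalSpace C]
  {φ ψ : OpenPartialHomeomorph A B} {f f' : A → ℝ} {x : A} {y : B}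

theorem psh_app (h : x ∈ φ.source) : psh φ f (φ x) = f x := by
  simp [psh, indicator_of_mem (φ.map_source h), φ.left_inv h]

theorem psh_ne (h : psh φ f y ≠ 0) : ∃ x ∈ φ.source, φ x = y ∧ f x ≠ 0 := by
  have k : y ∈ φ.target := by_contra fun k => h (indicator_of_notMem k _)
  exact ⟨_, φ.map_target k, φ.right_inv k, by rwa [psh, indicator_of_mem k] at h⟩

theorem psh_add : psh φ (f + f') = psh φ f + psh φ f' := indicator_add' _ (f ∘ φ.symm) (f' ∘ φ.symm)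

theorem psh_zero : psh φ (0 : A → ℝ) = 0 := indicator_zero' _

theorem psh_sum (L : List (A → ℝ)) : psh φ L.sum = (L.map (psh φ)).sum := by
  induction L with
  | nil => exact psh_zero
  | cons a L ih => rw [List.sum_cons, psh_add, ih, List.map_cons, List.sum_cons]

theorem psh_trans (χ : OpenPartialHomeomorph B C) : psh (φ.trans χ) f = psh χ (psh φ f) := by
  funext z
  by_cases h : z ∈ χ.target <;> by_cases k : χ.symm z ∈ φ.target <;> simp [psh, h, k]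

theorem psh_congr (h : ∀ x, f x ≠ 0 → x ∈ φ.source ∧ x ∈ ψ.source ∧ φ x = ψ x) :
    psh φ f = psh ψ f := by
  funext y
  by_cases k : psh φ f y = 0
  · by_contra e
    obtain ⟨x, -, rfl, h2⟩ := psh_ne (k ▸ Ne.symm e : psh ψ f y ≠ 0)
    rw [← (h x h2).2.2, psh_app (h x h2).1] at k
    exact h2 k
  · obtain ⟨x, h1, rfl, h2⟩ := psh_ne k
    rw [psh_app h1, (h x h2).2.2, psh_app (h x h2).2.1]

theorem eq_psh (hs : φ.source = univ) (ht : φ.target = univ) {g : B → ℝ} :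
    g = psh φ f ↔ ∀ x, g (φ x) = f x :=
  ⟨fun h x => h ▸ psh_app (hs ▸ trivial), fun h => funext fun y => by
    have k : y ∈ φ.target := ht ▸ trivial
    rw [← φ.right_inv k, h, psh_app (φ.map_target k)]⟩

/-- compact sets are eventually mapped into a compact set -/
def Exh (l : ℝ → OpenPartialHomeomorph A B) : Prop := ∀ K, IsCompact K → ∃ T K', IsCompact K' ∧
  ∀ u ≥ T, K ⊆ (l u).source ∧ MapsTo (l u) K K'

theorem exh_const (h : φ.source = univ) : Exh fun _ => φ := fun K k =>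
  ⟨0, φ '' K, k.image_of_continuousOn (φ.continuousOn.mono (h ▸ subset_univ _)), fun _ _ =>
    ⟨h ▸ subset_univ _, mapsTo_image _ _⟩⟩

theorem Exh.trans {l : ℝ → OpenPartialHomeomorph B C} (e : Exh l) (h : φ.source = univ) :
    Exh fun u => φ.trans (l u) := fun K k => by
  obtain ⟨T₁, K₁, a, b⟩ := exh_const h K k
  obtain ⟨T, K', c, d⟩ := e K₁ a
  exact ⟨T, K', c, fun u hu => ⟨fun x hx => ⟨(b T₁ le_rfl).1 hx, (d u hu).1 ((b T₁ le_rfl).2 hx)⟩,
    fun x hx => (d u hu).2 ((b T₁ le_rfl).2 hx)⟩⟩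

end psh

variable {X X₁ X₂ : Mf 4} {Y : Mf 3} {T : Type} [NormedAddCommGroup T] [NormedSpace ℝ T]

/-- one side of a stretched neck `n` of length `v` -/
structure Sd (v : T → ℝ) (l : ℝ → OpenPartialHomeomorph X₁.M X.M) (n : T → Y.M × ℝ → X.M) where
  d : X₁.M → ℝ
  χ : Y.M × ℝ → X₁.M
  ε : ℝ
  pos : 0 < ε
  cd : Continuous d
  src : ∀ u ≥ 3, (l u).source = {x | d x < u}
  sm : ContMDiffOn X.I X₁.I ∞ (l 3).symm (l 3).target
  fix : ∀ u ≥ 3, ∀ x, d x ≤ ε → l u x = l 3 x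
  sχ : ContMDiffOn (Y.I.prod 𝓘(ℝ, ℝ)) X₁.I ∞ χ (univ ×ˢ Ioi 0)
  dχ : ∀ y, ∀ u > 0, d (χ (y, u)) = u
  sur : ∀ x, 0 < d x → ∃ y, χ (y, d x) = x
  nk : ∀ t, 3 ≤ v t → ∀ y, ∀ u ∈ Ioo 0 (v t), l (v t) (χ (y, u)) = n t (y, u)

/-- the neck coordinates are smooth -/
def NS (v : T → ℝ) (n : T → Y.M × ℝ → X.M) : Prop := ∀ t, 3 < v t → ∀ y, ∀ u ∈ Ioo 0 (v t),
  ∃ π : T × X.M → Y.M × ℝ, ContMDiffAt (𝓘(ℝ, T).prod X.I) (Y.I.prod 𝓘(ℝ, ℝ)) ∞ π (t, n t (y, u)) ∧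
    ∀ᶠ z in 𝓝 (t, n t (y, u)), (π z).2 ∈ Ioo 0 (v z.1) ∧ n z.1 (π z) = z.2

variable {v : T → ℝ} {l : ℝ → OpenPartialHomeomorph X₁.M X.M}
  {r : ℝ → OpenPartialHomeomorph X₂.M X.M} {n n' : T → Y.M × ℝ → X.M}

theorem Sd.out (S : Sd v l n) {t : T} (ht : 3 ≤ v t) {x : X₁.M} (hx : x ∈ (l (v t)).source)
    (h : 0 < S.d x) : l (v t) x ∈ n t '' (univ ×ˢ Ioo 0 (v t)) := by
  obtain ⟨y, e⟩ := S.sur x h
  rw [S.src _ ht] at hx
  exact ⟨(y, S.d x), ⟨trivial, h, hx⟩, by rw [← S.nk t ht y _ ⟨h, hx⟩, e]⟩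

theorem Sd.nbh (S : Sd v l n) {t : T} (ht : 3 ≤ v t) {x : X.M} (hx : x ∈ (l (v t)).target)
    (h : x ∉ n t '' (univ ×ˢ Ioo 0 (v t))) : ∀ᶠ x' in 𝓝 x, x' ∈ (l 3).target ∧
      S.d ((l 3).symm x') < 3 ∧ ∀ u ≥ 3, l u ((l 3).symm x') = x' := by
  obtain ⟨a, ha, rfl⟩ : ∃ a ∈ (l (v t)).source, l (v t) a = x :=
    ⟨_, (l _).map_target hx, (l _).right_inv hx⟩
  have k : S.d a ≤ 0 := not_lt.1 fun k => h (S.out ht ha k)
  have p := S.pos
  have a3 : a ∈ (l 3).source := by rw [S.src 3 le_rfl]; exact k.trans_lt (by norm_num)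
  rw [S.fix _ ht a (k.trans p.le)]
  have := ((l 3).isOpen_inter_preimage_symm (isOpen_lt S.cd (continuous_const (y := min S.ε 3)))).mem_nhds
    (x := l 3 a) ⟨(l 3).map_source a3, by
      rw [mem_preimage, (l 3).left_inv a3]; exact k.trans_lt (lt_min p (by norm_num))⟩
  filter_upwards [this] with x' hx'
  exact ⟨hx'.1, hx'.2.trans_le (min_le_right _ _), fun u hu => by
    rw [S.fix u hu _ (hx'.2.le.trans (min_le_left _ _)), (l 3).right_inv hx'.1]⟩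

theorem Sd.eq (S : Sd v l n) {t : T} (ht : 3 ≤ v t) {x : X₁.M} (hx : x ∈ (l (v t)).source) {y : Y.M}
    {u : ℝ} (hu : u ∈ Ioo 0 (v t)) (e : l (v t) x = n t (y, u)) : S.d x = u := by
  rw [(l _).injOn hx (by rw [S.src _ ht, mem_ofPred, S.dχ y u hu.1]; exact hu.2)
    (e.trans (S.nk t ht y u hu).symm), S.dχ y u hu.1]

theorem Sd.jat (S : Sd v l n) (S' : Sd v r n') (hn : NS v n) (hv : Continuous v)
    (e : ∀ t, 3 ≤ v t → ∀ y u, n' t (y, v t - u) = n t (y, u))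
    (cov : ∀ t, 3 ≤ v t → ∀ x, x ∈ (l (v t)).target ∨ x ∈ (r (v t)).target)
    (cap : ∀ t, 3 ≤ v t → ∀ x ∈ (l (v t)).target, x ∈ (r (v t)).target →
      x ∈ n t '' (univ ×ˢ Ioo 0 (v t)))
    {f : T → X₁.M → ℝ} (hf : JS X₁.I univ f) {K : Set X₁.M} (hK : IsCompact K)
    (h0 : ∀ t, ∀ x ∉ K, f t x = 0) :
    ∃ T₀, ∀ t, T₀ < v t → ∀ x, JAt X.I (fun t => psh (l (v t)) (f t)) t x := by
  obtain ⟨R, hR⟩ := hK.bddAbove_image S.cd.continuousOn
  refine ⟨max 3 (R + 3), fun t ht x => ?_⟩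
  have t3 : 3 < v t := (le_max_left _ _).trans_lt ht
  have ev : ∀ᶠ z : T × X.M in 𝓝 (t, x), max 3 (R + 3) < v z.1 :=
    (isOpen_lt continuous_const (hv.comp continuous_fst)).mem_nhds ht
  by_cases k : x ∈ n t '' (univ ×ˢ Ioo 0 (v t))
  · obtain ⟨⟨y, u⟩, hu, rfl⟩ := k
    obtain ⟨π, p1, p2⟩ := hn t t3 y u hu.2
    refine ContMDiffAt.congr_of_eventuallyEq (f := fun z => f z.1 (S.χ (π z)))
      (ContMDiffAt.comp (g := fun z : T × X₁.M => f z.1 z.2) (f := fun z => (z.1, S.χ (π z))) _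
        (hf _ trivial _) (contMDiffAt_fst.prodMk ((S.sχ.contMDiffAt ((isOpen_univ.prod isOpen_Ioi).mem_nhds
          ⟨trivial, p2.self_of_nhds.1.1⟩)).comp _ p1))) ?_
    filter_upwards [ev, p2] with z z1 z2
    have z3 := ((le_max_left _ _).trans_lt z1).le
    rw [← z2.2, ← S.nk z.1 z3 (π z).1 _ z2.1, psh_app (by
      rw [S.src _ z3, mem_ofPred, S.dχ _ _ z2.1.1]; exact z2.1.2)]
  rcases cov t t3.le x with c | c
  · have N := S.nbh t3.le c k
    refine ContMDiffAt.congr_of_eventuallyEq (f := fun z => f z.1 ((l 3).symm z.2))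
      (ContMDiffAt.comp (g := fun z : T × X₁.M => f z.1 z.2) (f := fun z : T × X.M => (z.1, (l 3).symm z.2)) _
        (hf _ trivial _) (contMDiffAt_fst.prodMk ((S.sm.contMDiffAt ((l 3).open_target.mem_nhds
          N.self_of_nhds.1)).comp _ contMDiffAt_snd))) ?_
    filter_upwards [ev, (continuous_snd.tendsto (t, x)).eventually N] with z z1 z2
    have z3 := ((le_max_left _ _).trans_lt z1).le
    conv_lhs => rw [← z2.2.2 _ z3]
    exact psh_app (by rw [S.src _ z3]; exact z2.2.1.trans_le z3)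
  · have N := S'.nbh t3.le c fun ⟨p, h1, h2⟩ => k ⟨(p.1, v t - p.2),
      ⟨trivial, sub_pos.2 h1.2.2, sub_lt_self _ h1.2.1⟩, by rw [← e t t3.le, sub_sub_cancel, h2]⟩
    refine ContMDiffAt.congr_of_eventuallyEq (f := fun _ => 0) contMDiffAt_const ?_
    filter_upwards [ev, (continuous_snd.tendsto (t, x)).eventually N] with z z1 z2
    have z3 := ((le_max_left _ _).trans_lt z1).le
    by_contra h
    obtain ⟨a, a1, a2, a3⟩ := psh_ne h
    have b1 : (r 3).symm z.2 ∈ (r (v z.1)).source := by rw [S'.src _ z3]; exact z2.2.1.trans_le z3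
    obtain ⟨⟨y, u⟩, hu, e'⟩ := cap z.1 z3 z.2 (a2 ▸ (l _).map_source a1)
      (z2.2.2 _ z3 ▸ (r _).map_source b1)
    have h1 := S.eq z3 a1 hu.2 (a2.trans e'.symm)
    have h2 := S'.eq z3 b1 (y := y) ⟨sub_pos.2 hu.2.2, sub_lt_self _ hu.2.1⟩
      (by rw [z2.2.2 _ z3, e _ z3, e'])
    have h3 := hR (mem_image_of_mem _ (by_contra fun j => a3 (h0 _ a j)))
    have h4 := (le_max_right _ _).trans_lt z1
    linarith [z2.2.1]

theorem Sd.exh (S : Sd v l n) (hv : Surjective v) {K₀ : Set X.M} (h₀ : IsCompact K₀)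
    (h : ∀ t, 3 ≤ v t → n t '' (univ ×ˢ Ioo 0 (v t)) ⊆ K₀) : Exh l := fun K hK => by
  obtain ⟨R, hR⟩ := hK.bddAbove_image S.cd.continuousOn
  refine ⟨max 3 (R + 1), l 3 '' (K ∩ {x | S.d x ≤ 0}) ∪ K₀,
    ((hK.inter_right (isClosed_le S.cd continuous_const)).image_of_continuousOn
      ((l 3).continuousOn.mono fun x hx => ?_)).union h₀, fun u hu => ?_⟩
  · rw [S.src 3 le_rfl]
    exact (show S.d x ≤ 0 from hx.2).trans_lt three_pos
  obtain ⟨t, rfl⟩ := hv u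
  have t3 := (le_max_left _ _).trans hu
  have s : K ⊆ (l (v t)).source := fun x hx => by
    rw [S.src _ t3]
    exact (hR (mem_image_of_mem _ hx)).trans_lt ((lt_add_one R).trans_le ((le_max_right _ _).trans hu))
  refine ⟨s, fun x hx => ?_⟩
  by_cases k : S.d x ≤ 0
  · exact Or.inl ⟨x, ⟨hx, k⟩, (S.fix _ t3 x (k.trans S.pos.le)).symm⟩
  · exact Or.inr (h t t3 (S.out t3 (s hx) (not_le.1 k)))

end Crest.Agent.X212.Hp13.Ext
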