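import Crest.Agent.X212.Hp13.ExtS

/-!
# X212 / Hp13 (helper13): EXT-W, the functions at a wall
-/

set_option autoImplicit false
set_option linter.unusedSectionVars false
noncomputable section
open scoped Manifold ContDiff Topology
open Set Function Filter

namespace Crest.Agent.X212.Hp13.Ext
open Flo2 Sw
open M (Mf pm)
open Nd18 (Jv)
open Prm93 (JAt JS)

variable {κ lam ν : Type} [Fintype κ] [Fintype lam] [Fintype ν] [DecidableEq ν]

/-- cross-sections of equal types -/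
def cst {ε ε' : Ty κ lam ν} (h : ε = ε') (y : ε.en.Y.M) : ε'.en.Y.M := h ▸ y

theorem cst_sm {ε ε' : Ty κ lam ν} (h : ε = ε') : ContMDiff ε.en.Y.I ε'.en.Y.I ∞ (cst h) := by
  subst h; exact contMDiff_id

theorem cst_sur {ε ε' : Ty κ lam ν} (h : ε = ε') : Surjective (cst h) := by
  subst h; exact surjective_id

theorem ψ_cst {ε ε' : Ty κ lam ν} (h : ε = ε') {X : Mf 4} {nc : ℕ} {b : Bg X.I X.M κ lam ν nc}
    (K : Nk ε.en b) (y : ε.en.Y.M) (τ : ℝ) : (h ▸ K : Nk ε'.en b).ψ (cst h y, τ) = K.ψ (y, τ) := by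
  subst h; rfl

section nk
variable {X : Mf 4} {nc : ℕ} {e : En3 κ lam ν} {b : Bg X.I X.M κ lam ν nc} (K : Nk e b)

/-- the origin of the side `s` -/
def org (s : Bool) : ℝ := (bif s then K.p else K.q).getD 0

theorem img {S : Set ℝ} (h : S ⊆ K.J) : K.ψ '' (univ ×ˢ S) = K.tm ⁻¹' S := by
  ext x
  refine ⟨?_, fun k => ?_⟩
  · rintro ⟨z, hz, rfl⟩
    rw [mem_preimage, K.tm_ψ z (K.src ▸ ⟨trivial, h hz.2⟩)]
    exact hz.2
  · have a : x ∈ K.ψ.target := K.tgt ▸ h k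
    exact ⟨_, ⟨trivial, by rw [← K.tm_ψ _ (K.ψ.map_target a), K.ψ.right_inv a]; exact k⟩,
      K.ψ.right_inv a⟩

theorem jv_fin {a v : ℝ} (hp : K.p = some a) (hq : K.q = some (a + v)) (s : Bool) (τ : ℝ) :
    τ ∈ K.J ↔ pm s * (τ - org K s) ∈ Ioo 0 v := by
  cases s <;> simp [Jv, org, pm, hp, hq, sub_lt_iff_lt_add', and_comm]

theorem jv_end {s : Bool} (h : K.Inf s) {o : ℝ} (ho : (bif s then K.p else K.q) = some o) (ε τ : ℝ) :
    τ ∈ K.deep ε ↔ ε < pm s * (τ - org K s) := by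
  cases s
  · simp [Nk.deep, Jv, org, pm, show K.p = none from h, show K.q = some o from ho, lt_sub_comm]
  · simp [Nk.deep, Jv, org, pm, show K.q = none from h, show K.p = some o from ho, lt_sub_iff_add_lt']

theorem deep0 : K.deep 0 = K.J := by simp [Nk.deep]

end nk

theorem pm_pm (s : Bool) (x : ℝ) : pm s * (pm s * x) = x := by cases s <;> simp [pm]

variable {g g₁ : Gc κ lam ν} {c : Fin g.k} {i : g.N}

/-- coordinates on the neck `i`, from the side `s` -/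
def nn (i : g.N) (x₀ : g.X.M) (s : Bool) (t : Tk g.k) (z : (g.ty i).en.Y.M × ℝ) : g.X.M :=
  ((g.P t).nk i).elim x₀ fun K => K.ψ (z.1, org K s + pm s * z.2)

theorem str (h : g.OK) (hi : g.wl c = some i) {t : Tk g.k} (ht : 3 ≤ t c) : g.𝓕.Str t i ∧
    ∃ K a, (g.P t).nk i = some K ∧ K.p = some a ∧ K.q = some (a + t c) := by
  obtain ⟨h1, -, h2⟩ := h.wl c i hi
  have h3 := (h2 t).2.2 ht
  have S := (h.fam.nk t (h.Q ▸ trivial) i h1).resolve_left fun k => by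
    have k := k.self_of_nhds
    rcases e : (g.P t).nk i with _ | K
    · rw [Pz.len, e] at h3
      linarith [show (2 : ℝ) = t c from h3]
    · obtain ⟨a, k1, k2⟩ := k K e
      rw [Pz.len, e, Option.elim_some, k1, k2] at h3
      linarith [show a + 2 - a = t c from h3]
  refine ⟨S, ?_⟩
  obtain ⟨K, e, a, b, k1, k2, -⟩ := S
  rw [Pz.len, show (g.P t).nk i = some K from e, Option.elim_some, k1, k2] at h3
  exact ⟨K, a, e, k1, by rw [k2, ← h3]; simp⟩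

theorem nn_img {t : Tk g.k} {K : Nk (g.ty i).en (g.P t).bg} (e : (g.P t).nk i = some K) {a : ℝ}
    (hp : K.p = some a) (hq : K.q = some (a + t c)) (x₀ : g.X.M) (s : Bool) :
    nn i x₀ s t '' (univ ×ˢ Ioo 0 (t c)) = K.ψ.target := by
  rw [← K.ψ.image_source_eq_target, K.src, show nn i x₀ s t = fun z => K.ψ (z.1, org K s + pm s * z.2)
    from funext fun z => by simp only [nn, e, Option.elim_some]]
  ext x
  exact ⟨fun ⟨z, a, b⟩ => ⟨_, ⟨trivial, (jv_fin K hp hq s _).2 (by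
    rw [add_sub_cancel_left, pm_pm]; exact a.2)⟩, b⟩, fun ⟨z, a, b⟩ =>
    ⟨(z.1, _), ⟨trivial, (jv_fin K hp hq s _).1 a.2⟩, by
      simp only [pm_pm, add_sub_cancel, b]⟩⟩

theorem ns (h : g.OK) (hi : g.wl c = some i) (x₀ : g.X.M) (s : Bool) :
    NS (fun t => t c) (nn i x₀ s) := fun t ht y u hu => by
  obtain ⟨⟨K', e, a, b, k1, k2, ℓ, V, hV, l1, l2⟩, K, a', e', p', q'⟩ := str h hi ht.le
  obtain rfl : K = K' := Option.some_injective _ (e'.symm.trans e)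
  have m : nn i x₀ s t (y, u) ∈ K.ψ.target :=
    nn_img e' p' q' x₀ s ▸ mem_image_of_mem _ ⟨trivial, hu⟩
  generalize nn i x₀ s t (y, u) = x at m
  have a1 : ContMDiffAt (𝓘(ℝ, Tk g.k).prod g.X.I) ((g.ty i).en.Y.I.prod 𝓘(ℝ, ℝ)) ∞
      (fun z : Tk g.k × g.X.M => K.ψ.symm z.2) (t, x) :=
    (K.iso.sm'.contMDiffAt (K.ψ.open_target.mem_nhds m)).comp _ contMDiffAt_snd
  have a2 : ∀ {w : Tk g.k × g.X.M → ℝ}, ContMDiffAt (𝓘(ℝ, Tk g.k).prod g.X.I) 𝓘(ℝ, ℝ) ∞ w (t, x) →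
      ContMDiffAt (𝓘(ℝ, Tk g.k).prod g.X.I) 𝓘(ℝ, ℝ) ∞ (fun z => ℓ (z.1, w z)) (t, x) := fun k =>
    ContDiffAt.comp_contMDiffAt (g := ℓ) (f := fun z : Tk g.k × g.X.M => (z.1, _))
      (l1.contDiffAt (prod_mem_nhds hV univ_mem)) (contMDiffAt_fst.prodMk_space k)
  refine ⟨fun z => ((K.ψ.symm z.2).1, pm s * (ℓ (z.1, (K.ψ.symm z.2).2) - ℓ (z.1, org K s))),
    a1.fst.prodMk (contMDiffAt_const.mul ((a2 a1.snd).sub (a2 contMDiffAt_const))), ?_⟩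
  filter_upwards [(continuous_fst.tendsto (t, x)).eventually hV, (continuous_snd.tendsto (t, x)).eventually
    (K.ψ.open_target.mem_nhds m), (isOpen_lt continuous_const
      ((continuous_apply c).comp continuous_fst)).mem_nhds ht] with z z1 z2 z3
  obtain ⟨d, L', e1, p, q, k⟩ := l2 z.1 z1
  obtain ⟨-, L, a'', e2, p2, q2⟩ := str h hi (le_of_lt z3)
  obtain rfl : L = L' := Option.some_injective _ (e2.symm.trans e1)
  have w : (K.ψ.symm z.2).2 ∈ Ioo a b := by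
    have : _ ∈ Jv K.p K.q := (K.src ▸ K.ψ.map_target z2).2
    simpa [Jv, k1, k2] using this
  have o : org L s = ℓ (z.1, org K s) := by cases s <;> simp [org, p, q, k1, k2]
  have mo := strictMono_of_deriv_pos d
  refine ⟨o ▸ (jv_fin L p2 q2 s _).1 (by simpa [Jv, p, q] using ⟨mo w.1, mo w.2⟩), ?_⟩
  simp only [nn, e2, Option.elim_some]
  rw [pm_pm, o, add_sub_cancel, k _ _ w]
  exact K.ψ.right_inv z2

theorem nn_flip (h : g.OK) (hi : g.wl c = some i) (x₀ : g.X.M) (s : Bool) (t : Tk g.k) (ht : 3 ≤ t c)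
    (y : (g.ty i).en.Y.M) (u : ℝ) : nn i x₀ (!s) t (y, t c - u) = nn i x₀ s t (y, u) := by
  obtain ⟨-, K, a, e, p, q⟩ := str h hi ht
  simp only [nn, e, Option.elim_some]
  congr 2
  cases s
  · simp [org, pm, p, q]; ring
  · simp [org, pm, p, q]

theorem nn_core (h : g.OK) (hi : g.wl c = some i) (x₀ : g.X.M) (s : Bool) (t : Tk g.k) (ht : 3 ≤ t c) :
    nn i x₀ s t '' (univ ×ˢ Ioo 0 (t c)) ⊆ g.s.core 0 := by
  obtain ⟨-, K, a, e, p, q⟩ := str h hi ht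
  rw [nn_img e p q]
  rintro x hx j b L hL - ⟨z, hz, rfl⟩
  obtain ⟨L', e1, e2⟩ := h.fam.en t (h.Q ▸ trivial) j L hL
  have n : i ≠ j := fun k => by subst k; simp [(h.wl c i hi).1] at hL
  refine disjoint_left.1 ((h.fam.ok t (h.Q ▸ trivial)).dj n K e L' e1) hx ?_
  rw [show L'.ψ = L.ψ from congrArg (·.2.2.1) e2]
  exact L.ψ.map_source (L.src ▸ ⟨trivial, hz.2.1⟩)

theorem sd_of (h : g.OK) (h₁ : g₁.OK) (hi : g.wl c = some i) {j : g₁.N} {s : Bool}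
    {ι : Fin g₁.k → Fin g.k} {l : ℝ → OpenPartialHomeomorph g₁.X.M g.X.M} {δ : ℝ → ℝ}
    {r : g₁.N → g.N → Prop} {e : Fin g₁.nc → Fin g.nc}
    (H : ∀ t, 3 ≤ t c → Hlf (en := Ty.en) (ty := g.ty) (ty₁ := g₁.ty) (g.P t) i (g₁.P (t ∘ ι)) j s
      (l (t c)) (δ (t c)) r e) (hs : g₁.s.Inf j s) {ε : ℝ} (hε : 0 < ε)
    (fx : ∀ K ∈ g₁.s.nk j, ∀ x ∉ K.ψ '' (univ ×ˢ K.deep ε), ∀ v ≥ 3, l v x = l 3 x) (x₀ : g.X.M) :
    Nonempty (Sd (fun t => t c) l (nn i x₀ s)) := by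
  obtain ⟨L, hL, hs⟩ := hs
  obtain ⟨h0, -⟩ := (H (fun _ => 3) le_rfl).nk
  have key : ∀ t, 3 ≤ t c → (∃ o, (bif s then L.p else L.q) = some o) ∧
      (l (t c)).source = {x | pm s * (L.tm x - org L s) < t c} ∧ ∀ y, ∀ u ∈ Ioo 0 (t c),
        l (t c) (L.ψ (cst h0 y, org L s + pm s * u)) = nn i x₀ s t (y, u) := fun t ht => by
    obtain ⟨-, K, a, e1, p, q⟩ := str h hi ht
    obtain ⟨_, K', e2, K₁, e3, -, k1, k2, k3⟩ := (H t ht).nk
    obtain rfl : K = K' := Option.some_injective _ (e1.symm.trans e2)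
    obtain ⟨L', e4, e5⟩ := h₁.fam.en (t ∘ ι) (h₁.Q ▸ trivial) j L hL
    obtain rfl : K₁ = L' := Option.some_injective _ (e3.symm.trans e4)
    have b1 : K₁.p = L.p := congrArg (·.1) e5
    have b2 : K₁.q = L.q := congrArg (·.2.1) e5
    have b3 : K₁.ψ = L.ψ := congrArg (·.2.2.1) e5
    obtain ⟨o, o1, o2⟩ : ∃ o, (bif s then L.p else L.q) = some o ∧ org K s = org L s + δ (t c) := by
      cases s
      · obtain ⟨o, o1, o2⟩ := Option.map_eq_some_iff.1 (k1.symm.trans q)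
        exact ⟨o, b2 ▸ o1, by simp [org, q, ← b2, o1, o2]⟩
      · obtain ⟨o, o1, o2⟩ := Option.map_eq_some_iff.1 (k1.symm.trans p)
        exact ⟨o, b1 ▸ o1, by simp [org, p, ← b1, o1, o2]⟩
    have j1 : ∀ τ, τ ∈ L.J ↔ 0 < pm s * (τ - org L s) := fun τ => deep0 L ▸ jv_end L hs o1 0 τ
    have j2 : ∀ τ, τ + δ (t c) ∈ K.J ↔ pm s * (τ - org L s) ∈ Ioo 0 (t c) := fun τ => by
      rw [jv_fin K p q s, o2, add_sub_add_right_eq_sub]
    rw [Nd18.Nk.J, b1, b2, b3] at k2 k3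
    refine ⟨⟨o, o1⟩, ?_, fun y u hu => ?_⟩
    · rw [k2, img L fun _ k => k.1]
      ext x
      simp only [mem_ofPred, mem_preimage, j1, j2, mem_Ioo]
      exact ⟨fun k => not_le.1 fun m => k ⟨by linarith, fun n => n.2.not_ge m⟩,
        fun k m => m.2 ⟨m.1, k⟩⟩
    · have : pm s * (org L s + pm s * u - org L s) = u := by rw [add_sub_cancel_left, pm_pm]
      rw [k3 _ _ ((j1 _).2 (this.symm ▸ hu.1)) ((j2 _).2 (this.symm ▸ hu)), ψ_cst]
      simp only [nn, e1, Option.elim_some, o2, add_right_comm]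
  obtain ⟨⟨o, o1⟩, -⟩ := key (fun _ => 3) le_rfl
  have j1 : ∀ τ, τ ∈ L.J ↔ 0 < pm s * (τ - org L s) := fun τ => deep0 L ▸ jv_end L hs o1 0 τ
  have m : ∀ y, ∀ u > 0, (cst h0 y, org L s + pm s * u) ∈ L.ψ.source := fun y u hu =>
    L.src ▸ ⟨trivial, (j1 _).2 (by rwa [add_sub_cancel_left, pm_pm])⟩
  refine ⟨⟨fun x => pm s * (L.tm x - org L s), fun z => L.ψ (cst h0 z.1, org L s + pm s * z.2), ε, hε,
    continuous_const.mul (L.cont.sub continuous_const), fun u hu => (key (fun _ => u) hu).2.1,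
    (H (fun _ => 3) le_rfl).lit.iso.sm', fun u hu x hx => fx L hL x ?_ u hu,
    L.iso.sm.comp (((cst_sm h0).comp contMDiff_fst).prodMk
      (contMDiff_const.add (contMDiff_const.mul contMDiff_snd))).contMDiffOn fun z hz => m _ _ hz.2,
    fun y u hu => by rw [L.tm_ψ _ (m y u hu), add_sub_cancel_left, pm_pm], fun x hx => ?_,
    fun t ht => (key t ht).2.2⟩⟩
  · rw [img L fun τ k => (j1 τ).2 (hε.trans ((jv_end L hs o1 ε τ).1 k)), mem_preimage, jv_end L hs o1]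
    exact hx.not_gt
  · obtain ⟨z, z1, z2⟩ : x ∈ L.ψ '' (univ ×ˢ {L.tm x}) := by
      rw [img L (singleton_subset_iff.2 ((j1 _).2 hx))]; rfl
    obtain ⟨y, e⟩ := cst_sur h0 z.1
    exact ⟨y, by rw [pm_pm, add_sub_cancel, e, ← show z.2 = _ from z1.2, z2]⟩

/-- the walls correspond -/
def Mt (g₁ g : Gc κ lam ν) (ι : Fin g₁.k → Fin g.k) : Prop := ∀ c, g₁.wl c = none ↔ g.wl (ι c) = none

theorem mt_of {ι : Fin g₁.k → Fin g.k} {r : g₁.N → g.N → Prop} (h : ∀ c, (g₁.wl c = none ∧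
    g.wl (ι c) = none) ∨ ∃ i ∈ g₁.wl c, ∃ i' ∈ g.wl (ι c), r i i') : Mt g₁ g ι := fun c => by
  rcases h c with h | ⟨i, h1, i', h2, -⟩
  · simp [h]
  · simp [show g₁.wl c = some i from h1, show g.wl (ι c) = some i' from h2]

theorem Mt.clp {ι : Fin g₁.k → Fin g.k} (h : Mt g₁ g ι) (t : Tk g.k) :
    g.clp t ∘ ι = g₁.clp (t ∘ ι) := funext fun c => by
  have := h c
  rcases e : g₁.wl c with _ | i <;> rcases e' : g.wl (ι c) with _ | i' <;> simp_all [Bs.clp]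

theorem Mt.dom {ι : Fin g₁.k → Fin g.k} (h : Mt g₁ g ι) {t : Tk g.k} (ht : t ∈ g.dom) :
    t ∘ ι ∈ g₁.dom := fun c => ⟨(ht _).1, fun k => (ht _).2 ((h c).1 k)⟩

theorem fc_mt {D ι φ n} (h : g.Fc g₁ D ι φ n) : Mt g₁ g ι :=
  let ⟨_, _, _, k, _⟩ := h.iso; mt_of k

theorem fc_gl {D ι φ n} (h : g.Fc g₁ D ι φ n) (hD : D.Nonempty) : φ.source = univ ∧ φ.target = univ ∧
    ContMDiff g.X.I g₁.X.I ∞ φ.symm := by
  obtain ⟨e, r, -, -, -, -, -, k⟩ := h.iso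
  obtain ⟨_, _, _, _, -, k⟩ := k _ hD.some_mem
  obtain ⟨_, m⟩ := k.iso.g
  exact ⟨k.src, k.tgt, contMDiffOn_univ.1 (k.tgt ▸ m.sm')⟩

theorem ok_of {f : Sc g} (sm : JS g.X.I univ f) {K : Set g.X.M} (hK : IsCompact K)
    (h0 : ∀ t, ∀ x ∉ K, f t x = 0) (ret : ∀ t, f t = f (g.clp t)) : f.OK := by
  have : ∀ i, ∃ r, ∀ L ∈ g.s.nk i, ∀ x ∈ K, |L.tm x| ≤ r := fun i => by
    rcases g.s.nk i with _ | L
    · simp
    · obtain ⟨r, hr⟩ := hK.bddAbove_image L.cont.abs.continuousOn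
      exact ⟨r, fun L' e x hx => Option.some_injective _ e ▸ hr (mem_image_of_mem _ hx)⟩
  choose r hr using this
  obtain ⟨R, hR⟩ := Finite.bddAbove_range r
  refine ⟨sm, ⟨R, fun t x hx => h0 t x fun k => hx fun i s L hL _ m => ?_⟩, ret⟩
  rw [img L (S := L.far s R) inter_subset_left] at m
  have h1 : R < pm s * L.tm x := m.2
  have h2 := abs_le.1 ((hr i L hL x k).trans (hR (mem_range_self i)))
  cases s <;> simp only [pm] at h1 <;> simp at h1 <;> linarith [h2.1, h2.2]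

theorem ok_cpt (h : g.OK) {f : Sc g} (hf : f.OK) : ∃ K, IsCompact K ∧ ∀ t, ∀ x ∉ K, f t x = 0 :=
  let ⟨r, k⟩ := hf.cf; ⟨_, h.fam.site.cpt r, k⟩

theorem js_comp {ι : Fin g₁.k → Fin g.k} {f : Sc g₁} (hf : f.OK) :
    JS g₁.X.I univ fun t : Tk g.k => f (t ∘ ι) := fun _ _ x =>
  (hf.sm _ trivial x).reparam (contDiff_pi.2 fun c => contDiff_apply ℝ ℝ (ι c)).contDiffAt

theorem psh_sup {A B : Type} [TopologicalSpace A] [TopologicalSpace B] {φ : OpenPartialHomeomorph A B}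
    {f : A → ℝ} {K : Set A} {K' : Set B} (h0 : ∀ x ∉ K, f x = 0) (h : MapsTo φ K K') :
    ∀ y ∉ K', psh φ f y = 0 := fun _ hy => by_contra fun k =>
  let ⟨x, _, a, b⟩ := psh_ne k; hy (a ▸ h (by_contra fun j => b (h0 x j)))

theorem ok_psh {D ι φ n} (h : g.Fc g₁ D ι φ n) (hD : D.Nonempty) (h₁ : g₁.OK) {f : Sc g₁} (hf : f.OK) :
    Sc.OK (g := g) fun t => psh φ (f (t ∘ ι)) := by
  obtain ⟨a, b, d⟩ := fc_gl h hD
  obtain ⟨K, k1, k2⟩ := ok_cpt h₁ hf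
  obtain ⟨T, K', k3, k4⟩ := exh_const a K k1
  refine ok_of (fun t _ x => ?_) k3 (fun t => psh_sup (k2 _) (k4 T le_rfl).2) fun t => by
    rw [(fc_mt h).clp, ← hf.ret]
  simp only [psh, b, indicator_univ]
  exact ContMDiffAt.comp (g := fun z : Tk g.k × g₁.X.M => f (z.1 ∘ ι) z.2)
    (f := fun z : Tk g.k × g.X.M => (z.1, φ.symm z.2)) _ (js_comp hf _ trivial _)
    (contMDiffAt_fst.prodMk ((d _).comp _ contMDiffAt_snd))

theorem clp_wl (hi : g.wl c ≠ none) (t : Tk g.k) : g.clp t c = max 0 (t c) := by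
  obtain ⟨i, e⟩ := Option.ne_none_iff_exists'.1 hi
  simp [Bs.clp, e]

theorem zero_dom (g : Gc κ lam ν) : 0 ∈ g.dom := fun _ => ⟨le_rfl, fun _ => zero_le_one⟩

theorem sides (n : Nd g) (h₁ : (n.g1 c).OK) (hi : g.wl c = some i) : ∃ x₀,
    Nonempty (Sd (fun t => t c) (n.l c) (nn i x₀ true)) ∧
    Nonempty (Sd (fun t => t c) (n.r c) (nn i x₀ false)) ∧
    (∀ t : Tk g.k, 3 ≤ t c → (n.l c (t c)).target ∪ (n.r c (t c)).target = univ ∧ ∀ s,
      (n.l c (t c)).target ∩ (n.r c (t c)).target = nn i x₀ s t '' (univ ×ˢ Ioo 0 (t c))) ∧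
    Mt _ g (n.ι1 c) ∧ Mt _ g (n.ι2 c) := by
  obtain ⟨W, h₂, -⟩ := n.wl c i hi
  obtain ⟨j₁, a1, j₂, a2, r₁, r₂, e, -, -, -, -, m1, m2, -, -, -, -, ⟨δ, H⟩, ε, hε, f1, f2⟩ := W.spl
  obtain ⟨x₀⟩ := n.ok.fam.site.con.toNonempty
  refine ⟨x₀, sd_of n.ok h₁ hi (δ := fun v => (δ v).1) (fun t ht => (H t ht).l') ((h₁.out _).2 ?_) hε f1 x₀,
    sd_of n.ok h₂ hi (δ := fun v => (δ v).2) (fun t ht => (H t ht).r') ((h₂.inn _).2 a2) hε f2 x₀,
    fun t ht => ⟨(H t ht).cov, fun s => ?_⟩, mt_of m1, mt_of m2⟩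
  · cases h : n.cap c <;> rw [h] at a1
    exacts [Or.inl a1, Or.inr a1]
  · obtain ⟨-, K, a, e, p, q⟩ := str n.ok hi ht
    rw [nn_img e p q, (H t ht).cap K e]

theorem exh_l (n : Nd g) (h₁ : (n.g1 c).OK) : Exh (n.l c) := by
  rcases hi : g.wl c with _ | i
  · obtain ⟨-, a, b⟩ := n.f1 c hi
    rw [funext a]
    exact exh_const (fc_gl b ⟨Pi.single c 1, fun c' => by
      rcases eq_or_ne c' c with rfl | k <;> simp [*], by simp⟩).1
  · obtain ⟨x₀, ⟨S⟩, -⟩ := sides n h₁ hi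
    exact S.exh (fun u => ⟨fun _ => u, rfl⟩) (n.ok.fam.site.cpt 0) (nn_core n.ok hi x₀ _)

theorem exh_r (n : Nd g) (h₁ : (n.g1 c).OK) (hi : g.wl c = some i) :
    Exh fun u => (n.φ2 c).trans (n.r c u) := by
  obtain ⟨x₀, -, ⟨S⟩, -⟩ := sides n h₁ hi
  exact (S.exh (fun u => ⟨fun _ => u, rfl⟩) (n.ok.fam.site.cpt 0) (nn_core n.ok hi x₀ _)).trans
    (fc_gl (n.wl c i hi).2.2.2.1 ⟨_, zero_dom _⟩).1

/-- **EXT-W** -/
theorem extW (mk : Mk κ lam ν) : ExtWStmt mk := fun ⟨g, τ⟩ _ c hc f₁ f₂ o1 o2 => by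
  obtain ⟨i, hi⟩ := Option.ne_none_iff_exists'.1 hc
  have h₁ := (τ.f1 c).nd.ok
  have fc := (τ.nd.wl c i hi).2.2.2.1
  have o3 := ok_psh fc ⟨_, zero_dom _⟩ (τ.f2 c).nd.ok o2
  obtain ⟨x₀, ⟨S⟩, ⟨S'⟩, H, m1, m2⟩ := sides τ.nd h₁ hi
  obtain ⟨K₁, a1, a2⟩ := ok_cpt h₁ o1
  obtain ⟨K₂, b1, b2⟩ := ok_cpt (τ.f2 c).nd.ok o2
  obtain ⟨K₃, c1, c2⟩ := ok_cpt (τ.nd.wl c i hi).2.1 o3
  obtain ⟨T₁, d1⟩ := S.jat S' (ns τ.nd.ok hi x₀ _) (continuous_apply c) (nn_flip τ.nd.ok hi x₀ true)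
    (fun t ht x => ((H t ht).1 ▸ mem_univ x :)) (fun t ht x a b => (H t ht).2 _ ▸ ⟨a, b⟩)
    (js_comp (ι := τ.nd.ι1 c) o1) a1 fun _ => a2 _
  obtain ⟨T₂, d2⟩ := S'.jat S (ns τ.nd.ok hi x₀ _) (continuous_apply c) (nn_flip τ.nd.ok hi x₀ false)
    (fun t ht x => Or.symm ((H t ht).1 ▸ mem_univ x :)) (fun t ht x a b => (H t ht).2 _ ▸ ⟨b, a⟩)
    (js_comp (ι := τ.nd.ι2 c) o3) c1 fun _ => c2 _
  obtain ⟨T₃, K₄, e1, e2⟩ := exh_l τ.nd h₁ K₁ a1
  obtain ⟨T₄, K₅, e3, e4⟩ := exh_r τ.nd h₁ hi K₂ b1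
  obtain ⟨T, t0, t1, t2, t3, t4⟩ : ∃ T : ℝ, 0 ≤ T ∧ T₁ < T ∧ T₂ < T ∧ T₃ ≤ T ∧ T₄ ≤ T :=
    ((eventually_ge_atTop _).and ((eventually_gt_atTop _).and ((eventually_gt_atTop _).and
      ((eventually_ge_atTop _).and (eventually_ge_atTop _))))).exists
  have z : ∀ u, u < T → Real.smoothTransition (u - T) = 0 := fun u h =>
    Real.smoothTransition.zero_of_nonpos (by linarith)
  refine ⟨T + 1, fun t => Real.smoothTransition (t c - T) • (psh (τ.nd.l c (t c)) (f₁ (t ∘ τ.nd.ι1 c)) +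
    psh ((τ.nd.φ2 c).trans (τ.nd.r c (t c))) (f₂ (t ∘ τ.nd.ι2 c ∘ τ.nd.ι3 c))),
    ok_of (fun t _ x => ?_) (e1.union e3) (fun t x hx => ?_) fun t => ?_, fun t ht => by
      simp only [Real.smoothTransition.one_of_one_le (le_sub_iff_add_le'.2 ht), one_smul]⟩
  · rcases lt_or_ge (t c) T with k | k
    · refine ContMDiffAt.congr_of_eventuallyEq (f := fun _ => 0) contMDiffAt_const ?_
      filter_upwards [(isOpen_lt ((continuous_apply c).comp continuous_fst) continuous_const).mem_nhds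
        (x := (t, x)) k] with p hp
      simp [z (p.1 c) hp]
    · simp only [psh_trans]
      exact (JAt.of_par (Real.smoothTransition.contDiff.comp ((contDiff_apply ℝ ℝ c).sub
        contDiff_const)).contDiffAt).mul ((d1 t (t1.trans_le k) x).add (d2 t (t2.trans_le k) x))
  · rcases lt_or_ge (t c) T with k | k
    · simp [z _ k]
    · simp [psh_sup (a2 _) (e2 _ (t3.trans k)).2 x fun j => hx (Or.inl j),
        psh_sup (b2 _) (e4 _ (t4.trans k)).2 x fun j => hx (Or.inr j)]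
  · simp only [clp_wl hc]
    rcases le_total 0 (t c) with k | k
    · rw [max_eq_right k, m1.clp, ← o1.ret, ← comp_assoc (g.clp t), m2.clp, (fc_mt fc).clp, ← o2.ret]
      rfl
    · rw [max_eq_left k, Real.smoothTransition.zero_of_nonpos (by linarith),
        Real.smoothTransition.zero_of_nonpos (by linarith), zero_smul, zero_smul]

end Crest.Agent.X212.Hp13.Ext
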