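import Crest.Agent.X212.Lw78.EnD

/-!
# X212 / Hp13 (helper13): EN18-FLD, the field terms against the seeds
-/

set_option autoImplicit false
set_option linter.unusedSectionVars false
noncomputable section
open scoped Manifold ContDiff Topology InnerProductSpace
open MeasureTheory Set Function Filter

namespace Crest.Agent.X212.Hp13.Fld
open An Wz78 Dgr80 Nd18 Eps37
open Mp86 (TmSz)
open Dead36 (ZO)
open Wrd81 (Bas TmIn)
open Fin37 (Tk)
open Lw78.En (Fb FldStmt)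

section gen
variable {E : Type} [NormedAddCommGroup E] [NormedSpace ℝ E] [FiniteDimensional ℝ E]
  [MeasurableSpace E] [BorelSpace E]
  {HM : Type} [TopologicalSpace HM] {I : ModelWithCorners ℝ E HM} [I.Boundaryless]
  {M : Type} [TopologicalSpace M] [ChartedSpace HM M] [IsManifold I ∞ M]
  [MeasurableSpace M] [T2Space M] [BorelSpace M] [SecondCountableTopology M] {ι : Type} [Fintype ι]
  {lam : Type} [Fintype lam] {r n N : ℕ} {B : Base M ι lam} {G : Geo I M ι lam}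
  {c : Cfg M ι lam r} {O : Set M} {C : ℕ → ℝ} {D ε : ℝ}

/-- the test function of a curvature seed has size `N` -/
def Sf (F : Fr I M ι) (N : ℕ) : Tm M lam r n → Prop
  | .ad _ _ ⟨.cv f _ _, _⟩ => Ts I univ f ∧ LB F.μ (fun x => f x ^ 2) N ∧
      LB F.μ (fun x => ∑ i, F.D i f x ^ 2) N
  | _ => True

theorem lb_supp (F : Fr I M ι) {g : M → ℝ} {L : Set M} {a b : ℝ} (hg : Continuous g) (hL : IsCompact L)
    (h0 : ∀ x ∉ L, g x = 0) (ha : ∀ x, |g x| ≤ a) (a0 : 0 ≤ a) (hb : F.μ.real L ≤ b) :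
    LB F.μ g (a * b) :=
  ⟨hg.integrable_of_hasCompactSupport (.intro hL h0), by
    rw [← setIntegral_eq_integral_of_forall_compl_eq_zero h0]
    exact ((Real.le_norm_self _).trans (norm_setIntegral_le_of_norm_le_const hL.measure_lt_top
      fun x _ => ha x)).trans (mul_le_mul_of_nonneg_left hb a0)⟩

theorem ev_sf {T : Type} {U : Set M} {G : T → Geo I M ι lam} {K : Set T} (h : Tms63.Ut U G K)
    (F₀ : Fr I M ι) {X : Tm M lam r n} (hX : TmIn I U X)
    (v : ∀ L, IsCompact L → L ⊆ U → ∃ C, ∀ t ∈ K, (G t).F.μ.real L ≤ C) :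
    ∀ᶠ N : ℕ in atTop, ∀ t ∈ K, Sf (G t).F N X := by
  rcases X with _ | _ | ⟨g, g', _ | ⟨f, k, k'⟩, l⟩ | _ | _ | _ | _
  all_goals try exact .of_forall fun _ _ _ => trivial
  have hf : Wrd81.Tf I U f := hX.2.2.1.1
  obtain ⟨C, hC⟩ := v _ hf.hcs hf.sub
  obtain ⟨a, h1, h2⟩ := ((Mp86.ev_norm (hf.cb F₀)).and (h.ev_g1 hf)).exists
  filter_upwards [Mp86.ev_ge (a * C)] with N e t ht
  refine ⟨⟨hf.sm, hf.hcs, subset_univ _⟩, (lb_supp _ (hf.sm.continuous.pow 2) hf.hcs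
    (fun x hx => by simp [image_eq_zero_of_notMem_tsupport hx]) (fun x => by simpa using (h1 x).2)
    a.cast_nonneg (hC t ht)).le e, (lb_supp _ (continuous_finsetSum _ fun i _ =>
      ((G t).F.sm_D hf.sm i).continuous.pow 2) hf.hcs (fun x hx => Finset.sum_eq_zero fun i _ => ?_)
    (fun x => (abs_of_nonneg (Finset.sum_nonneg fun _ _ => sq_nonneg _)).trans_le (h2 t ht x))
    a.cast_nonneg (hC t ht)).le e⟩
  rw [Pi.pow_apply, image_eq_zero_of_notMem_tsupport fun k => hx ((G t).F.tsupport_D f i k), sq, mul_zero]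

/-- **one term** (`Eps37.lb_tC` with seeds) -/
theorem lb_tC (z : ZO G.F c O) (hT : G.F.Tame C) (hN : 1 ≤ N) (hB : B.OK I) (h : c.Adm B G)
    {T : Tm M lam r n} (ok : T.OK G.F) (sz : TmSz G N T) (hb : Bas T) (sf : Sf G.F N T) (D0 : 0 ≤ D)
    (hD : Lw78.En.Sd G.F c O D) :
    LB (G.F.μ.restrict O) (fun x => ‖c.tC B G.F T x‖ ^ 2) (kE N * D) := by
  have N1 : (1 : ℝ) ≤ N := by exact_mod_cast hN
  have k0 : 0 ≤ kE N * D := by unfold kE; positivity
  have m := z.cl.2.measurableSet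
  have ct := (Fin37.cont_tC hB h ok).aestronglyMeasurable (μ := G.F.μ.restrict O)
  cases T with
  | adn => exact hb.elim
  | adj d s g g' u v l =>
    refine lb_zero m (fun x hx => ?_) k0
    simp only [Cfg.tC, z.qj _ _ _ _ _ x hx, smul_zero, ← Pi.zero_def, WithLp.toLp_zero, map_zero,
      norm_zero, sq, mul_zero]
  | ad g g' ξ =>
    obtain ⟨s, l⟩ := ξ
    obtain ⟨a1, a2, a3, a4, a5⟩ := sz
    cases s with
    | q u v =>
      refine lb_zero m (fun x hx => ?_) k0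
      have e : c.aw G.F ⟨.q u v, l⟩ x = 0 := z.q0 _ v l x hx
      simp only [Cfg.tC, e, smul_zero, ← Pi.zero_def, WithLp.toLp_zero, map_zero,
        norm_zero, sq, mul_zero]
    | cv f k k' =>
      have s0 : Ls (G.F.μ.restrict O) (fun x => ∑ s : ι × ι,
          (f x * G.F.D s.1 k x * G.F.D s.2 k' x) • c.m.Fg G.F c.W x s) (N ^ 2 * (N * D)) :=
        ⟨_, (hD f N sf.1 a3.1 sf.2.1 sf.2.2).mul (sq_nonneg (N : ℝ)), fun x =>
          (Mp86.norm_sum_smul_sq _ _).trans (by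
            simp only [mul_assoc (f x), mul_pow (f x), ← Finset.mul_sum]
            rw [Mp86.sum_sq_prod (fun a => G.F.D a k x) fun a => G.F.D a k' x,
              ← mul_assoc ((N : ℝ) ^ 2), mul_comm (_ ^ 2) (f x ^ 2), sq (N : ℝ)]
            exact mul_le_mul_of_nonneg_right (mul_le_mul_of_nonneg_left (mul_le_mul (a3.2.1 x)
              (a3.2.2 x) (by positivity) (by positivity)) (sq_nonneg _)) (sq_nonneg _))⟩
      have s1 := ls_wd z hT hN (ls_res z.cl hT z.ma (ls_res z.cl hT z.ma s0)) a5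
      refine ((s1.mul (sq_nonneg (N : ℝ)) fun x => (pow_le_pow_left₀ (norm_nonneg _)
        (Mp86.norm_p2_le hB c.m a1 a2 x _) 2).trans_eq (mul_pow _ _ _)).le ?_).lb ct
      have : (4 * N ^ 2 : ℝ) ^ l.length ≤ (4 * N ^ 2) ^ N :=
        pow_le_pow_right₀ (by nlinarith) a4
      unfold kE
      rw [mul_assoc, mul_assoc, mul_assoc 4, mul_assoc 4, pow_succ (N : ℝ) 2, mul_assoc (_ ^ 2) _ D]
      gcongr
  | _ => exact lb_zero m (fun x _ => by simp [Cfg.tC]) k0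

variable {W : Type} {T : W → Tm M lam r n} {t R b : W → ℝ} {k : W → ℕ} {q : W →₀ ℝ}

theorem fb_fld (z : ZO G.F c O) (hT : G.F.Tame C) (hB : B.OK I) (h : c.Adm B G)
    (hk : ∀ i, t i ≠ 0 → Tk B G (T i) (k i) ∧ Sf G.F (k i) (T i)) (k1 : ∀ i, 1 ≤ k i)
    (bs : ∀ i, Bas (T i)) (ht : ∀ i, |t i| ≤ R i) (hb : ∀ i, 0 < b i)
    (hq : (q.sum fun i a => |a| * b i) ≤ 1) (hC : ∀ i, R i ^ 2 * kE (k i) ≤ (ε * b i) ^ 2) :
    Fb G.F c O ((fsum (fun i => (tmP B G.F (T i)).smul (t i)) q).C c) ε := by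
  refine ⟨int_fld hB h fun i e => (hk i e).1, fun D D0 hD => ?_⟩
  have k0 : ∀ i, 0 ≤ kE (k i) * D := fun i => by unfold kE; positivity
  refine Fin37.lb_cvx (u := fun i x => t i • c.tC B G.F (T i) x) _ hb (by positivity) hq
    (fun i => ?_) (fun i => ?_) (β := fun i => R i ^ 2 * (kE (k i) * D)) fun i => by
      linarith [mul_le_mul_of_nonneg_right (hC i) D0]
  · rcases eq_or_ne (t i) 0 with e | e
    · simpa [e] using aestronglyMeasurable_const
    · exact ((Fin37.cont_tC hB h (hk i e).1.ok).const_smul (t i)).aestronglyMeasurable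
  · rcases eq_or_ne (t i) 0 with e | e
    · exact lb_zero z.cl.2.measurableSet (fun x _ => by simp [e]) (mul_nonneg (sq_nonneg _) (k0 i))
    · simp only [norm_smul, mul_pow, Real.norm_eq_abs, sq_abs]
      exact ((lb_tC z hT (k1 i) hB h (hk i e).1.ok (hk i e).1.sz (bs i) (hk i e).2 D0 hD).mul
        (sq_nonneg _)).le (mul_le_mul_of_nonneg_right
          (sq_le_sq' (neg_le_of_abs_le (ht i)) (le_of_abs_le (ht i))) (k0 i))

end gen

open An.Job M
open Fin37 (Pm)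

variable {Wi : Type} {X : Mf 4} {A κ lam : Type} [Fintype A] [Fintype κ] [Fintype lam]
  [DecidableEq lam] {M : Mark X A κ} {W : World M} {N : ML M lam}
  {Λ : Lns W N} {A' h : Type} [Fintype A'] [DecidableEq A'] [Fintype h] {r n : ℕ}
  (J : Job Wi Λ A' h r n)

variable {J} in
/-- `Tms63.tmsz` with seeds -/
theorem tk (hJ : J.OK) (w : Wi) : ∃ k : ℕ, 1 ≤ k ∧ ∀ c s, Pm J c s → J.co w s ≠ 0 →
    Tk (J.B c) (J.G c s) (Fin37.tm J c w) k ∧ Sf (J.G c s).F k (Fin37.tm J c w) := by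
  have := Tms63.finCl (M := M)
  refine ((eventually_ge_atTop 1).and
    (eventually_all.2 fun c => ?_ : ∀ᶠ k : ℕ in atTop, ∀ c, _)).exists
  obtain h0 | ⟨U, K, h1, h2, h3, h4⟩ := Tms63.exists_ut hJ w c
  · exact .of_forall fun _ s k1 k2 => (k2 (h0 s k1)).elim
  obtain ⟨L, k1, k2, k3⟩ := h2.supp (ι := Option κ)
  obtain ⟨C, hC⟩ := h4 L k1 k2
  filter_upwards [h1.ev_tm (W.L J.m c).F0 h2, Mp86.ev_ge C, ev_sf h1 (W.L J.m c).F0 h2 h4]
    with k e1 e2 e3 s b1 b2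
  exact ⟨⟨h2.ok _, e1 _ (h3 s b1 b2), L, k1, (hC _ (h3 s b1 b2)).trans e2,
    fun x z hz => k3 x _ _ z hz⟩, e3 _ (h3 s b1 b2)⟩

/-- **FLD** -/
theorem fld : FldStmt J := fun hJ hb ε hε => by
  choose k k1 hk using tk hJ
  choose ρ hρ using fun w => Fin37.bd_cell J (hJ.co w).continuous
  choose b b1 _ _ _ _ b6 using fun w => Fin37.exists_b hε 0 0 0 0 (ρ w ^ 2 * kE (k w))
  refine ⟨b, fun w => zero_le_one.trans (b1 w), fun Adm hA q hq c s p x O a hO h0 => ?_⟩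
  have hb' := (hA q hq).le
  rw [sub_zero] at hb'
  obtain ⟨-, C, hT⟩ := p.ok hJ
  exact fb_fld ⟨hO, Mp86.bumps_of_tame _ hT, Mp86.mc_W a.conn, Mp86.mc_adW a.conn, h0⟩ hT
    (Λ.B_ok _ _) a (fun i => hk i c s p) k1 (fun i => bas_tm (hb i)) (fun i => hρ i c _ p)
    (fun i => one_pos.trans_le (b1 i)) hb' b6

end Crest.Agent.X212.Hp13.Fld
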