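import Crest.Agent.X212.End23.Mk
import Crest.Agent.X212.Hp13.Mu

/-!
# X212 / Hp13 (helper13): MK-GR, the two gradings
-/

set_option autoImplicit false
set_option linter.unusedSectionVars false
noncomputable section
open scoped Manifold ContDiff Topology InnerProductSpace
open MeasureTheory Set Function Filter

namespace Crest.Agent.X212.Hp13.Gr
open An Cyf70 Sw Sw.En3 End23 Sob92 Mu
open Crt72 (Op SF symA)

variable {κ lam ν : Type} [Fintype κ] [Fintype lam] [Fintype ν] [DecidableEq ν] {e : En3 κ lam ν}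

theorem hom_zero {φ : ℝ → ℤ} (h : ∀ s t, φ (s + t) = φ s + φ t) : φ 1 = 0 := by
  refine Int.eq_zero_of_abs_lt_dvd (m := (φ 1).natAbs + 1) ⟨φ (1 / ((φ 1).natAbs + 1 : ℕ)), ?_⟩
    ((Int.natCast_natAbs _).symm.trans_lt (lt_add_one _))
  have := map_nsmul (AddMonoidHom.mk' φ h) ((φ 1).natAbs + 1) (1 / ((φ 1).natAbs + 1 : ℕ) : ℝ)
  rwa [nsmul_eq_mul, nsmul_eq_mul, mul_one_div_cancel (by positivity)] at this

theorem fz0 : fz (⟨0, 0⟩ : e.YC) = ⟨0, 0⟩ := Cfg.ext (funext fun i => by cases i <;> rfl) rfl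

theorem adm0 : e.cyl.Adm (fz (⟨0, 0⟩ : e.YC)) :=
  fz0 (e := e) ▸ ⟨fun _ => contMDiff_const, contMDiff_const, fun _ _ => by simp, fun _ => map_zero _⟩

theorem aH_z0 : e.aH (e.z0 0) = e.eps • .id ℝ _ :=
  (RepT_congr (RepT_smul e.eps Rep_id) fun u => funext fun y => by
    have : e.cyl.lo (fz ⟨0, 0⟩) (y, 0) = 0 := by
      rw [fz0, Bg.lo, Bg.A0, sub_self, ContinuousLinearMap.zero_comp]
    simp [ap, z0, this, u.2.2.2 y]).liftT_eq

variable (hS : SfStmt κ lam ν) (hM : IxMu κ lam ν) (hY : IxSym κ lam ν) (hR : IxRep κ lam ν)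
  (hG : IxGau κ lam ν) (he : e.OK)
include hM he

theorem sfH_eq : e.sfH = sfE e := by
  unfold sfH
  rw [← (hM e he).1]
  rfl

theorem La_eq (a : e.H0 →L[ℝ] e.H0) : e.La a = Op (iH e) (L0 e) a := by
  rw [(hM e he).1]
  rfl

include hS

theorem sfh : SF (e.D.F.incl 1 0 e.A0.p) (LH e.D.F e.A0 0) (symA _) e.sfH := by
  rw [sfH_eq hM he, ← (hM e he).1]
  exact (hS e he).2

include hY

theorem inv_z0 : e.TInv (e.z0 0) := ⟨(hY.hs e he _ adm0).2, by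
  obtain ⟨δ, hδ, h⟩ := mem_nhdsGT_iff_exists_Ioc_subset.1 (SfU.jmp (sfh hS hM he) (zero_mem _) 0)
  have := Classical.epsilon_spec (p := fun ε : ℝ => 0 < ε ∧ ∀ s ∈ Ioc 0 ε,
    Bijective (e.La (s • .id ℝ e.H0))) ⟨δ, hδ, fun s hs => by
      have := (h hs).1
      rwa [zero_add, zero_add] at this⟩
  rw [aH_z0]
  exact this.2 _ ⟨this.1, le_rfl⟩⟩

include hR hG

theorem lp_H1 (h : e.H1) : e.Lp := by
  rintro v ⟨u, hu, k⟩
  obtain ⟨χ, hχ, h⟩ := h.lg u hu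
  obtain ⟨γ, e0, rfl, h1, h2⟩ := orb he adm0 ⟨χ, hχ, (funext h : u = _) ▸ k⟩
  choose u hu h2 using h2
  have o := fun t => (hY.hs e he _ (h1 t)).2
  have s := fun t => (hR.y e he _ (o t)).2
  have c := fun s t => (hG.cj e he _ (hu s) _ _ (h1 t) (h2 s t)).2
  have i0 : e.TInv (e.z0 (γ 0).a) := e0 ▸ inv_z0 hS hM hY he
  have j := fun s => hG.inv e he _ (hu s) _ _ i0 (o s) (by simpa only [add_zero] using c s 0)
  have := hom_zero (φ := fun t => e.sf (e.z0 (γ 0).a) (e.z0 (γ t).a)) fun a b => by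
    rw [← (j a).2 _ _ (j b).1 (o _) (c a b)]
    exact ((sfh hS hM he).add _ (s 0) _ (s a) _ (s _) i0.bij (j a).1.bij (j _).1.bij).symm
  have k := (sfh hS hM he).anti (s 0) (s 1) i0.bij (j 1).1.bij
  rw [show e.sfH _ _ = 0 from this, e0] at k
  exact k

theorem gr1 (hI : IxInv κ lam ν) (hA : AhStmt κ lam ν) (hw : 0 < e.w) (hl : e.Lp)
    (b : Bijective (Op (iH e) (L0 e) (rf (th e)))) {v : e.YC} (hv : Crit v) (hn : Nd v)
    (h0 : ∃ y, v.Φ y ≠ 0) : gd v = sh0 e + mu v ∧ ∀ v', Eqv v v' → gd v' = gd v := by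
  have i := hI e he hw v hv hn h0
  have z := inv_z0 hS hM hY he
  have s := fun a (h : e.TOK a) => (hR.y e he a h).2
  constructor
  · have k := ((hM e he).2 hw v hv.1).symm
    have bv := La_eq hM he _ ▸ i.bij
    have := (hS e he).2.add _ (sym_rf (ok_lf he) hA adm_th) _ (s _ i.toTOK) _ (s _ z.toTOK) b bv
      (La_eq hM he _ ▸ z.bij)
    rw [gd, En3.sf, sfH_eq hM he, sh0, mu, ← this, k]
    ring
  · rintro v' ⟨u, hu, k⟩
    have a := act_ac hu (⟨0, 0⟩ : e.YC)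
    have o := (hY.hs e he _ (Pb50.Eqv.adm he adm0 ⟨u, hu, a⟩)).2
    have j := hG.inv e he u hu _ _ i (hY.hs e he _ (Pb50.Eqv.adm he hv.1 ⟨u, hu, k⟩)).1
      (hG.cj e he u hu _ _ hv.1 k).1
    have c := (hG.cj e he u hu _ _ adm0 a).2
    rw [gd, gd, ← j.2 _ _ z o c, ← add_zero (e.sf (hs v') (e.z0 (ac u _).a)), ← hl _ ⟨u, hu, a⟩]
    exact ((sfh hS hM he).add _ (s _ j.1.toTOK) _ (s _ o) _ (s _ z.toTOK) j.1.bij
      (hG.inv e he u hu _ _ z o c).1.bij z.bij).symm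

omit hM he hS hY hR hG in
theorem sh0_re (w : ℝ) (b : ℝ → ℝ) (S : Set ℝ) (ψ : ℝ → ℝ) : sh0 (e.re w b S ψ) = sh0 e := by
  have e1 : sfE (e.re w b S ψ) = sfE e := rfl
  have e2 : rf (th (e.re w b S ψ)) = rf (th e) := rfl
  have e3 : (e.re w b S ψ).eps = e.eps := rfl
  rw [sh0, sh0, e1, e2, aH_z0, aH_z0, e3]
  rfl

omit hM he hS hY hR hG in
/-- **MK-GR** -/
theorem grStmt (hS : SfStmt κ lam ν) (hA : AhStmt κ lam ν) (hU : MuStmt κ lam ν) (hM : IxMu κ lam ν)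
    (hY : IxSym κ lam ν) (hR : IxRep κ lam ν) (hG : IxGau κ lam ν) (hI : IxInv κ lam ν)
    (hL : IxLoop κ lam ν) : GrStmt κ lam ν := fun e _ h w b S ψ he hw v hv hn h0 => by
  have k : Bijective (Op (iH e) (L0 e) (rf (th e))) ∧ (e.re w b S ψ).Lp := by
    rcases h with ⟨M, m, h, -⟩ | ⟨u, ⟨M, m, -⟩, ⟨a, a1, a2⟩, -⟩
    · exact ⟨(hU.rf e M m).1, lp_H1 hS hM hY hR hG he ⟨fun a k => h.ex a ⟨k.1, k.2, k.3⟩, h.lg⟩⟩
    · exact ⟨(hU.rf e M m).1, hL _ he ⟨a, ⟨a1.1, a1.2, a1.3, a1.4⟩, fun α k Φ j =>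
        a2 α ⟨k.1, k.2, k.3⟩ Φ ⟨j.1, j.2, j.3, j.4⟩⟩⟩
  exact sh0_re (e := e) w b S ψ ▸ gr1 hS hM hY hR hG he hI hA hw k.2 k.1 hv hn h0

end Crest.Agent.X212.Hp13.Gr
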