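import Crest.Agent.X212.Hp13.HH
import Crest.Agent.X212.H7.Main
import Crest.Agent.X212.Hel40.Main
import Crest.Agent.X212.St29.Chf

/-!
# X212 / Hp13 (helper13): layer H closed
-/

namespace Crest.Agent.X212.Hp13

/-- **layer H** -/
theorem hStmt : H7.HStmt := H7.hStmt Hel40.mainStmt (St29.smH hH)

end Crest.Agent.X212.Hp13
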