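import Crest.Agent.X212.Hp13.P1
import Crest.Agent.X212.Kc37.Main

/-!
# X212 / Hp13 (helper13): the hierarchy, unconditionally
-/

set_option autoImplicit false

namespace Crest.Agent.X212.Hp13

open Cut21

theorem count : Crest.Agent.X212.Hk.CountStmt := Kc37.countStmt nf0

/-- **P1** -/
theorem p1 : Ind26.P1Stmt (par' Pt30.HBo) := p1_cnt count

/-- **the hierarchy** -/
theorem hH : ∀ c, Stt c → ∃ t f, Desc c t f ∧ Ind26.Hier t := hH_cnt count

end Crest.Agent.X212.Hp13
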