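import Crest.Agent.X212.Hp13.Thk
import Crest.Agent.X212.Sf30.Du

/-!
# X212 / Hp13 (helper13): surgery of a disc and of a sphere
-/

set_option autoImplicit false
set_option linter.unusedSectionVars false

open Finset Classical

noncomputable section

namespace Crest.Agent.X212.Hp13

variable {P : Type} [PartialOrder P] [Fintype P] {A E Q : Set P} {z w : P → P → ℤ}

/-- a disc -/
structure Dsc (A : Set P) (z : P → P → ℤ) [IsCoc A z] : Prop where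
  mono : Mono A z
  nc : NoCl A z
  conn : Conn (LA A z)
  chi : chi A z = 1

/-- a sphere -/
structure Sph (A : Set P) (z : P → P → ℤ) [IsCoc A z] : Prop where
  mono : Mono A z
  cl : ∀ p : Lv A z, p ∈ LA A z
  conn : Conn (LA A z)
  chi : chi A z = 2

variable [IsCoc A z] [IsCoc A w]

theorem Dsc.sf (h : Dsc A z) : Sf A z := ⟨h.mono, _, h.nc⟩

theorem ne_of_chi (hm : Mono A z) (h : chi A z ≠ 0) : (LA A z).Nonempty := by
  by_contra k
  rw [Set.not_nonempty_iff_eq_empty] at k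
  exact h (by rw [chi_eq_chiC hm, k, chiC_empty])

theorem Conn.cmp_eq {S : Set P} (h : Conn S) {p : P} (hp : p ∈ S) : cmp S p = S :=
  Set.ext fun q => ⟨fun k => k.1, fun k => ⟨k, h p hp q k⟩⟩

theorem eu_LA (hM : Mf 3 A) (hm : Mono A z) : eu (LA A z) = chi A z := by
  rw [chi_eq_chiC hm, Sf30.chiC_eq_eu hM hm subset_rfl Sf30.la_upper]

/-- the boundary of a disc is connected -/
theorem conn_LB (hM : Mf 3 A) (hm : Mono A z) (hc : Conn (LA A z)) (h1 : 1 ≤ chi A z) :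
    Conn (LB A z) := by
  have k := Sf30.conn_mix2 (Sf30.mf_LA hM hm) hc (by rwa [eu_LA hM hm])
  have t : ∀ c ∈ Alg36.mix (LA A z), c.top ∈ LB A z := fun c ⟨⟨a, a1, a2⟩, b, b1, b2⟩ =>
    ⟨LA.upper a2 (Ch.le_top a1), b, b2, Ch.le_top b1⟩
  have m : ∀ p ∈ LB A z, ∃ c ∈ Alg36.mix (LA A z), c.top = p := fun p ⟨h1, q, h2, h3⟩ =>
    ⟨Ch.pr q p h3, ⟨⟨p, by simp, h1⟩, q, by simp, h2⟩, Ch.top_pr _ _ _⟩
  intro p hp q hq
  obtain ⟨c, c1, rfl⟩ := m p hp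
  obtain ⟨d, d1, rfl⟩ := m q hq
  exact (k c c1 d d1).map fun a ha b hb l => Rch.of_cm (t a ha) (t b hb) (Or.inl (Ch.top_mono l))

theorem Dsc.conn_LB (h : Dsc A z) (hM : Mf 3 A) : Conn (LB A z) :=
  Hp13.conn_LB hM h.mono h.conn h.chi.ge

theorem Dsc.ne (h : Dsc A z) : (LA A z).Nonempty := ne_of_chi h.mono (by rw [h.chi]; norm_num)

theorem Dsc.isDisc (h : Dsc A z) : IsDisc A z (LA A z) := by
  obtain ⟨p, hp⟩ := h.ne
  have k : IsCmp (LA A z) (LA A z) := ⟨p, hp, (h.conn.cmp_eq hp).symm⟩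
  exact ⟨k, h.nc _ k, by rw [← chi_eq_chiC h.mono, h.chi]⟩

theorem Dsc.lb_ne (h : Dsc A z) : (LB A z).Nonempty :=
  let ⟨p, hp, k⟩ := h.isDisc.2.1; ⟨p, hp, k⟩

/-- a surface with connected boundary -/
theorem dsc_of (hM : Mf 3 A) (hz : Sf A z) (hb : ∀ p ∈ LB A z, ∀ q ∈ LB A z, Rch (LA A z) p q)
    (h1 : 1 ≤ chi A z) : Dsc A z := by
  have hc : Conn (LA A z) := fun p hp q hq => by
    obtain ⟨a, a1, a2⟩ := hz.noCl _ (isCmp_cmp hp)
    obtain ⟨b, b1, b2⟩ := hz.noCl _ (isCmp_cmp hq)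
    exact (a1.2.trans (hb a ⟨a1.1, a2⟩ b ⟨b1.1, b2⟩)).trans b1.2.symm
  refine ⟨hz.mono, hz.noCl, hc, le_antisymm ?_ h1⟩
  obtain ⟨p, hp⟩ := ne_of_chi hz.mono (show chi A z ≠ 0 by omega)
  have k : IsCmp (LA A z) (LA A z) := ⟨p, hp, (hc.cmp_eq hp).symm⟩
  rw [chi_eq_chiC hz.mono]
  exact cmp_le_one hM hz.mono k (hz.noCl _ k)

theorem Sat.lb {T : Set (Lv A z)} (h : Sat T) (hm : Mono A z) [IsCoc A (cnt T)] {q : Lv A z}
    {p : Lv A (cnt T)} (k : PR T q p) : q ∈ LB A z ↔ p ∈ LB A (cnt T) := by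
  have l := h.lr hm
  refine and_congr (l.la k) ⟨fun ⟨a, a1, a2⟩ => ?_, fun ⟨a, a1, a2⟩ => ?_⟩
  · obtain ⟨b, hb⟩ := h.exists_pr hm ((h a q a2).2 k.1)
    exact ⟨b, fun j => a1 ((l.la hb).2 j), (l.le_iff hb k).1 a2⟩
  · obtain ⟨b, hb⟩ := h.exists_pr' hm a
    exact ⟨b, fun j => a1 ((l.la hb).1 j), (l.le_iff hb k).2 a2⟩

/-- the part without the closed components -/
theorem drop0 (hm : Mono A z) :
    Sf A (cnt (Cls A z)ᶜ) ∧ chi A (cnt (Cls A z)ᶜ) = chi A z - chiC (Cls A z) := by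
  refine ⟨sat_cls.compl.sf hm fun _ h => h, ?_⟩
  rw [sat_cls.compl.chi hm, chi_eq_chiC hm, chiC_split (LA A z) (Cls A z),
    Set.inter_eq_right.2 (show Cls A z ⊆ LA A z from fun _ h => h.1), Set.sdiff_eq]
  ring

/-- a closed component as a surface -/
theorem sph_cnt {T : Set (Lv A z)} (h : Sat T) (hm : Mono A z) [IsCoc A (cnt T)]
    (hT : T ⊆ LA A z) (hc : Conn T) (h2 : chiC T = 2) : Sph A (cnt T) := by
  refine ⟨mono_cnt, fun p => ?_, fun p _ q _ => ?_, ?_⟩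
  · obtain ⟨b, hb⟩ := h.exists_pr' hm p
    exact ((h.lr hm).la hb).1 (hT hb.1)
  · obtain ⟨a, ha⟩ := h.exists_pr' hm p
    obtain ⟨b, hb⟩ := h.exists_pr' hm q
    exact (h.rch_iff hm ha hb).1 ((hc a ha.1 b hb.1).mono hT)
  · rw [h.chi hm, Set.inter_eq_right.2 hT, h2]

namespace Sg

variable {R : Lv A w → Lv A z → Prop} {X : Set (Lv A w)} {Y N : Set (Lv A z)}
  {J : Lv A z → Lv A z → Prop} (h : Sg R X Y N J)
include h

theorem lb_notY {b : Lv A z} (hb : b ∈ LB A z) : b ∉ Y := fun k =>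
  let ⟨_, a1, a2⟩ := hb.2; a1 (h.nla (h.yn (h.ylow a2 k)))

theorem rch_lb (hc : Conn (LB A w)) {p q : Lv A z} (hp : p ∈ LB A z) (hq : q ∈ LB A z) :
    Rch (LA A z \ Y) p q := by
  obtain ⟨a, -, a2⟩ := h.tot' p (h.lb_notY hp)
  obtain ⟨b, -, b2⟩ := h.tot' q (h.lb_notY hq)
  exact h.rch a2 b2 ((hc a ((h.lb a2).2 hp) b ((h.lb b2).2 hq)).mono
    fun r hr => ⟨hr.1, h.lb_notX hr⟩)

/-- **surgery of a disc**: a disc and a sphere -/
theorem disc (hM : Mf 3 A) (hm : Mono A z) (hw : Dsc A w) (hc : chi A z = 3)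
    [IsCoc A (cnt (Cls A z)ᶜ)] : Dsc A (cnt (Cls A z)ᶜ) ∧ chiC (Cls A z) = 2 := by
  obtain ⟨d1, d2⟩ := drop0 (A := A) hm
  have := h.le_two hM hm hw.nc
  have k := dsc_of hM d1 (fun p hp q hq => by
    obtain ⟨a, ha⟩ := sat_cls.compl.exists_pr' hm p
    obtain ⟨b, hb⟩ := sat_cls.compl.exists_pr' hm q
    exact (sat_cls.compl.rch_iff hm ha hb).1 ((h.rch_lb (hw.conn_LB hM)
      ((sat_cls.compl.lb hm ha).2 hp) ((sat_cls.compl.lb hm hb).2 hq)).mono Set.sdiff_subset))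
    (by omega)
  exact ⟨k, by have := k.chi; omega⟩

theorem meet' (hc : Conn (LA A w)) {q : Lv A z} (hq : q ∈ LA A z) :
    ∃ n ∈ N, Rch (LA A z) q n := by
  by_cases hY : q ∈ Y
  · exact ⟨q, h.yn hY, Rch.rfl⟩
  obtain ⟨p, p1, p2⟩ := h.tot' q hY
  obtain ⟨x, hx⟩ := h.xne
  rcases (hc p ((h.lr.la p2).2 hq) x (h.xla hx)).exit p1 with ⟨k, -⟩ | ⟨r, r1, r2, y, -, y2, y3⟩
  · exact absurd hx k
  · obtain ⟨n, n1, n2⟩ := h.near' r1.2 y2 y3
    exact ⟨n, n1, (h.rch p2 n2 r2).mono Set.sdiff_subset⟩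

theorem all_la (hw : ∀ p : Lv A w, p ∈ LA A w) (q : Lv A z) : q ∈ LA A z := by
  by_cases hY : q ∈ Y
  · exact h.nla (h.yn hY)
  · obtain ⟨p, -, p2⟩ := h.tot' q hY
    exact (h.lr.la p2).1 (hw p)

/-- **surgery of a sphere**: two spheres -/
theorem sph (hM : Mf 3 A) (hm : Mono A z) (hw : Sph A w) (hc : chi A z = 4) :
    ∃ T : Set (Lv A z), Sat T ∧ Conn T ∧ Conn Tᶜ ∧ chiC T = 2 ∧ chiC Tᶜ = 2 := by
  have al := h.all_la hw.cl
  obtain ⟨p, hp⟩ := ne_of_chi hm (show chi A z ≠ 0 by omega)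
  have hT := isCmp_cmp hp
  have sat : Sat (cmp (LA A z) p) := fun a b k =>
    ⟨fun j => hT.clopen j (al b) (Or.inl k), fun j => hT.clopen j (al a) (Or.inr k)⟩
  have c2 : Conn (cmp (LA A z) p)ᶜ := fun a ha b hb => by
    obtain ⟨l, l1, l2⟩ := h.meet' hw.conn hp
    obtain ⟨m, m1, m2⟩ := h.meet' hw.conn (al a)
    obtain ⟨n, n1, n2⟩ := h.meet' hw.conn (al b)
    refine (sat.compl.rch ha (S := LA A z) ?_).mono Set.inter_subset_right
    rcases h.two l l1 m m1 n n1 with k | k | k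
    · exact absurd ⟨al a, (l2.trans (h.jr l l1 m m1 k)).trans m2.symm⟩ ha
    · exact absurd ⟨al b, (l2.trans (h.jr l l1 n n1 k)).trans n2.symm⟩ hb
    · exact (m2.trans (h.jr m m1 n n1 k)).trans n2.symm
  have e1 := cmp_le_two hM hm hT
  have e2 := chiC_le_two hM hm (fun q _ => al q) (fun a b k ha => (sat.compl a b k).1 ha) c2
  have e : chi A z = chiC (cmp (LA A z) p) + chiC (cmp (LA A z) p)ᶜ := by
    rw [chi_eq_chiC hm, ← chiC_union disjoint_compl_right, Set.union_compl_self,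
      Set.eq_univ_of_forall al]
  exact ⟨_, sat, hT.conn, c2, by omega, by omega⟩

end Sg

end Crest.Agent.X212.Hp13
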