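import Crest.Agent.X212.Alg36.Inc3
import Crest.Agent.X212.Hp13.Srg

/-!
# X212 / Hp13 (helper13): INC for an upper disc, without exactness (after helper36's `incU`)
-/

set_option autoImplicit false
set_option linter.unusedSectionVars false

open Finset Classical

namespace Crest.Agent.X212.Hp13

open Crest.Agent.X212.Alg36
open Crest.Agent.X212.Sf30 (la_upper lv_le_of_le)

/-- a maximal surface `X` and a disc `E` of `Y` above it: a positive closed union of pieces -/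
theorem incU0 (s : St) (X Y : s.P → s.P → ℤ) [hX : IsCoc s.A X] [hY : IsCoc s.A Y]
    [i1 : IsCoc (Ch.top ⁻¹' s.A) (pb Ch.top X)]
    (E : Set (Lv s.A Y)) (good : Good s) (hup : IsUpperSet s.A) (sx : Sf s.A X) (mx : Max s X)
    (jx : ∀ x y, Dp s.A x y → X x y ≤ 1) (mY : Mono s.A Y) (sub : E ⊆ LA s.A Y) (hi : Inj E)
    (hc : Conn E) (h1 : chiC E = 1) (hu : IsUpperSet E) (hl : ¬ IsLowerSet E)
    (j0 : ∀ p ∈ E, ∀ q ∈ E, q ≤ p → X q.1.1.top p.1.1.top = 0)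
    (j1 : ∀ p ∈ E, ∀ q, q ∉ E → q ≤ p → X q.1.1.top p.1.1.top = 1) :
    IsLowerSet (Gam X E) ∧ ∃ D : Set (Lv (Ch.top ⁻¹' s.A) (pb Ch.top X)),
      D ⊆ LA _ _ \ Gam X E ∧ (∀ p ∈ D, ∀ r ∈ LA _ _ \ Gam X E, Cm p r → r ∈ D) ∧ ¬ Tch _ _ D ∧
      0 < chiC D := by
  have mX := sx.mono
  have hA : ∀ p ∈ E, p.1.1.top ∈ s.A := fun p k => Alg36.mt_up hup (sub k)
  set S := {q | ∃ e ∈ E, Cm e q} with hS
  have mixiff : ∀ K ∈ Cq S, K ∈ mix E ↔ 0 < X K.bot.1.1.top K.top.1.1.top := fun K hK => by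
    by_cases b : K.top ∈ E
    · by_cases a : K.bot ∈ E
      · exact iff_of_false (fun ⟨_, x, c, d⟩ => d (hu (Ch.bot_le c) a))
          (by rw [j0 _ b _ a K.bot_le_top]; norm_num)
      · exact iff_of_true ⟨⟨_, K.top_mem, b⟩, _, K.bot_mem, a⟩
          (by rw [j1 _ b _ a K.bot_le_top]; norm_num)
    · refine iff_of_false (fun c => b (Alg36.mt_up hu c.1)) ?_
      obtain ⟨e, he, c⟩ := hK _ K.top_mem
      have c := c.resolve_left fun k => b (hu k he)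
      have t1 := j1 e he _ b c
      have t2 := j1 e he _ (fun k => b (hu K.bot_le_top k)) (K.bot_le_top.trans c)
      have t3 := hX.coc.add' e.2.1 (Lv.ch_le (K.bot_le_top.trans c) K.bot.1.1.top_mem)
        (Lv.ch_le c K.top.1.1.top_mem) e.1.1.top_mem (Ch.top_mono (Lv.ch_le K.bot_le_top))
        (Ch.top_mono (Lv.ch_le c))
      omega
  haveI i2 : IsCoc (Ch.top ⁻¹' (Ch.top ⁻¹' s.A)) (pb Ch.top (pb Ch.top X)) :=
    ⟨i1.coc.pb Ch.top_mono⟩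
  have gam : ∀ K ∈ Cq S, ∀ q : Lv (Ch.top ⁻¹' s.A) (pb Ch.top X), q.1.1 ≤ io K → q ∈ Gam X E := by
    intro K hK q k
    obtain ⟨L, a, b⟩ := io_face k
    refine ⟨L, (mixiff L (lower_cq S a hK)).2 ?_, b⟩
    rw [← bot_io, ← top_io, b]
    exact q.2.2.1.trans_lt q.2.2.2
  have low : IsLowerSet (Gam X E) := fun p q a ⟨K, b, c⟩ => gam K (near b.1) q (c ▸ Lv.ch_le a)
  obtain ⟨lw, eu1⟩ := low_io good.mf mY sub hA hi hu hl hc
  rw [← hS] at lw eu1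
  have g1 := Good.sd good
  have m1 : Mono (Ch.top ⁻¹' s.A) (pb Ch.top X) := mX.pb Ch.top_mono
  have j2 : ∀ x y, Dp (Ch.top ⁻¹' (Ch.top ⁻¹' s.A)) x y → pb Ch.top (pb Ch.top X) x y ≤ 1 :=
    fun x y k => jx _ _ ((k.map Ch.top_mono).map Ch.top_mono)
  obtain ⟨z', z1, z2, -, -, z3⟩ := swap_low (Mf.sd (Mf.sd good.mf))
    (Bnd.sd g1.conv g1.nice g1.bnd) lw (eu1.trans h1)
    (show Sf (Ch.top ⁻¹' (Ch.top ⁻¹' s.A)) (pb Ch.top (pb Ch.top X)) from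
      (Desc.sd s.sd).sf ((Desc.sd s).sf sx))
    (by
      rintro x _ k a ⟨L, b, rfl⟩
      obtain ⟨K, c, rfl⟩ := io_face k.1
      simp only [pb, top_io]
      exact (j1 _ (Alg36.mt_up hu b.2) _ (fun d => a ⟨K, ⟨lower_cq S c b.1, _, K.top_mem, d⟩, rfl⟩)
        (Ch.top_mono c)).ge)
    (by
      rintro _ _ k ⟨K, a, rfl⟩ ⟨L, b, rfl⟩
      simp only [pb, top_io]
      exact j0 _ (Alg36.mt_up hu b.2) _ (Alg36.mt_up hu a.2) (Ch.top_mono (hi.le a.1 b.1 k.1)))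
  obtain ⟨D, d1, d2, d3⟩ := z3.resolve_left
    ((mx.desc (Desc.sd s)).desc (Desc.sd s.sd) _ _ Desc.refl z' z1 z2).not_gt inferInstance
  have cw : ∀ p, p ∈ CW (Ch.top ⁻¹' (Ch.top ⁻¹' s.A)) (pb Ch.top (pb Ch.top X)) (io '' Ce S E) ↔
      p.1.1.top ∈ io '' Ce S E := fun p =>
    ⟨fun a => a.1, fun a => ⟨a, by rw [(lev_zero j2 p).1, (lev_zero j2 p).2]; rfl⟩⟩
  have R := Kh11.ce_top.rf (Ch.top ⁻¹' s.A) (pb Ch.top X)
  have mim : ∀ (d : Ch (Ch (Ch s.P))) c, c ∈ (R.im d).1 ↔ ∃ C ∈ d.1, C.top = c :=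
    fun d c => Ch.mem_img
  have cwB : ∀ p : Lv _ (pb Ch.top (pb Ch.top X)), p.1.1.top ∈ io '' Ce S E →
      R.map p ∈ Gam X E := fun p ⟨K, a, b⟩ => gam K a.1 _ fun c hc => by
    obtain ⟨C, c1, rfl⟩ := (mim _ c).1 hc
    exact b ▸ Ch.le_top c1 C.top_mem
  have emb := emb_univ (m1.pb Ch.top_mono) j2
  have le : ∀ p q : Lv _ (pb Ch.top (pb Ch.top X)), p.1.1 ≤ q.1.1 → p ≤ q :=
    fun p q => emb p trivial q trivial
  -- the strip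
  have z : chiC (D ∩ R.map ⁻¹' Gam X E) = 0 := by
    have k : ∀ C : Ch (Ch s.P), ∃ r : Ch (Ch s.P), ∀ p ∈ S, p.1.1 = C.top →
        ∀ c, c ∈ r.1 ↔ c ∈ C.1 ∧ ∃ k, k ≤ p ∧ k.1.1 = c := fun C => by
      by_cases a : ∃ p ∈ S, p.1.1 = C.top
      · obtain ⟨p, a, b⟩ := a
        refine ⟨C.sub (C.1.filter fun c => ∃ k, k ≤ p ∧ k.1.1 = c)
          ⟨_, mem_filter.2 ⟨C.top_mem, p, le_rfl, b⟩⟩ (filter_subset _ _), fun q c d e => ?_⟩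
        rw [hi q p c a (d.trans b.symm)]
        exact mem_filter
      · exact ⟨C, fun p b c => absurd ⟨p, b, c⟩ a⟩
    choose r hr using k
    have top : ∀ p : Lv _ (pb Ch.top (pb Ch.top X)), ∀ L : Ch (Lv s.A Y),
        io L = (R.map p).1.1 → ∀ x ∈ p.1.1.1, ∃ u ∈ L.1, u.1.1 = x.top := fun p L e x hx =>
      mem_io.1 (by rw [e]; exact (mim _ _).2 ⟨x, hx, rfl⟩)
    have rt : ∀ (x : Ch (Ch s.P)) (u : Lv s.A Y), u ∈ S → u.1.1 = x.top →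
        r x ≤ x ∧ (r x).top = x.top := fun x u a b =>
      have l : r x ≤ x := fun c hc => ((hr x u a b c).1 hc).1
      ⟨l, le_antisymm (Ch.top_mono l) (Ch.le_top ((hr x u a b _).2 ⟨x.top_mem, u, le_rfl, b⟩))⟩
    have nq : ∀ p ∈ D ∩ R.map ⁻¹' Gam X E, p.1.1.top ∉ io '' Cq S := by
      rintro p ⟨a, L, b, c⟩ ⟨K, d, e⟩
      refine (d1.sub a).2 ((cw p).2 ⟨K, ⟨d, _, K.top_mem, ?_⟩, e⟩)
      rw [hi K.top L.top (d _ K.top_mem) (near b.1 _ L.top_mem)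
        (by rw [← top_io, ← top_io, e, c]; exact (R.im_top _).symm)]
      exact Alg36.mt_up hu b.1
    rw [chiC_eq_of (T := Lv.ch '' (D ∩ R.map ⁻¹' Gam X E)) Ch.sg (fun c p => p.1.1 = c)
      (fun c a => a) (fun p a => ⟨_, ⟨p, a, rfl⟩, rfl⟩) (fun _ _ _ _ _ a b => a.symm.trans b)
      (fun _ p q a b => le_antisymm (le _ _ (a.trans b.symm).le) (le _ _ (a.trans b.symm).ge))
      fun _ _ a => by rw [a]]
    refine strip (Q := io '' Cq S) r (by rintro _ ⟨p, a, rfl⟩; exact nq p a) ?_ ?_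
    · rintro _ ⟨p, ⟨-, L, b, c⟩, rfl⟩ x hx -
      obtain ⟨u, u1, u2⟩ := top p L c x hx
      have uS : u ∈ S := near b.1 u u1
      obtain ⟨r1, r2⟩ := rt x u uS u2
      refine ⟨?_, r1, ?_⟩
      · obtain ⟨k, k1, k2⟩ := ((hr x u uS u2 _).1 (r x).bot_mem).2
        obtain ⟨K, l1, l2⟩ := io_lift mY k (C := r x) k2.le (by rw [r2, ← u2]; exact u.2.1)
        have : K.top = u := Sf30.lv_eq_of_ge (l2 _ K.top_mem) k1 (by rw [← top_io, l1, r2, u2])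
        refine ⟨K, fun v hv => ?_, l1⟩
        have hv' : v ≤ L.top := (this ▸ Ch.le_top hv).trans (Ch.le_top u1)
        exact ⟨_, Alg36.mt_up hu b.1, Or.inr hv'⟩
      · rintro _ hy ⟨K, k1, rfl⟩ k2 c hc
        obtain ⟨v, v1, rfl⟩ := mem_io.1 hc
        obtain ⟨t, t1, t2⟩ := top p L c _ hy
        rw [top_io] at t2
        have : t ≤ u := lv_le_of_le (Ch.le_top t1) (Ch.le_top u1)
          (by rw [t2, u2, ← top_io]; exact Ch.top_mono k2)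
        exact (hr x u uS u2 _).2 ⟨k2 hc, v, (Ch.le_top v1).trans
          (hi t K.top (near b.1 t t1) (k1 _ K.top_mem) t2 ▸ this), rfl⟩
    · rintro _ ⟨p, a, rfl⟩ x hx nx d hd
      obtain ⟨L, b, c⟩ := a.2
      obtain ⟨u, u1, u2⟩ := top p L c x hx
      obtain ⟨r1, r2⟩ := rt x u (near b.1 u u1) u2
      have ne : ∀ y ∈ p.1.1.1, x ≤ y → y ≠ r x := fun y _ k e => nx (by
        have ex : r x = x := le_antisymm r1 (e ▸ k)
        obtain ⟨k, k1, k2⟩ := ((hr x u (near b.1 u u1) u2 x.bot).1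
          (by rw [ex]; exact x.bot_mem)).2
        obtain ⟨K, l1, l2⟩ := io_lift mY k (C := x) k2.le (by rw [← u2]; exact u.2.1)
        have : K.top = u := Sf30.lv_eq_of_ge (l2 _ K.top_mem) k1 (by rw [← top_io, l1, u2])
        exact ⟨K, fun v hv => ⟨_, Alg36.mt_up hu b.1,
          Or.inr ((this ▸ Ch.le_top hv).trans (Ch.le_top u1))⟩, l1⟩)
      have m : (∀ y ∈ d.1, y = r x ∨ y ∈ p.1.1.1) ∧ (∀ y ∈ p.1.1.1, y ≠ r x → y ∈ d.1) ∧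
          Cm p.1.1 d := by
        rcases hd with e | e
        · exact ⟨fun y hy => mem_insert.1 (e ▸ hy), fun y hy _ => e ▸ mem_insert_of_mem hy,
            Or.inl (by rw [Ch.le_iff, e]; exact subset_insert _ _)⟩
        · exact ⟨fun y hy => Or.inr (mem_erase.1 (e ▸ hy)).2,
            fun y hy k => e ▸ mem_erase.2 ⟨k, hy⟩,
            Or.inr (by rw [Ch.le_iff, e]; exact erase_subset _ _)⟩
      have dt : d.top = p.1.1.top := Ch.top_eq (m.2.1 _ p.1.1.top_mem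
        (ne _ p.1.1.top_mem (Ch.le_top hx))) fun y hy => (m.1 y hy).elim
          (fun e => e ▸ r1.trans (Ch.le_top hx)) Ch.le_top
      have im : R.im d = (R.map p).1.1 := Ch.ext (Finset.ext fun c => by
        rw [mim, Kh11.Rf.map_ch, mim]
        refine ⟨fun ⟨y, hy, e⟩ => ?_, fun ⟨y, hy, e⟩ => ?_⟩
        · rcases m.1 y hy with rfl | k
          exacts [⟨x, hx, r2 ▸ e⟩, ⟨y, k, e⟩]
        · by_cases k : y = r x
          exacts [⟨x, m.2.1 x hx (ne x hx le_rfl), by rw [← r2, ← k, e]⟩, ⟨y, m.2.1 y hy k, e⟩])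
      have md : Mt (Ch.top ⁻¹' (Ch.top ⁻¹' s.A)) d := R.mt.1 (im ▸ R.map_LA.2 (d1.sub a.1).1)
      refine ⟨R.lift (R.map p) d md.dom im, ⟨d1.clopen a.1 ⟨md, fun k => (d1.sub a.1).2
        ((cw p).2 (dt ▸ (cw _).1 k))⟩ (m.2.2.imp (le _ _) (le _ _)), ?_⟩, rfl⟩
      rw [Set.mem_preimage, R.map_lift]; exact a.2
  -- projection to the first level
  let V := LA (Ch.top ⁻¹' s.A) (pb Ch.top X) \ Gam X E
  have hV : V.OrdConnected := ⟨fun a ha b _ c hc => ⟨la_upper hc.1 ha.1, fun k => ha.2 (low hc.1 k)⟩⟩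
  have ws := R.ws m1 (V := V) (fun _ k => k.1) hV
  have inV : ∀ p ∈ D \ R.map ⁻¹' Gam X E, p ∈ R.map ⁻¹' V := fun p k =>
    ⟨R.map_LA.2 (d1.sub k.1).1, k.2⟩
  have clo : ∀ p ∈ D \ R.map ⁻¹' Gam X E, ∀ q ∈ R.map ⁻¹' V, Cm p q →
      q ∈ D \ R.map ⁻¹' Gam X E := fun p k q l c =>
    ⟨d1.clopen k.1 ⟨R.map_LA.1 l.1, fun a => l.2 (cwB q ((cw q).1 a))⟩ c, l.2⟩
  have key : ∀ p ∈ D \ R.map ⁻¹' Gam X E, ∀ q ∈ R.map ⁻¹' V, Rch V (R.map p) (R.map q) →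
      q ∈ D \ R.map ⁻¹' Gam X E := fun p k q l c =>
    ((((ws.rch_iff (inV p k) l).2 c).in_clopen clo k).mem k)
  have sV : R.map '' (D \ R.map ⁻¹' Gam X E) ⊆ V := by rintro _ ⟨p, k, rfl⟩; exact inV p k
  have pre : R.map ⁻¹' (R.map '' (D \ R.map ⁻¹' Gam X E)) = D \ R.map ⁻¹' Gam X E :=
    Set.ext fun q => ⟨fun ⟨p, k, e⟩ => key p k q (sV ⟨p, k, e⟩) (e ▸ Rch.rfl), fun k => ⟨q, k, rfl⟩⟩
  refine ⟨low, _, sV, ?_, fun k => d2 ?_, ?_⟩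
  · rintro _ ⟨p, k, rfl⟩ r l c
    obtain ⟨q, rfl⟩ := R.surj l.1
    exact ⟨q, key p k q l (Rch.of_cm (inV p k) l c), rfl⟩
  · rw [← R.tch_pre fun _ a => (sV a).1, pre] at k
    obtain ⟨p, a, b⟩ := k
    exact ⟨p, a.1, b⟩
  · have := chiC_split D (R.map ⁻¹' Gam X E)
    rw [← R.chiC_pre fun _ a => (sV a).1, pre]
    omega

/-- from a positive closed union of pieces to a disc -/
theorem piece_of {P : Type} [PartialOrder P] [Fintype P] {A : Set P} {w : P → P → ℤ} [IsCoc A w]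
    (hM : Mf 3 A) (hw : Sf A w) {G D : Set (Lv A w)} (hG : IsLowerSet G) (hD : D ⊆ LA A w \ G)
    (hc : ∀ p ∈ D, ∀ r ∈ LA A w \ G, Cm p r → r ∈ D) (hT : ¬ Tch A w D) (h0 : 0 < chiC D) :
    ∃ C, IsCmp (LA A w \ G) C ∧ ¬ Tch A w C ∧ chiC C = 1 ∧ ∃ p ∈ C, ∃ q ∈ G, q ≤ p := by
  obtain ⟨p, hp, pos⟩ := exists_cmp_pos hD hc h0
  have hC := isCmp_cmp (hD hp)
  have hT' : ¬ Tch A w (cmp (LA A w \ G) p) := fun ⟨b, b1, b2⟩ =>
    hT ⟨b, (Rch.in_clopen hc hp b1.2).mem hp, b2⟩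
  obtain ⟨b, ⟨b1, b2⟩, b3⟩ := hw.noCl _ (isCmp_cmp (hD hp).1)
  rcases b2.exit (hD hp).2 with ⟨k1, k⟩ | ⟨r, r1, r2, x, -, x2, x3⟩
  · exact absurd ⟨b, ⟨⟨b1, k1⟩, k⟩, b3⟩ hT'
  · exact ⟨_, hC, hT', le_antisymm (chiC_le_one hM hw.mono (fun _ k => k.1.1)
      (hC.upper (la_upper.sdiff_of_isLowerSet hG)) hC.conn ⟨r1, r2⟩ (fun k => k.1.2 x2) x3) pos,
      r, ⟨r1, r2⟩, x, x2, x3.resolve_left fun k => r1.2 (hG k x2)⟩

/-- **INC, upper disc** -/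
theorem incU1 (s : St) (X Y : s.P → s.P → ℤ) [hX : IsCoc s.A X] [hY : IsCoc s.A Y]
    [i1 : IsCoc (Ch.top ⁻¹' s.A) (pb Ch.top X)]
    (E : Set (Lv s.A Y)) (good : Good s) (hup : IsUpperSet s.A) (sx : Sf s.A X) (mx : Max s X)
    (jx : ∀ x y, Dp s.A x y → X x y ≤ 1) (mY : Mono s.A Y) (sub : E ⊆ LA s.A Y) (hi : Inj E)
    (hc : Conn E) (h1 : chiC E = 1) (hu : IsUpperSet E) (hl : ¬ IsLowerSet E)
    (j0 : ∀ p ∈ E, ∀ q ∈ E, q ≤ p → X q.1.1.top p.1.1.top = 0)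
    (j1 : ∀ p ∈ E, ∀ q, q ∉ E → q ≤ p → X q.1.1.top p.1.1.top = 1) :
    IsLowerSet (Gam X E) ∧ ∃ C : Set (Lv (Ch.top ⁻¹' s.A) (pb Ch.top X)),
      IsCmp (LA _ _ \ Gam X E) C ∧ ¬ Tch _ _ C ∧ chiC C = 1 ∧ ∃ p ∈ C, ∃ q ∈ Gam X E, q ≤ p :=
  let ⟨a, _, b, c, d, e⟩ := incU0 s X Y E good hup sx mx jx mY sub hi hc h1 hu hl j0 j1
  ⟨a, piece_of (Mf.sd good.mf) (show Sf (Ch.top ⁻¹' s.A) (pb Ch.top X) from (Desc.sd s).sf sx)
    a b c d e⟩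

end Crest.Agent.X212.Hp13
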