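import Crest.Agent.X212.Hp13.Thk
import Crest.Agent.X212.Sup43.Defs

/-!
# X212 / Hp13 (helper13): the moves M3 and M4 of `Sup43`
-/

set_option autoImplicit false
set_option linter.unusedSectionVars false

open Finset Classical

noncomputable section

namespace Crest.Agent.X212.Hp13

open Sup43

section gen

variable {P : Type} [PartialOrder P] [Fintype P] {A : Set P} {X z w : P → P → ℤ} [IsCoc A z]
  [IsCoc A w]

theorem LR.ii {R : Lv A w → Lv A z → Prop} (h : LR R) {p r : Lv A w} {q r' : Lv A z} (k : R p q)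
    (k' : R r r') (hp : p ∈ LA A w) (l : r ≤ p) (j : 1 ≤ X r.1.1.top p.1.1.top) : q ∈ II A X z :=
  ⟨(h.la k).1 hp, r', (h.le_iff k' k).1 l, by rwa [h.ch k, h.ch k']⟩

theorem Sg.mu_lt {R : Lv A w → Lv A z → Prop} {Xs : Set (Lv A w)} {Ys N : Set (Lv A z)}
    {J : Lv A z → Lv A z → Prop} (h : Sg R Xs Ys N J) (hm : Mono A z) {K : Set (Lv A w)}
    (hK : IsUpperSet K) (hX : Xs ⊆ K) (hN : IsUpperSet N) (hKN : ∀ p q, R p q → p ∈ K → q ∈ N)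
    (h0 : ∀ q ∈ N, q ∉ II A X z)
    (hcl : ∀ p ∈ II A X w, ∀ p' ∈ II A X w, p' ≤ p → p ∈ K → p' ∈ K)
    (hne : ∃ k ∈ II A X w, k ∈ K) (hc : Coc A (cnt (Cls A z)ᶜ)) (hw : Coc A w) :
    mu A X (cnt (Cls A z)ᶜ) hc < mu A X w hw := by
  obtain ⟨k, k1, k2⟩ := hne
  have : IsCoc A (cnt (Cls A z)ᶜ) := ⟨hc⟩
  have sat : Sat (Cls A z)ᶜ := sat_cls.compl
  have l := sat.lr hm
  have dn : ∀ {q b}, PR (Cls A z)ᶜ q b → b ∈ II A X (cnt (Cls A z)ᶜ) → q ∈ II A X z :=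
    fun {q b} j ⟨b1, r, r1, r2⟩ => let ⟨_, j'⟩ := sat.exists_pr' hm r; l.symm.ii j j' b1 r1 r2
  refine ncard_cmp_lt (fun b a => ∃ q, PR (Cls A z)ᶜ q b ∧ R a q) k1 (fun b hb => ?_) ?_
  · obtain ⟨q, j⟩ := sat.exists_pr' hm b
    have hq := dn j hb
    obtain ⟨p, -, p2⟩ := h.tot' q fun i => h0 q (h.yn i) hq
    obtain ⟨q1, r, r1, r2⟩ := id hq
    obtain ⟨r', -, r3⟩ := h.tot' r fun i => h0 q (hN r1 (h.yn i)) hq
    refine ⟨p, h.lr.symm.ii p2 r3 q1 r1 r2, ⟨q, j, p2⟩, fun i => h0 q (hKN p q p2 ?_) hq⟩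
    exact i.ind k2 fun a ha b hb ab => ⟨fun u => hK ab u, hcl b hb a ha ab⟩
  · rintro b hb b' - a a' ⟨q, q1, q2⟩ ⟨q', q3, q4⟩ i
    have i1 : Rch (II A X w \ K) a a' := by
      by_cases e : a ∈ II A X w
      · exact Rch.in_clopen (C := II A X w \ K) (fun x hx y hy xy => ⟨hy, fun u => hx.2
          (xy.elim (fun v => hcl y hy x hx.1 v u) fun v => hK v u)⟩)
          ⟨e, fun u => h0 q (hKN a q q2 u) (dn q1 hb)⟩ i
      · rcases i.cases_head with rfl | ⟨_, u, -⟩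
        exacts [Rch.rfl, absurd u.1 e]
    have i2 : Rch (II A X z) q q' := h.lr.rch (S := II A X w \ K) (fun p ⟨⟨p1, r, r1, r2⟩, p2⟩ => by
      obtain ⟨u, -, u2⟩ := h.tot p fun j => p2 (hX j)
      obtain ⟨v, -, v2⟩ := h.tot r fun j => p2 (hK r1 (hX j))
      exact ⟨u, h.lr.ii u2 v2 p1 r1 r2, u2⟩) q2 q4 i1
    exact l.rch (S := II A X z ∩ (Cls A z)ᶜ) (fun p ⟨⟨p1, r, r1, r2⟩, p2⟩ => by
      obtain ⟨u, u2⟩ := sat.exists_pr hm p2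
      obtain ⟨v, v2⟩ := sat.exists_pr hm ((sat r p r1).2 p2)
      exact ⟨u, l.ii u2 v2 p1 r1 r2, u2⟩) q1 q3 (sat.rch q1.1 i2)

theorem Lv.hi {r q : Lv A z} (h : r ≤ q) : q.1.2 < z q.1.1.bot r.1.1.top :=
  not_le.1 fun k => Sf30.not_lo_top r ((Sf30.lo_iff h r.1.1.top_mem).1 k)

theorem mt_top (hA : IsUpperSet A) {c : Ch P} (h : Mt A c) : c.top ∈ A :=
  let ⟨_, h1, h2⟩ := h; hA (Ch.le_top h1) h2

end gen

section piece

variable {s : St} {X Y : s.P → s.P → ℤ} {ω : s.P → ℤ} [IsCoc s.A X] {E : Set (Lv s.A X)}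

/-- the chains that carry a cell of `X` -/
def MX (s : St) (X : s.P → s.P → ℤ) : Set (Ch s.P) := Lv.ch '' (Set.univ : Set (Lv s.A X))

theorem mem_MX {c : Ch s.P} (h1 : Dom s.A c) (h2 : 1 ≤ X c.bot c.top) : c ∈ MX s X :=
  ⟨⟨(c, 0), h1, le_rfl, h2⟩, trivial, rfl⟩

variable (hP : Pos s X Y ω)
include hP

theorem pos_emb : Emb (Set.univ : Set (Lv s.A X)) := emb_univ hP.sx.mono hP.jx

theorem pos_le {p q : Lv s.A X} (h : p.ch ≤ q.ch) : p ≤ q := pos_emb hP p trivial q trivial h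

theorem pos_lev (p : Lv s.A X) : p.1.2 = 0 ∧ X p.1.1.bot p.1.1.top = 1 := by
  have := hP.jx _ _ p.2.1.bt
  have := p.2.2
  omega

theorem pos_Y {p q : Lv s.A X} (h : p ≤ q) : Y q.1.1.bot p.1.1.bot = nu ω p - nu ω q ∧
    0 ≤ Y q.1.1.bot p.1.1.bot := by
  obtain ⟨h1, h2⟩ := Lv.le_iff.1 h
  have d := q.2.1.dp q.1.1.bot_mem (h1 p.1.1.bot_mem) (Ch.bot_anti h1)
  have := hP.ex _ _ d
  simp only [Pi.add_apply, cb] at this
  exact ⟨by unfold nu; omega, hP.sy.mono _ _ d⟩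

variable (hE : Pc (LA s.A X) (nu ω) E)
include hE

theorem pc_sub : E ⊆ LA s.A X := let ⟨_, h⟩ := hE.cmp; fun _ k => (h.sub k).1

theorem pc_conn : Conn E := let ⟨_, h⟩ := hE.cmp; h.conn

theorem pc_la {p q : Lv s.A X} (hp : p ∈ E) (h : Cm p q) : q ∈ LA s.A X :=
  h.elim (LA.upper (pc_sub hP hE hp)) (hE.cl p hp q)

theorem pc_iff {p q : Lv s.A X} (hp : p ∈ E) (h : Cm p q) : q ∈ E ↔ nu ω q = nu ω p :=
  let ⟨_, k⟩ := hE.cmp
  ⟨fun j => (k.sub j).2.trans (k.sub hp).2.symm,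
    fun j => k.clopen hp ⟨pc_la hP hE hp h, j.trans (k.sub hp).2⟩ h⟩

theorem pc_top {p : Lv s.A X} (hp : p ∈ E) {c : Ch s.P} (hc : c ∈ MX s X) (h : Cm p.ch c) :
    c.top ∈ s.A := by
  obtain ⟨q, -, rfl⟩ := hc
  exact mt_top hP.up (pc_la hP hE hp (h.imp (pos_le hP) (pos_le hP)))

theorem pc_be {p : Lv s.A X} (hp : p ∈ E) {C : Ch (Ch s.P)} (hC : C ∈ Cq (MX s X))
    (h : ∀ c ∈ C.1, Cm p.ch c) : be s.A C = C.bot.bot :=
  be_in fun c hc => pc_top hP hE hp (hC c hc) (h c hc)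

/-- Q-FORM -/
theorem pc_form {p : Lv s.A X} (hp : p ∈ E) {C W : Ch (Ch s.P)} (hW : p.ch ∈ W.1) (h : C ≤ W)
    (h1 : 1 ≤ X (be s.A C) (be s.A W)) : C ∈ Cq (MX s X) := by
  have hm : Dom s.A W.top := (Mt.mono (pc_sub hP hE hp) (Ch.le_top hW)).dom
  have hc := hP.sx.coc
  have key : ∀ c ∈ W.1, C.bot.bot ∈ c.1 → be s.A W ∈ c.1 → c ∈ MX s X := fun c c1 c2 c3 => by
    have d := hm.mono (Ch.le_top c1)
    have l1 := bb_le_be s.A C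
    have l2 := be_mono hP.up h
    have m : be s.A C ∈ W.top.1 := Ch.top_mono h (be_mem _ C)
    have := hP.sx.mono.le_range hc d c2 c3 (l1.trans l2)
    have := hc.add' hm (Ch.le_top c1 c2) m (be_mem _ W) l1 l2
    have := hP.sx.mono _ _ (hm.dp (Ch.le_top c1 c2) m l1)
    exact mem_MX d (by omega)
  intro c hc
  refine key c (h hc) (Ch.bot_le hc C.bot.bot_mem) ?_
  rcases be_cases s.A W with ⟨-, e⟩ | ⟨d, d1, d2, -, e⟩
  · rw [e]; exact Ch.bot_le (h hc) W.bot.bot_mem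
  · rcases W.total d1 (h C.bot_mem) with k | k
    · rw [e]; exact Ch.bot_le hc (k d.top_mem)
    · exact absurd (pc_top hP hE hp (key d d1 (k C.bot.bot_mem) (e ▸ d.top_mem)) (W.cm hW d1)) d2

/-- the jump of the thickened `Y` inside `Q` -/
theorem pc_Y {p : Lv s.A X} (hp : p ∈ E) {C D : Ch (Ch s.P)} (hD : D ∈ Cq (MX s X))
    (h : ∀ c ∈ D.1, Cm p.ch c) (l : C ≤ D) : ∃ q r : Lv s.A X, q.ch = C.bot ∧ r.ch = D.bot ∧
      r ≤ q ∧ Cm p q ∧ Cm p r ∧ pb (be s.A) Y C D = nu ω r - nu ω q ∧ 0 ≤ pb (be s.A) Y C D := by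
  obtain ⟨q, -, e1⟩ := hD _ (l C.bot_mem)
  obtain ⟨r, -, e2⟩ := hD _ D.bot_mem
  have k : r ≤ q := pos_le hP (by rw [e1, e2]; exact Ch.bot_anti l)
  refine ⟨q, r, e1, e2, k, (e1 ▸ h _ (l C.bot_mem)).imp (pos_le hP) (pos_le hP),
    (e2 ▸ h _ D.bot_mem).imp (pos_le hP) (pos_le hP), ?_⟩
  rw [pb, pc_be hP hE hp (lower_cq _ l hD) fun c hc => h c (l hc), pc_be hP hE hp hD h, ← e1, ← e2]
  exact pos_Y hP k

/-- a point of `U₂` over a point of `Q` -/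
theorem pc_over {p : Lv s.A X} (hp : p ∈ E) {C : Ch (Ch s.P)} (hC : C ∈ Cq (MX s X))
    (h : ∀ c ∈ C.1, Cm p.ch c) : ∃ W, C ≤ W ∧ 1 ≤ pb (be s.A) X C W := by
  have l : ∀ c ∈ C.1, Ch.pt C.bot.top ≤ c := fun c hc => Ch.pt_le.2 (Ch.bot_le hc C.bot.top_mem)
  refine ⟨C.ins (Ch.pt C.bot.top) fun c hc => Or.inl (l c hc), C.le_ins _ _, ?_⟩
  have e : (C.ins (Ch.pt C.bot.top) fun c hc => Or.inl (l c hc)).bot = Ch.pt C.bot.top :=
    Ch.bot_eq (mem_insert_self _ _) fun c hc => (mem_insert.1 hc).elim (fun e => e.ge) (l c)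
  rw [pb, pc_be hP hE hp hC h, be_in, e, Ch.bot_pt]
  · obtain ⟨q, -, e⟩ := hC _ C.bot_mem
    rw [← e]; exact (pos_lev hP q).2.ge
  · intro c hc
    rcases mem_insert.1 hc with rfl | hc
    · simpa using pc_top hP hE hp (hC _ C.bot_mem) (h _ C.bot_mem)
    · exact pc_top hP hE hp (hC c hc) (h c hc)

end piece

theorem m3_core {P : Type} [PartialOrder P] [Fintype P] {A Q E : Set P} {X w : P → P → ℤ}
    (hM : Mf 3 A) (hb : Bnd ℤ A) (low : Low A Q E) (eu1 : eu E = 1) (hs : Sf A w) (hc : Coc A X)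
    (hm : Mono A X) (jump : ∀ x, ∀ y ∈ E, x ≤ y → 0 ≤ w x y ∧ (w x y = 0 ↔ x ∈ E))
    (form : ∀ {e C W}, e ∈ E → e ≤ W → C ≤ W → 1 ≤ X C W → C ∈ Q)
    (ov : ∀ e ∈ E, ∃ W, e ≤ W ∧ 1 ≤ X e W) :
    ∃ Y', ∃ h' : Sf A Y', Eqv A w Y' ∧ chi A w ≤ chi A Y' ∧ mu A X Y' h'.coc < mu A X w hs.coc := by
  have hv := mv_of_lower hs.mono (E := E)
    (fun x y k hx hy => by
      have := jump x y hy k.1
      have : w x y ≠ 0 := fun e => hx (this.2.1 e)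
      omega)
    fun x y k hx hy => (jump x y hy k.1).2.2 hx
  obtain ⟨z, rfl⟩ : ∃ z, w = up z E := ⟨_, (up_sub w E).symm⟩
  rw [show up z E - cb (ind E) = z from add_sub_cancel_right _ _] at hv
  have : IsCoc A z := ⟨by simpa [up] using hs.coc.sub (coc_cb (ind E))⟩
  have sg := low.sg hM hv
  obtain ⟨a, b, c, -⟩ := sg.swap hM hb hv.lo hs (eqv_up low.sub).symm
    (by rw [chi_up hM low.sub, low.ee_eq, eu1]; ring)
  refine ⟨_, a, b, c, sg.mu_lt hv.lo (K := NX A z E) (fun _ _ l k => NX.upper k l)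
    (fun _ => X_sub_NX) (fun _ _ l k => NY.upper k l) (fun _ _ k => k.nb.2) ?_ ?_ ?_ _ _⟩
  · rintro q ⟨e, e1, e2, e3⟩ ⟨-, r, r1, r2⟩
    have hi := Lv.hi (Lv.le_def.1 r1)
    have rm := Lv.ch_le (Lv.le_def.1 r1) r.1.1.top_mem
    rcases q.1.1.total e1 rm with k | k
    · rw [e3, hv.z_eq q.2.1 e1 rm e2
        (low.up e e2 _ (form e2 (Ch.le_top e1) (Ch.le_top rm) r2) k)] at hi
      exact lt_irrefl _ hi
    · have := this.coc.add' q.2.1 q.1.1.bot_mem rm e1 (Ch.bot_le rm) k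
      have := hv.lo _ _ (q.2.1.dp rm e1 k)
      omega
  · rintro p - p' ⟨-, r, r1, r2⟩ l ⟨e, e1, e2, e3⟩
    have r1 := Lv.le_def.1 r1
    obtain ⟨l1, l2⟩ := Lv.le_iff.1 l
    have hi := Lv.hi (r1.trans l)
    have rm := Lv.ch_le r1 r.1.1.top_mem
    have t := l1 p'.1.1.top_mem
    have a1 := hc.add' p.2.1 (l1 rm) t p.1.1.top_mem (Ch.le_top rm) (Ch.le_top t)
    have a2 := hm _ _ (p.2.1.dp t p.1.1.top_mem (Ch.le_top t))
    have a3 := hs.coc.add' p.2.1 p.1.1.bot_mem (l1 p'.1.1.bot_mem) (l1 rm) (Ch.bot_anti l1)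
      (Ch.bot_le rm)
    have m : r.1.1.top ∈ E := by
      rcases p.1.1.total e1 (l1 rm) with k | k
      · exact low.up e e2 _ (form e2 (Ch.le_top e1) (Ch.le_top (l1 rm)) (by omega)) k
      · have := hs.coc.add' p.2.1 p.1.1.bot_mem (l1 rm) e1 (Ch.bot_le (l1 rm)) k
        have := jump _ e e2 k
        exact this.2.1 (by omega)
    refine ⟨_, rm, m, ?_⟩
    have := hv.z_eq p.2.1 e1 (l1 rm) e2 m
    have b1 := up_apply (z := z) (E := E) p.1.1.bot e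
    have b2 := up_apply (z := z) (E := E) p.1.1.bot r.1.1.top
    rw [ind_of_mem e2] at b1
    rw [ind_of_mem m] at b2
    omega
  · obtain ⟨x, hx, e, he, l⟩ := low.ne
    obtain ⟨W, l', k⟩ := ov e he
    have m : Mt A (Ch.tr x e W l l') := ⟨e, by simp [Ch.mem_tr], low.sub he⟩
    have le : Ch.pr x e l ≤ Ch.tr x e W l l' :=
      Ch.pr_le l (by simp [Ch.mem_tr]) (by simp [Ch.mem_tr])
    obtain ⟨r, r1, r2⟩ := hv.exists_X (m.dom.mono le) (by simpa) (by simpa)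
    obtain ⟨p, p1, p2⟩ := Lv.exists_ge hv.hi r m.dom (r2 ▸ le)
    exact ⟨p, ⟨show Mt A p.1.1 from p1 ▸ m, r, p2, by rw [r2, p1, Ch.top_tr]; simpa⟩,
      NX.upper (X_sub_NX r1) p2⟩

theorem m3Stmt : M3Stmt := by
  intro s X Y ω _ ω' E hP hE h1 hl hu h
  have sub := pc_sub hP hE
  have low : Low s.sd.sd.A (Cq (MX s X)) (Ce (MX s X) (Lv.ch '' E)) :=
    (pos_emb hP).low hP.good.mf hP.sx.mono subset_rfl
    (fun _ k => mt_top hP.up k) (fun _ _ _ _ => trivial) sub (fun p hp _ => LA.upper (sub hp))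
    (pc_conn hP hE) (by
      by_contra k
      exact hu fun p q l hp => by_contra fun j => k ⟨p, hp, q, j, Or.inl l⟩)
  have mem : ∀ {C : Ch (Ch s.P)} {q : Lv s.A X}, C ∈ Cq (MX s X) → q.ch = C.bot →
      (C ∈ Ce (MX s X) (Lv.ch '' E) ↔ q ∈ E) :=
    fun {C q} hC e => ⟨fun ⟨_, _, c1, p, p1, p2⟩ =>
      hl (pos_le hP (by rw [e, p2]; exact Ch.bot_le c1)) p1,
      fun k => ⟨hC, _, C.bot_mem, q, k, e⟩⟩
  refine m3_core h.good.mf h.good.bnd low ?_ h.sy h.sx.coc h.sx.mono ?_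
    (fun ⟨_, _, c1, p, p1, e⟩ l l' k => pc_form hP hE p1 (l (e ▸ c1)) l' k)
    fun e ⟨c, _, c1, p, p1, j⟩ => pc_over hP hE p1 c fun c => e.cm (j ▸ c1)
  · exact (eu_ce (Set.image_mono (Set.subset_univ _))).trans
      (((pos_emb hP).mono (Set.subset_univ _)).eu.trans
      ((eu_lower hP.good.mf hP.sx.mono sub hl).trans h1))
  · rintro C D ⟨hD, _, c1, p, p1, rfl⟩ l
    obtain ⟨q, r, e1, e2, k, -, -, e3, e4⟩ := pc_Y hP hE p1 hD (fun c => D.cm c1) l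
    have rE := (mem hD e2).1 ⟨hD, _, c1, p, p1, rfl⟩
    refine ⟨e4, Iff.symm (((mem (lower_cq _ l hD) e1).trans (pc_iff hP hE rE (Or.inl k))).trans ?_)⟩
    exact ⟨fun j => e3.trans (by omega), fun j => by have := e3.symm.trans j; omega⟩

theorem m4_core {P : Type} [PartialOrder P] [Fintype P] {A Q F : Set P} {X z : Ch P → Ch P → ℤ}
    (hM : Mf 3 A) (hb : Bnd ℤ (Ch.top ⁻¹' A : Set (Ch P))) (low : Low A Q F) (eu1 : eu F = 1)
    (hR : (Ch.bot ⁻¹' F : Set (Ch P)) ⊆ Ch.top ⁻¹' A) (hs : Sf (Ch.top ⁻¹' A) z)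
    (hc : Coc (Ch.top ⁻¹' A) X) (hm : Mono (Ch.top ⁻¹' A) X)
    (jump : ∀ x y : Ch P, x.bot ∈ F → x ≤ y → 0 ≤ z x y ∧ (z x y = 0 ↔ y.bot ∈ F))
    (form : ∀ {e D W : Ch P}, e.bot ∈ F → e ≤ W → D ≤ W → 1 ≤ X D W → D ∈ Cq Q)
    (ov : ∃ e D W : Ch P, e.bot ∈ F ∧ D.bot ∉ F ∧ e ≤ D ∧ D ≤ W ∧ 1 ≤ X D W) :
    ∃ Y', ∃ h' : Sf (Ch.top ⁻¹' A) Y', Eqv (Ch.top ⁻¹' A) z Y' ∧
      chi (Ch.top ⁻¹' A) z ≤ chi (Ch.top ⁻¹' A) Y' ∧
      mu (Ch.top ⁻¹' A) X Y' h'.coc < mu (Ch.top ⁻¹' A) X z hs.coc := by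
  have hv : Mv (Ch.top ⁻¹' A) z (Ch.bot ⁻¹' F) := mv_of_raise hs.mono
    (fun x y k hx hy => by
      have := jump x y hx k.1
      have : z x y ≠ 0 := fun e => hy (this.2.1 e)
      omega)
    fun x y k hx hy => (jump x y hx k.1).2.2 hy
  have : IsCoc (Ch.top ⁻¹' A) z := ⟨hs.coc⟩
  have sg := low.sg_bot hM hR hv
  have lowR : ∀ {x e : Ch P}, x ∈ Cq Q → e.bot ∈ F → x ≤ e → x.bot ∈ F := fun {x e} hx he l =>
    by_contra fun k => low.off k he l _ x.bot_mem (hx _ x.bot_mem)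
  obtain ⟨a, b, c, -⟩ := sg.swap (Alg36.Mf.sd hM) hb hv.hi hs (eqv_up hR)
    (by rw [chi_up (Alg36.Mf.sd hM) hR, low.ee_bot hM, eu1]; ring)
  refine ⟨_, a, b, c, sg.mu_lt hv.hi (K := NY _ z (Ch.bot ⁻¹' F)) (fun _ _ l k => NY.upper k l)
    (fun _ => Y_sub_NY) (fun _ _ l k => NX.upper k l) (fun _ _ k => k.nb.1) ?_ ?_ ?_ _ _⟩
  · rintro q hq ⟨-, r, r1, r2⟩
    obtain ⟨e, e1, e2, -⟩ := id hq
    have rm := Lv.ch_le (Lv.le_def.1 r1) r.1.1.top_mem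
    exact hv.NX_bot hq (lowR (lower_cq Q (Ch.bot_le rm)
      (form e2 (Ch.le_top e1) (Ch.le_top rm) r2)) e2 (Ch.bot_le e1))
  · rintro p - p' ⟨-, r, r1, r2⟩ l ⟨e, e1, e2, e3⟩
    obtain ⟨l1, l2⟩ := Lv.le_iff.1 l
    have rm := Lv.ch_le (Lv.le_def.1 r1) r.1.1.top_mem
    have t := l1 p'.1.1.top_mem
    have bm := l1 p'.1.1.bot_mem
    have a1 := hc.add' p.2.1 (l1 rm) t p.1.1.top_mem (Ch.le_top rm) (Ch.le_top t)
    have a2 := hm _ _ (p.2.1.dp t p.1.1.top_mem (Ch.le_top t))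
    have hq := lower_cq Q (Ch.bot_le rm) (form e2 (Ch.le_top e1) (Ch.le_top (l1 rm)) (by omega))
    have := p'.2.2.1
    have m : p'.1.1.bot.bot ∈ F := by
      rcases p.1.1.total e1 bm with k | k
      · have := hs.coc.add' p.2.1 p.1.1.bot_mem e1 bm (Ch.bot_le e1) k
        have := jump _ _ e2 k
        exact this.2.1 (by omega)
      · exact lowR hq e2 k
    have := hv.z_eq p.2.1 e1 bm e2 m
    exact Y_sub_NY ⟨m, by omega⟩
  · obtain ⟨e, D, W, he, hD, l, l', k⟩ := ov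
    have m : Mt (Ch.top ⁻¹' A) (Ch.tr e D W l l') := ⟨e, by simp [Ch.mem_tr], hR he⟩
    have le : Ch.pr e D l ≤ Ch.tr e D W l l' :=
      Ch.pr_le l (by simp [Ch.mem_tr]) (by simp [Ch.mem_tr])
    obtain ⟨r, r1, r2⟩ := hv.exists_Y (m.dom.mono le) (by simpa) (by simpa)
    obtain ⟨p, p1, p2⟩ := Lv.exists_ge hv.lo r m.dom (r2 ▸ le)
    exact ⟨p, ⟨show Mt _ p.1.1 from p1 ▸ m, r, p2, by rw [r2, p1, Ch.top_tr]; simpa⟩,
      NY.upper (Y_sub_NY r1) p2⟩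

theorem m4Stmt : M4Stmt := by
  intro s X Y ω _ ω' E hP hE h1 hu hl h
  have sub := pc_sub hP hE
  have emb := pos_emb hP
  have emE := emb.mono (Set.subset_univ E)
  have EQ : Cq (Lv.ch '' E) ⊆ Cq (MX s X) := fun c hc x hx =>
    Set.image_mono (Set.subset_univ _) (hc x hx)
  obtain ⟨p, hp, q, hq, qp⟩ : ∃ p ∈ E, ∃ q, q ∉ E ∧ q ≤ p := by
    by_contra k
    exact hl fun p q l hp => by_contra fun j => k ⟨p, hp, q, j, l⟩
  have inE : ∀ {r : Lv s.A X}, r.ch ∈ Lv.ch '' E ↔ r ∈ E := emb.mem (Set.subset_univ _) trivial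
  have l01 : Ch.pt p.ch ≤ Ch.pr q.ch p.ch (Lv.ch_le qp) := Ch.pt_le.2 (by simp)
  have m0 : Ch.pt p.ch ∈ Cq (Lv.ch '' E) := fun x hx => mem_singleton.1 hx ▸ inE.2 hp
  have m1 : Ch.pr q.ch p.ch (Lv.ch_le qp) ∈ Cq (MX s X) := fun x hx => by
    simp only [Ch.pr_val, mem_insert, mem_singleton] at hx
    rcases hx with rfl | rfl
    exacts [⟨q, trivial, rfl⟩, ⟨p, trivial, rfl⟩]
  have n1 : Ch.pr q.ch p.ch (Lv.ch_le qp) ∉ Cq (Lv.ch '' E) := fun k => hq (inE.1 (k _ (by simp)))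
  have up2 : IsUpperSet (Ch.top ⁻¹' (Ch.top ⁻¹' s.A) : Set (Ch (Ch s.P))) :=
    (hP.up.preimage Ch.top_mono).preimage Ch.top_mono
  have EA : Cq (Lv.ch '' E) ⊆ Ch.top ⁻¹' (Ch.top ⁻¹' s.A) := fun C hC =>
    let ⟨_, r1, r2⟩ := hC _ C.top_mem; show C.top.top ∈ s.A from r2 ▸ mt_top hP.up (sub r1)
  have low : Low (Ch.top ⁻¹' (Ch.top ⁻¹' (Ch.top ⁻¹' s.A))) (Cq (Cq (MX s X)))
      (Ce (Cq (MX s X)) (Cq (Lv.ch '' E))) := by
    refine low_ce (mf_cq (emb.mf hP.good.mf hP.sx.mono subset_rfl fun _ _ _ _ => trivial))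
      ?_ EQ (fun x hx y hy l => ?_) (conn_cq (emE.ws.conn_iff.1 (pc_conn hP hE)))
      ⟨_, m1, n1, _, m0, Or.inr l01⟩
    · rintro C ⟨r, r1, r2⟩
      exact show C.top.top ∈ s.A from r2 ▸ mt_top hP.up r1
    · obtain ⟨a, a1, a2⟩ := hx _ x.top_mem
      obtain ⟨b, -, b2⟩ := hy _ y.top_mem
      exact ⟨b, LA.upper (sub a1) (pos_le hP (by rw [a2, b2]; exact Ch.top_mono l)), b2⟩
  have bb : ∀ {x : Ch (Ch (Ch s.P))}, x ∈ Ce (Cq (MX s X)) (Cq (Lv.ch '' E)) →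
      x.bot ∈ Cq (Lv.ch '' E) := fun ⟨_, _, c1, c2⟩ => lower_cq _ (Ch.bot_le c1) c2
  refine m4_core (Alg36.Mf.sd (Alg36.Mf.sd (Alg36.Mf.sd hP.good.mf))) h.good.bnd low ?_
    (fun d hd => up2.preimage Ch.top_mono d.bot_le_top (low.sub hd)) h.sy h.sx.coc h.sx.mono
    (fun x y hx l => ?_) (fun {e D W} he l l' k => ?_) ?_
  · exact (eu_ce EQ).trans ((eu_cq _).trans (emE.eu.trans
      ((eu_upper hP.good.mf hP.sx.mono sub hu).trans h1)))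
  · have l2 : x.bot.bot ≤ y.bot.bot := Ch.bot_anti (Ch.bot_anti l)
    have yq : y.bot ∈ Cq (Cq (MX s X)) := lower_cq _ (Ch.bot_anti l) hx.1
    have k : ∀ u : Ch (Ch (Ch (Ch s.P))), x.bot.bot ≤ u.bot.bot →
        be (Ch.top ⁻¹' (Ch.top ⁻¹' s.A)) u = u.bot.bot := fun u hu =>
      be_in fun c hc => up2 (hu.trans (Ch.le_top (Ch.bot_le hc u.bot.bot_mem))) (EA (bb hx))
    obtain ⟨a, a1, a2⟩ := bb hx _ x.bot.bot.bot_mem
    obtain ⟨c, r, e1, e2, j, -, -, e3, e4⟩ := pc_Y hP hE a1 (yq _ y.bot.bot_mem)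
      (fun c => y.bot.bot.cm (a2 ▸ l2 x.bot.bot.bot_mem)) l2
    have cE : c ∈ E := inE.1 (by rw [e1, ← a2]; exact inE.2 a1)
    have e : pb (be (Ch.top ⁻¹' (Ch.top ⁻¹' s.A))) (pb (be s.A) Y) x y =
        pb (be s.A) Y x.bot.bot y.bot.bot := by rw [pb, k x le_rfl, k y l2]
    refine ⟨e4.trans_eq e.symm, Iff.trans (b := r ∈ E) ?_ ⟨fun i => ⟨yq, _, y.bot.bot_mem, fun t ht => ?_⟩,
      fun i => inE.1 (e2 ▸ bb i _ y.bot.bot.bot_mem)⟩⟩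
    · rw [pc_iff hP hE cE (Or.inr j)]
      exact ⟨fun i => by have := e3.symm.trans (e.symm.trans i); omega,
        fun i => e.trans (e3.trans (by omega))⟩
    · obtain ⟨b, -, rfl⟩ := yq _ y.bot.bot_mem t ht
      exact inE.2 (hu (pos_le hP (e2 ▸ Ch.bot_le ht)) i)
  · obtain ⟨a, a1, a2⟩ := bb he _ e.bot.bot.bot_mem
    have := pc_form hP hE a1 (W := W.top.top) (C := D.top.top)
      (a2 ▸ Ch.le_top (Ch.le_top (l e.bot_mem) e.bot.bot_mem) e.bot.bot.bot_mem)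
      (Ch.top_mono (Ch.top_mono l')) k
    exact fun c hc C hC => lower_cq _ ((Ch.le_top hC).trans (Ch.top_mono (Ch.le_top hc))) this
  · obtain ⟨W, w1, w2⟩ := pc_over hP hE hp m1 fun c hc => Ch.cm _ (by simp) hc
    have l1 : Ch.pt (Ch.pr q.ch p.ch (Lv.ch_le qp)) ≤ Ch.pr _ _ l01 := Ch.pt_le.2 (by simp)
    have l2 : Ch.pr _ _ l01 ≤ Ch.tr _ _ W l01 w1 :=
      Ch.pr_le _ (by simp [Ch.mem_tr]) (by simp [Ch.mem_tr])
    refine ⟨Ch.pt (Ch.pr _ _ l01), Ch.pr _ _ l1, Ch.tr _ _ _ l1 l2, ?_, ?_, Ch.pt_le.2 (by simp),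
      Ch.pr_le _ (by simp [Ch.mem_tr]) (by simp [Ch.mem_tr]), ?_⟩
    · rw [Ch.bot_pt]
      refine ⟨fun t ht => ?_, _, mem_insert_self _ _, m0⟩
      simp only [Ch.pr_val, mem_insert, mem_singleton] at ht
      rcases ht with rfl | rfl
      exacts [EQ m0, m1]
    · rw [Ch.bot_pr]
      exact fun k => n1 (mt_pt.1 k.2)
    · show 1 ≤ pb (be s.A) X (Ch.pr _ _ l1).top.top (Ch.tr _ _ _ l1 l2).top.top
      rwa [Ch.top_pr, Ch.top_pr, Ch.top_tr, Ch.top_tr]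

end Crest.Agent.X212.Hp13
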