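import Crest.Agent.X212.Hp13.Side

/-!
# X212 / Hp13 (helper13): MOVE, the cells of `z` and of `z + δ 1_E`
-/

set_option autoImplicit false
set_option linter.unusedSectionVars false

open Finset Classical

noncomputable section

namespace Crest.Agent.X212.Hp13

section bas

variable {P : Type} [PartialOrder P] {A E : Set P} {z : P → P → ℤ}

theorem Lv.ext {p q : Lv A z} (h1 : p.1.1 = q.1.1) (h2 : p.1.2 = q.1.2) : p = q :=
  Subtype.ext (Prod.ext h1 h2)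

theorem Lv.le_iff [hz : IsCoc A z] {p q : Lv A z} :
    p ≤ q ↔ p.1.1 ≤ q.1.1 ∧ q.1.2 = p.1.2 + z q.1.1.bot p.1.1.bot := by
  have k : ∀ p : Lv A z, z p.1.1.bot p.1.1.bot = 0 := fun p =>
    let ⟨a, ha, h⟩ := p.2.1; hz.coc.self ha (h _ p.1.1.bot_mem)
  refine ⟨?_, fun ⟨h1, h2⟩ => ?_⟩
  · rintro (rfl | h)
    · exact ⟨le_rfl, by rw [k, add_zero]⟩
    · exact ⟨h.1.le, h.2⟩
  · rcases h1.eq_or_lt with e | h1
    · exact Or.inl (Lv.ext e (by rw [h2, ← e, k, add_zero]))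
    · exact Or.inr ⟨h1, h2⟩

theorem Lv.le_def [IsCoc A z] {p q : Lv A z} : Lv.le p q ↔ p ≤ q := Iff.rfl

theorem Lv.ch_le [IsCoc A z] {p q : Lv A z} (h : p ≤ q) : p.1.1 ≤ q.1.1 := (Lv.le_iff.1 h).1

theorem LA.upper [IsCoc A z] {p q : Lv A z} (hp : p ∈ LA A z) (h : p ≤ q) : q ∈ LA A z :=
  Mt.mono hp (Lv.ch_le h)

/-- every cell has a coface on every larger chain -/
theorem Lv.exists_ge [hz : IsCoc A z] (hm : Mono A z) (p : Lv A z) {c : Ch P} (hc : Dom A c)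
    (h : p.1.1 ≤ c) : ∃ q : Lv A z, q.1.1 = c ∧ p ≤ q := by
  have b := h p.1.1.bot_mem
  have t := h p.1.1.top_mem
  have e1 := hz.coc.add' hc c.bot_mem b c.top_mem (Ch.bot_le b) (Ch.le_top b)
  have e2 := hz.coc.add' hc b t c.top_mem p.1.1.bot_le_top (Ch.le_top t)
  have m1 := hm _ _ (hc.dp c.bot_mem b (Ch.bot_le b))
  have m2 := hm _ _ (hc.dp t c.top_mem (Ch.le_top t))
  have := p.2.2
  exact ⟨⟨(c, p.1.2 + z c.bot p.1.1.bot), hc, by simp only; omega, by simp only; omega⟩, rfl,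
    Lv.le_iff.2 ⟨h, rfl⟩⟩

/-- raise `z` on `E` -/
def up (z : P → P → ℤ) (E : Set P) : P → P → ℤ := z + cb (ind E)

theorem up_apply (x y : P) : up z E x y = z x y + (ind E y - ind E x) := rfl

instance [hz : IsCoc A z] : IsCoc A (up z E) := ⟨hz.coc.add (coc_cb _)⟩

theorem up_sub (w : P → P → ℤ) (E : Set P) : up (w - cb (ind E)) E = w := sub_add_cancel _ _

theorem eqv_up (hE : E ⊆ A) : Eqv A z (up z E) := eqv_add_cb fun _ h => ind_of_not fun k => h (hE k)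

/-- the hypotheses of a move -/
structure Mv (A : Set P) (z : P → P → ℤ) (E : Set P) : Prop where
  lo : Mono A z
  hi : Mono A (up z E)
  flat : ∀ x y, Dp A x y → x ∈ E → y ∈ E → z x y = 0

/-- raising -/
theorem mv_of_raise (hm : Mono A z) (h1 : ∀ x y, Dp A x y → x ∈ E → y ∉ E → 1 ≤ z x y)
    (h2 : ∀ x y, Dp A x y → x ∈ E → y ∈ E → z x y = 0) : Mv A z E :=
  ⟨hm, fun x y hp => by
    have := hm x y hp
    rw [up_apply]
    by_cases hx : x ∈ E <;> by_cases hy : y ∈ E <;> simp only [ind, hx, hy, if_true, if_false]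
    · omega
    · have := h1 x y hp hx hy; omega
    · omega
    · omega, h2⟩

/-- lowering -/
theorem mv_of_lower {w : P → P → ℤ} (hm : Mono A w)
    (h1 : ∀ x y, Dp A x y → x ∉ E → y ∈ E → 1 ≤ w x y)
    (h2 : ∀ x y, Dp A x y → x ∈ E → y ∈ E → w x y = 0) : Mv A (w - cb (ind E)) E :=
  ⟨fun x y hp => by
    have := hm x y hp
    simp only [Pi.sub_apply, cb]
    by_cases hx : x ∈ E <;> by_cases hy : y ∈ E <;> simp only [ind, hx, hy, if_true, if_false]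
    · omega
    · omega
    · have := h1 x y hp hx hy; omega
    · omega, by rwa [up_sub], fun x y hp hx hy => by
    simp only [Pi.sub_apply, cb, ind, hx, hy, if_true, h2 x y hp hx hy]; rfl⟩

theorem Mv.one_le (h : Mv A z E) {x y : P} (hp : Dp A x y) (hx : x ∈ E) (hy : y ∉ E) :
    1 ≤ z x y := by
  have := h.hi x y hp
  rw [up_apply, ind_of_mem hx, ind_of_not hy] at this
  omega

theorem ind_nonneg (x : P) : 0 ≤ ind E x := by unfold ind; split_ifs <;> norm_num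
theorem ind_le_one (x : P) : ind E x ≤ 1 := by unfold ind; split_ifs <;> norm_num

/-- the cells of `z` that disappear when `z` is raised on `E` -/
def CY (A : Set P) (z : P → P → ℤ) (E : Set P) : Set (Lv A z) :=
  {q | q.1.1.bot ∈ E ∧ q.1.2 = 0}

/-- the cells of `up z E` that are new -/
def CX (A : Set P) (z : P → P → ℤ) (E : Set P) : Set (Lv A (up z E)) :=
  {p | p.1.1.top ∈ E ∧ p.1.2 + 1 = up z E p.1.1.bot p.1.1.top}

/-- corresponding cells -/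
def MR (q : Lv A z) (p : Lv A (up z E)) : Prop :=
  p.1.1 = q.1.1 ∧ q.1.2 = p.1.2 + ind E q.1.1.bot

theorem MR.uniq {q : Lv A z} {p p' : Lv A (up z E)} (h : MR q p) (h' : MR q p') : p = p' :=
  Lv.ext (h.1.trans h'.1.symm) (by have := h.2; have := h'.2; omega)

theorem MR.uniq' {q q' : Lv A z} {p : Lv A (up z E)} (h : MR q p) (h' : MR q' p) : q = q' :=
  Lv.ext (h.1.symm.trans h'.1) (by rw [h.2, h'.2, ← h.1, ← h'.1])

theorem MR.notY {q : Lv A z} {p : Lv A (up z E)} (h : MR q p) : q ∉ CY A z E := fun k => by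
  have := h.2
  rw [ind_of_mem k.1, k.2] at this
  have := p.2.2.1
  omega

theorem MR.notX {q : Lv A z} {p : Lv A (up z E)} (h : MR q p) : p ∉ CX A z E := fun k => by
  have a := h.2
  have b := k.2
  have c := k.1
  rw [up_apply, ind_of_mem c, h.1] at b
  have := q.2.2.2
  omega

theorem exists_mr {q : Lv A z} (h : q ∉ CY A z E) : ∃ p : Lv A (up z E), MR q p := by
  have := q.2.2
  refine ⟨⟨(q.1.1, q.1.2 - ind E q.1.1.bot), q.2.1, ?_, ?_⟩, rfl, by simp⟩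
  · by_cases k : q.1.1.bot ∈ E
    · have : q.1.2 ≠ 0 := fun e => h ⟨k, e⟩
      simp only [ind_of_mem k]; omega
    · simp only [ind_of_not k]; omega
  · have := ind_nonneg (E := E) q.1.1.top
    simp only [up_apply]; omega

theorem exists_mr' {p : Lv A (up z E)} (h : p ∉ CX A z E) : ∃ q : Lv A z, MR q p := by
  have a := p.2.2
  refine ⟨⟨(p.1.1, p.1.2 + ind E p.1.1.bot), p.2.1, ?_, ?_⟩, rfl, rfl⟩
  · have := ind_nonneg (E := E) p.1.1.bot
    simp only; omega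
  · by_cases k : p.1.1.top ∈ E
    · have : p.1.2 + 1 ≠ up z E p.1.1.bot p.1.1.top := fun e => h ⟨k, e⟩
      rw [up_apply, ind_of_mem k] at this a
      simp only; omega
    · rw [up_apply, ind_of_not k] at a
      simp only; omega

theorem MR.la {q : Lv A z} {p : Lv A (up z E)} (h : MR q p) : q ∈ LA A z ↔ p ∈ LA A (up z E) := by
  simp only [LA, Set.mem_ofPred_eq, h.1]

theorem MR.sg {q : Lv A z} {p : Lv A (up z E)} (h : MR q p) : p.1.1.sg = q.1.1.sg := by rw [h.1]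

variable [hz : IsCoc A z]

theorem MR.le_iff {q q' : Lv A z} {p p' : Lv A (up z E)} (h : MR q p) (h' : MR q' p') :
    q ≤ q' ↔ p ≤ p' := by
  rw [Lv.le_iff, Lv.le_iff, h.1, h'.1, h.2, h'.2, up_apply]
  exact and_congr_right fun _ => by omega

theorem MR.cm_iff {q q' : Lv A z} {p p' : Lv A (up z E)} (h : MR q p) (h' : MR q' p') :
    Cm q q' ↔ Cm p p' := or_congr (h.le_iff h') (h'.le_iff h)

theorem Mv.Y_low (h : Mv A z E) {q q' : Lv A z} (hq : q ∈ CY A z E) (hle : q' ≤ q) :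
    q' ∈ CY A z E := by
  obtain ⟨h1, h2⟩ := Lv.le_iff.1 hle
  have hp := q.2.1.dp q.1.1.bot_mem (h1 q'.1.1.bot_mem) (Ch.bot_anti h1)
  have := h.lo _ _ hp
  have := q'.2.2.1
  have a := hq.2
  refine ⟨by_contra fun k => ?_, by omega⟩
  have := h.one_le hp hq.1 k
  omega

theorem Mv.X_low (h : Mv A z E) {p p' : Lv A (up z E)} (hq : p ∈ CX A z E) (hle : p' ≤ p) :
    p' ∈ CX A z E := by
  obtain ⟨h1, h2⟩ := Lv.le_iff.1 hle
  have hc : Coc A (up z E) := IsCoc.coc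
  have b := h1 p'.1.1.bot_mem
  have t := h1 p'.1.1.top_mem
  have e1 := hc.add' p.2.1 p.1.1.bot_mem b p.1.1.top_mem (Ch.bot_le b) (Ch.le_top b)
  have e2 := hc.add' p.2.1 b t p.1.1.top_mem p'.1.1.bot_le_top (Ch.le_top t)
  have hp := p.2.1.dp t p.1.1.top_mem (Ch.le_top t)
  have m := h.hi _ _ hp
  have := p'.2.2.2
  have a := hq.2
  refine ⟨by_contra fun k => ?_, by omega⟩
  have := h.lo _ _ hp
  have e3 := up_apply (z := z) (E := E) p'.1.1.top p.1.1.top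
  rw [ind_of_mem hq.1, ind_of_not k] at e3
  omega

theorem Mv.Y_top (h : Mv A z E) {q : Lv A z} (hq : q ∈ CY A z E) : q.1.1.top ∉ E := fun k => by
  have := h.flat _ _ q.2.1.bt hq.1 k
  have := q.2.2
  omega

theorem Mv.X_bot (h : Mv A z E) {p : Lv A (up z E)} (hq : p ∈ CX A z E) : p.1.1.bot ∉ E :=
  fun k => by
  have := h.flat _ _ p.2.1.bt k hq.1
  have a := p.2.2
  rw [up_apply, ind_of_mem k, ind_of_mem hq.1] at a
  omega

theorem Mv.exists_Y (h : Mv A z E) {c : Ch P} (hc : Dom A c) (h1 : c.bot ∈ E) (h2 : c.top ∉ E) :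
    ∃ q ∈ CY A z E, q.1.1 = c :=
  ⟨⟨(c, 0), hc, le_rfl, h.one_le hc.bt h1 h2⟩, ⟨h1, rfl⟩, rfl⟩

theorem Mv.exists_X (h : Mv A z E) {c : Ch P} (hc : Dom A c) (h1 : c.top ∈ E) (h2 : c.bot ∉ E) :
    ∃ p ∈ CX A z E, p.1.1 = c := by
  have := h.lo _ _ hc.bt
  refine ⟨⟨(c, z c.bot c.top), hc, this, ?_⟩, ⟨h1, ?_⟩, rfl⟩ <;>
    simp only [up_apply, ind_of_mem h1, ind_of_not h2] <;> omega

/-- transport of connections -/
theorem MR.rch {S : Set (Lv A z)} {T : Set (Lv A (up z E))} (hS : ∀ q ∈ S, ∃ p ∈ T, MR q p)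
    {q q' : Lv A z} {p p' : Lv A (up z E)} (h : MR q p) (h' : MR q' p') (hr : Rch S q q') :
    Rch T p p' := by
  refine hr.ind (p := fun t => ∀ r, MR t r → Rch T p r) (fun r k => h.uniq k ▸ Rch.rfl) ?_ p' h'
  intro a ha b hb hab
  obtain ⟨a', a1, a2⟩ := hS a ha
  obtain ⟨b', b1, b2⟩ := hS b hb
  have := Rch.of_cm a1 b1 (Or.inl ((a2.le_iff b2).1 hab))
  exact ⟨fun H r k => b2.uniq k ▸ (H a' a2).trans this,
    fun H r k => a2.uniq k ▸ (H b' b2).trans this.symm⟩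

theorem MR.rch' {S : Set (Lv A z)} {T : Set (Lv A (up z E))} (hT : ∀ p ∈ T, ∃ q ∈ S, MR q p)
    {q q' : Lv A z} {p p' : Lv A (up z E)} (h : MR q p) (h' : MR q' p') (hr : Rch T p p') :
    Rch S q q' := by
  refine hr.ind (p := fun t => ∀ r, MR r t → Rch S q r) (fun r k => h.uniq' k ▸ Rch.rfl) ?_ q' h'
  intro a ha b hb hab
  obtain ⟨a', a1, a2⟩ := hT a ha
  obtain ⟨b', b1, b2⟩ := hT b hb
  have := Rch.of_cm a1 b1 (Or.inl ((a2.le_iff b2).2 hab))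
  exact ⟨fun H r k => b2.uniq' k ▸ (H a' a2).trans this,
    fun H r k => a2.uniq' k ▸ (H b' b2).trans this.symm⟩

/-! ### the cells at the level of `E` -/

/-- cells of `z` just above a point of `E` -/
def NY (A : Set P) (z : P → P → ℤ) (E : Set P) : Set (Lv A z) :=
  {q | ∃ x ∈ q.1.1.1, x ∈ E ∧ q.1.2 = z q.1.1.bot x}

/-- cells of `up z E` just below a point of `E` -/
def NX (A : Set P) (z : P → P → ℤ) (E : Set P) : Set (Lv A (up z E)) :=
  {p | ∃ x ∈ p.1.1.1, x ∈ E ∧ p.1.2 + 1 = up z E p.1.1.bot x}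

theorem Mv.z_eq (h : Mv A z E) {c : Ch P} (hc : Dom A c) {x y : P} (hx : x ∈ c.1) (hy : y ∈ c.1)
    (hxE : x ∈ E) (hyE : y ∈ E) : z c.bot x = z c.bot y := by
  have k : ∀ {x y : P}, x ∈ c.1 → y ∈ c.1 → x ∈ E → y ∈ E → x ≤ y → z c.bot x = z c.bot y :=
    fun {x y} hx hy hxE hyE hxy => by
      rw [hz.coc.add' hc c.bot_mem hx hy (Ch.bot_le hx) hxy, h.flat _ _ (hc.dp hx hy hxy) hxE hyE,
        add_zero]
  exact (c.total hx hy).elim (k hx hy hxE hyE) fun e => (k hy hx hyE hxE e).symm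

theorem MR.nb {q : Lv A z} {p : Lv A (up z E)} (h : MR q p) : q ∈ NY A z E ↔ p ∈ NX A z E := by
  simp only [NY, NX, Set.mem_ofPred_eq, h.1, h.2, up_apply]
  refine exists_congr fun x => and_congr_right fun _ => and_congr_right fun hx => ?_
  rw [ind_of_mem hx]; omega

theorem Y_sub_NY {q : Lv A z} (hq : q ∈ CY A z E) : q ∈ NY A z E :=
  ⟨_, q.1.1.bot_mem, hq.1, by
    obtain ⟨a, ha, k⟩ := q.2.1
    rw [hq.2, hz.coc.self ha (k _ q.1.1.bot_mem)]⟩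

theorem X_sub_NX {p : Lv A (up z E)} (hp : p ∈ CX A z E) : p ∈ NX A z E :=
  ⟨_, p.1.1.top_mem, hp.1, hp.2⟩

theorem NY.upper {q q' : Lv A z} (hq : q ∈ NY A z E) (h : q ≤ q') : q' ∈ NY A z E := by
  obtain ⟨x, hx, hE, e⟩ := hq
  obtain ⟨h1, h2⟩ := Lv.le_iff.1 h
  refine ⟨x, h1 hx, hE, ?_⟩
  rw [h2, e, hz.coc.add' q'.2.1 q'.1.1.bot_mem (h1 q.1.1.bot_mem) (h1 hx) (Ch.bot_anti h1)
    (Ch.bot_le hx), add_comm]

theorem NX.upper {q q' : Lv A (up z E)} (hq : q ∈ NX A z E) (h : q ≤ q') : q' ∈ NX A z E := by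
  obtain ⟨x, hx, hE, e⟩ := hq
  obtain ⟨h1, h2⟩ := Lv.le_iff.1 h
  refine ⟨x, h1 hx, hE, ?_⟩
  have hc : Coc A (up z E) := IsCoc.coc
  rw [h2, hc.add' q'.2.1 q'.1.1.bot_mem (h1 q.1.1.bot_mem) (h1 hx) (Ch.bot_anti h1)
    (Ch.bot_le hx), ← e]
  ring

theorem Mv.NY_le (h : Mv A z E) {q q' : Lv A z} (hq : q ∈ NY A z E) (hq' : q' ∈ NY A z E)
    (hc : q.1.1 ≤ q'.1.1) : q ≤ q' := by
  obtain ⟨r, r1, r2⟩ := Lv.exists_ge h.lo q q'.2.1 hc
  obtain ⟨x, hx, hE, e⟩ := NY.upper hq r2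
  obtain ⟨y, hy, hE', e'⟩ := hq'
  rw [r1] at hx e
  rwa [Lv.ext r1 (by rw [e, e', h.z_eq q'.2.1 hx hy hE hE'])] at r2

theorem Mv.NX_le (h : Mv A z E) {q q' : Lv A (up z E)} (hq : q ∈ NX A z E) (hq' : q' ∈ NX A z E)
    (hc : q.1.1 ≤ q'.1.1) : q ≤ q' := by
  obtain ⟨r, r1, r2⟩ := Lv.exists_ge h.hi q q'.2.1 hc
  obtain ⟨x, hx, hE, e⟩ := NX.upper hq r2
  obtain ⟨y, hy, hE', e'⟩ := hq'
  rw [r1] at hx e
  have := h.z_eq q'.2.1 hx hy hE hE'
  rw [up_apply, ind_of_mem hE] at e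
  rw [up_apply, ind_of_mem hE'] at e'
  rwa [Lv.ext r1 (by omega)] at r2

theorem Mv.exists_NY (h : Mv A z E) {c : Ch P} (hc : Dom A c) (h1 : Mt E c) (h2 : c.top ∉ E) :
    ∃ q ∈ NY A z E, q.1.1 = c := by
  obtain ⟨x, hx, hE⟩ := h1
  have := h.lo _ _ (hc.dp c.bot_mem hx (Ch.bot_le hx))
  have := h.one_le (hc.dp hx c.top_mem (Ch.le_top hx)) hE h2
  have := hz.coc.add' hc c.bot_mem hx c.top_mem (Ch.bot_le hx) (Ch.le_top hx)
  exact ⟨⟨(c, z c.bot x), hc, by simp only; omega, by simp only; omega⟩, ⟨x, hx, hE, rfl⟩, rfl⟩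

theorem Mv.exists_NX (h : Mv A z E) {c : Ch P} (hc : Dom A c) (h1 : Mt E c) (h2 : c.bot ∉ E) :
    ∃ q ∈ NX A z E, q.1.1 = c := by
  obtain ⟨x, hx, hE⟩ := h1
  have := h.lo _ _ (hc.dp c.bot_mem hx (Ch.bot_le hx))
  have := h.hi _ _ (hc.dp hx c.top_mem (Ch.le_top hx))
  have := hz.coc.add' hc c.bot_mem hx c.top_mem (Ch.bot_le hx) (Ch.le_top hx)
  refine ⟨⟨(c, z c.bot x), hc, by simp only; omega, ?_⟩, ⟨x, hx, hE, ?_⟩, rfl⟩ <;>
    simp only [up_apply, ind_of_mem hE, ind_of_not h2] at * <;> omega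

theorem Mv.NY_top (h : Mv A z E) {q : Lv A z} (hq : q ∈ NY A z E) : q.1.1.top ∉ E := fun k => by
  obtain ⟨x, hx, hE, e⟩ := hq
  have := h.z_eq q.2.1 hx q.1.1.top_mem hE k
  have := q.2.2
  omega

theorem Mv.NX_bot (h : Mv A z E) {q : Lv A (up z E)} (hq : q ∈ NX A z E) : q.1.1.bot ∉ E :=
  fun k => by
  obtain ⟨x, hx, hE, e⟩ := hq
  have := h.flat _ _ (q.2.1.dp q.1.1.bot_mem hx (Ch.bot_le hx)) k hE
  have := q.2.2
  rw [up_apply, ind_of_mem hE, ind_of_mem k] at e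
  omega

/-- connections between chains lift to the cells at the level of `E` -/
theorem Mv.rch_NY (h : Mv A z E) {S : Set (Ch P)} (hS : ∀ c ∈ S, Mt A c ∧ Mt E c ∧ c.top ∉ E)
    {q q' : Lv A z} (hq : q ∈ NY A z E) (hq' : q' ∈ NY A z E) (hr : Rch S q.1.1 q'.1.1) :
    Rch {r | r ∈ NY A z E ∧ r.1.1 ∈ S} q q' := by
  refine hr.ind (p := fun t => ∀ r ∈ NY A z E, r.1.1 = t → Rch _ q r) (fun r k e => ?_) ?_ q' hq' rfl
  · rw [le_antisymm (h.NY_le k hq e.le) (h.NY_le hq k e.ge)]; exact Rch.rfl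
  · intro a ha b hb hab
    obtain ⟨a', a1, rfl⟩ := h.exists_NY (hS a ha).1.dom (hS a ha).2.1 (hS a ha).2.2
    obtain ⟨b', b1, rfl⟩ := h.exists_NY (hS b hb).1.dom (hS b hb).2.1 (hS b hb).2.2
    have := Rch.of_cm (E := {r | r ∈ NY A z E ∧ r.1.1 ∈ S}) ⟨a1, ha⟩ ⟨b1, hb⟩
      (Or.inl (h.NY_le a1 b1 hab))
    exact ⟨fun H r k e => le_antisymm (h.NY_le b1 k e.ge) (h.NY_le k b1 e.le) ▸
        (H a' a1 rfl).trans this,
      fun H r k e => le_antisymm (h.NY_le a1 k e.ge) (h.NY_le k a1 e.le) ▸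
        (H b' b1 rfl).trans this.symm⟩

theorem Mv.rch_NX (h : Mv A z E) {S : Set (Ch P)} (hS : ∀ c ∈ S, Mt A c ∧ Mt E c ∧ c.bot ∉ E)
    {q q' : Lv A (up z E)} (hq : q ∈ NX A z E) (hq' : q' ∈ NX A z E) (hr : Rch S q.1.1 q'.1.1) :
    Rch {r | r ∈ NX A z E ∧ r.1.1 ∈ S} q q' := by
  refine hr.ind (p := fun t => ∀ r ∈ NX A z E, r.1.1 = t → Rch _ q r) (fun r k e => ?_) ?_ q' hq' rfl
  · rw [le_antisymm (h.NX_le k hq e.le) (h.NX_le hq k e.ge)]; exact Rch.rfl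
  · intro a ha b hb hab
    obtain ⟨a', a1, rfl⟩ := h.exists_NX (hS a ha).1.dom (hS a ha).2.1 (hS a ha).2.2
    obtain ⟨b', b1, rfl⟩ := h.exists_NX (hS b hb).1.dom (hS b hb).2.1 (hS b hb).2.2
    have := Rch.of_cm (E := {r | r ∈ NX A z E ∧ r.1.1 ∈ S}) ⟨a1, ha⟩ ⟨b1, hb⟩
      (Or.inl (h.NX_le a1 b1 hab))
    exact ⟨fun H r k e => le_antisymm (h.NX_le b1 k e.ge) (h.NX_le k b1 e.le) ▸
        (H a' a1 rfl).trans this,
      fun H r k e => le_antisymm (h.NX_le a1 k e.ge) (h.NX_le k a1 e.le) ▸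
        (H b' b1 rfl).trans this.symm⟩

end bas

section fin

variable {P : Type} [PartialOrder P] [Fintype P] {A E : Set P} {z : P → P → ℤ}

theorem chiC_union {C D : Set (Lv A z)} (h : Disjoint C D) : chiC (C ∪ D) = chiC C + chiC D := by
  rw [chiC, chiC, chiC, ← sum_union (disjoint_filter.2 fun x _ a b => Set.disjoint_left.1 h a b)]
  refine sum_congr ?_ fun _ _ => rfl
  ext x
  simp only [mem_filter, mem_union, Set.mem_union, mem_univ, true_and]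

theorem chiC_split (C D : Set (Lv A z)) : chiC C = chiC (C ∩ D) + chiC (C \ D) := by
  rw [← chiC_union Set.disjoint_sdiff_inter.symm, Set.inter_union_sdiff]

theorem chiC_mr {S : Set (Lv A z)} {T : Set (Lv A (up z E))} (hS : ∀ q ∈ S, ∃ p ∈ T, MR q p)
    (hT : ∀ p ∈ T, ∃ q ∈ S, MR q p) : chiC S = chiC T := by
  choose f f1 f2 using hS
  refine sum_bij (fun q hq => f q (mem_filter.1 hq).2) (fun q hq => mem_filter.2 ⟨mem_univ _, f1 _ _⟩)
    (fun q hq q' hq' e => (f2 q _).uniq' (e ▸ f2 q' _)) (fun p hp => ?_) fun q hq => (f2 q _).sg.symm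
  obtain ⟨q, q1, q2⟩ := hT p (mem_filter.1 hp).2
  exact ⟨q, mem_filter.2 ⟨mem_univ _, q1⟩, (f2 q q1).uniq q2⟩

/-- `chi` counts the interior cells -/
theorem chi_eq_chiC (hm : Mono A z) : chi A z = chiC (LA A z) := by
  rw [chi, chiC, ← sum_fiberwise_of_maps_to (s := univ.filter (· ∈ LA A z))
    (t := univ.filter (Mt A)) (g := fun p => p.1.1) fun p hp =>
      mem_filter.2 ⟨mem_univ _, (mem_filter.1 hp).2⟩]
  refine sum_congr rfl fun c hc => ?_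
  have hc := (mem_filter.1 hc).2
  rw [sum_congr rfl (g := fun _ => c.sg) fun p hp => by rw [(mem_filter.1 hp).2], sum_const,
    nsmul_eq_mul, mul_comm]
  congr 1
  have : (((univ.filter (· ∈ LA A z)).filter fun p : Lv A z => p.1.1 = c).card) =
      (Finset.Ico 0 (z c.bot c.top)).card := by
    refine card_bij (fun p _ => p.1.2) (fun p hp => ?_) (fun p hp q hq e => ?_) fun k hk => ?_
    · rw [← (mem_filter.1 hp).2]; exact mem_Ico.2 p.2.2
    · exact Lv.ext ((mem_filter.1 hp).2.trans (mem_filter.1 hq).2.symm) e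
    · exact ⟨⟨(c, k), hc.dom, mem_Ico.1 hk⟩, mem_filter.2 ⟨mem_filter.2 ⟨mem_univ _, hc⟩, rfl⟩, rfl⟩
  rw [this, Int.card_Ico, sub_zero, Int.toNat_of_nonneg (hm _ _ hc.bt)]

theorem chi_up (h : Mf 3 A) (hE : E ⊆ A) : chi A (up z E) = chi A z - 2 * ee E := by
  rw [up, chi_add, chi_cb_ind h hE]; ring

end fin

end Crest.Agent.X212.Hp13
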