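import Crest.Agent.X212.End23.Crt

/-!
# X212 / Hp13 (helper13): ES-NUM, degrees of labels
-/

set_option autoImplicit false
noncomputable section
open Set Function

namespace Crest.Agent.X212.Hp13.Num
open End23 Sw Sw.En3

/-- a locally finite set with infinitely many positive points -/
def LF (S : Set ℝ) : Prop := (∀ r, (S ∩ Icc (-r) r).Finite) ∧ (S ∩ Ioi 0).Infinite

variable {S : Set ℝ} {l l' : ℝ}

theorem LF.fin (h : LF S) (l : ℝ) : (S ∩ Ioc 0 l).Finite :=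
  (h.1 l).subset fun _ k => ⟨k.1, by linarith [k.2.1, k.2.2], k.2.2⟩

theorem LF.fin' (h : LF S) (l : ℝ) : (S ∩ Ioo 0 l).Finite :=
  (h.fin l).subset (inter_subset_inter_right _ Ioo_subset_Ioc_self)

theorem LF.mono (h : LF S) (k : l ≤ l') : (S ∩ Ioo 0 l).ncard ≤ (S ∩ Ioo 0 l').ncard :=
  ncard_le_ncard (inter_subset_inter_right _ (Ioo_subset_Ioo_right k)) (h.fin' _)

theorem LF.lt (h : LF S) (a : l ∈ S) (b : 0 < l) (k : l < l') :
    (S ∩ Ioo 0 l).ncard < (S ∩ Ioo 0 l').ncard :=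
  ncard_lt_ncard ⟨inter_subset_inter_right _ (Ioo_subset_Ioo_right k.le),
    fun j => (j ⟨a, b, k⟩).2.2.false⟩ (h.fin' _)

theorem LF.inj (h : LF S) (a : l ∈ S) (b : 0 < l) (a' : l' ∈ S) (b' : 0 < l')
    (e : (S ∩ Ioo 0 l).ncard = (S ∩ Ioo 0 l').ncard) : l = l' :=
  le_antisymm (not_lt.1 fun k => (h.lt a' b' k).ne' e) (not_lt.1 fun k => (h.lt a b k).ne e)

theorem LF.next (h : LF S) (a : 0 ≤ l) : ∃ m ∈ S, l < m ∧ S ∩ Ioo 0 m = S ∩ Ioc 0 l := by
  obtain ⟨b, b1, b2⟩ := (h.2.sdiff (h.fin l)).nonempty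
  have b3 : l < b := not_le.1 fun k => b2 ⟨b1.1, b1.2, k⟩
  obtain ⟨m, m1, m2⟩ := exists_min_image (S ∩ Ioc l b) id ((h.fin b).subset
    (inter_subset_inter_right _ (Ioc_subset_Ioc_left a))) ⟨b, b1.1, b3, le_rfl⟩
  exact ⟨m, m1.1, m1.2.1, Set.ext fun x => ⟨fun k => ⟨k.1, k.2.1, not_lt.1 fun j =>
    (m2 x ⟨k.1, j, k.2.2.le.trans m1.2.2⟩).not_gt k.2.2⟩, fun k => ⟨k.1, k.2.1, k.2.2.trans_lt m1.2.1⟩⟩⟩

theorem LF.sur (h : LF S) (n : ℕ) : ∃ l ∈ S, 0 < l ∧ (S ∩ Ioo 0 l).ncard = n := by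
  induction n with
  | zero =>
    obtain ⟨m, a, b, c⟩ := h.next le_rfl
    exact ⟨m, a, b, by simp [c]⟩
  | succ n ih =>
    obtain ⟨l, a, b, rfl⟩ := ih
    obtain ⟨m, a', b', c⟩ := h.next b.le
    refine ⟨m, a', b.trans b', ?_⟩
    rw [c, ← ncard_insert_of_notMem (a := l) (fun k => k.2.2.false) (h.fin' _), ← Ioo_insert_right b,
      inter_insert_of_mem a]

variable {κ lam ν : Type} [Fintype κ] [Fintype lam] [Fintype ν] [DecidableEq ν]
  {e : En3 κ lam ν} {M : (lf e).Gen}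

theorem lfs (hG : GapStmt κ lam ν) (h : Mo M) (j : M.ρ) : LF (spec (M.θ j)) :=
  let k := hG _ h.ok _ (h.crit (.inr j)).1; ⟨k.1, k.2.1⟩

theorem emp (h : Mo M) (k : NoOld e) : IsEmpty M.ι := ⟨fun i =>
  let ⟨y, a⟩ := h.irr i; a (congrFun (k _ (h.crit (.inl i))) y)⟩

/-- **ES-NUM** -/
theorem num (hG : GapStmt κ lam ν) (hM : MuStmt κ lam ν) : NumStmt κ lam ν := by
  have s : ∀ {α : Type} [Fintype α] (f : α → ℤ) (a : α), |f a| ≤ ∑ i, |f i| := fun f a =>
    Finset.single_le_sum (f := fun i => |f i|) (fun _ _ => abs_nonneg _) (Finset.mem_univ a)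
  have p : ∀ {α : Type} [Fintype α] (f : α → ℤ), 0 ≤ ∑ i, |f i| := fun f =>
    Finset.sum_nonneg fun _ _ => abs_nonneg _
  refine ⟨fun e M o => ?_, fun e M h c d => ?_, fun e M h => ⟨fun d => ?_, fun Λ => ?_⟩,
    fun e M h h1 h2 h3 => ?_, fun e M h h1 h2 c o o' a b k => ?_⟩
  · have a := p fun i => mu (e := lf e) (M.x i)
    have b := p fun j => mu0 (M.θ j)
    rcases o with i | ⟨j, l⟩
    · have := abs_le.1 (s (fun i => mu (e := lf e) (M.x i)) i)
      simp only [lo, Lb.deg, Sum.elim_inl]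
      omega
    · have := abs_le.1 (s (fun j => mu0 (M.θ j)) j)
      simp only [lo, Lb.deg, Sum.elim_inr]
      omega
  · have i : InjOn (Sum.map id Prod.fst : Lb M → M.ι ⊕ M.ρ) {o : Lb M | o.In c ∧ o.deg = d} := by
      rintro (i | ⟨j, l⟩) a (i' | ⟨j', l'⟩) b k <;> simp only [Sum.map_inl, Sum.map_inr, id,
        reduceCtorEq, Sum.inr.injEq, Sum.inl.injEq] at k
      · rw [k]
      · subst k
        have := a.2.trans b.2.symm
        simp only [Lb.deg, Sum.elim_inr] at this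
        rw [(lfs hG h j).inj (l := l) (l' := l') a.1.1 a.1.2.1 b.1.1 b.1.2.1 (by omega)]
    refine ⟨Finite.of_injOn (mapsTo_univ _ _) i finite_univ,
      (ncard_le_ncard_of_injOn _ (mapsTo_univ _ _) i finite_univ).trans ?_⟩
    simp [ncard_univ]
  · choose f f1 f2 f3 using fun j => (lfs hG h j).sur (d - mu0 (M.θ j)).toNat
    obtain ⟨Λ, hΛ⟩ := Finite.bddAbove_range f
    refine ⟨Λ, fun c j l a b => le_trans (not_lt.1 fun k => ?_) (hΛ (mem_range_self j))⟩
    have := (lfs hG h j).lt (f1 j) (f2 j) k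
    simp only [Lb.deg, Sum.elim_inr] at b
    have := f3 j
    omega
  · obtain ⟨d, hd⟩ := Finite.bddAbove_range fun o : M.ι ⊕ M.ρ => Lb.deg (o.map id (·, Λ) : Lb M)
    refine ⟨d, fun c o a b => ?_⟩
    rcases o with i | ⟨j, l⟩
    · exact hd (mem_range_self (Sum.inl i))
    · refine le_trans ?_ (hd (mem_range_self (Sum.inr j)))
      have := (lfs hG h j).mono (b j l rfl)
      simp only [Lb.deg, Sum.elim_inr, Sum.map_inr]
      omega
  · have z := (hM.rf e M h).2.2 h1 h2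
    have l0 : lo M = -2 * ∑ i, |mu (e := lf e) (M.x i)| := by simp [lo, z]
    have a := p fun i => mu (e := lf e) (M.x i)
    have h0 : (hi M : ℤ) = -lo M + (∑ i, |mu (e := lf e) (M.x i)| + Fintype.card M.ι) := by
      simp [hi, Finset.sum_add_distrib, abs_of_nonpos (show lo M ≤ 0 by omega)]
    have n : ∀ k ≥ hi M, ∀ i, Lb.deg (.inl i : Lb M) ≠ lo M + k := fun k hk i => by
      have := abs_le.1 (s (fun i => mu (e := lf e) (M.x i)) i)
      have := Fintype.card_pos_iff.2 ⟨i⟩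
      simp only [Lb.deg, Sum.elim_inl]
      omega
    refine ⟨fun k hk ⟨m, hm⟩ => ?_, fun k hk ⟨m, hm⟩ c o _ => ?_, fun k => ?_⟩
    · obtain ⟨j⟩ := h.ne
      obtain ⟨l, l1, l2, l3⟩ := (lfs hG h j).sur (m - ∑ i, |mu (e := lf e) (M.x i)|).toNat
      refine ⟨l + 1, fun c hc => ⟨.inr (j, l), ⟨⟨l1, l2, by linarith⟩, ?_⟩, ?_⟩⟩
      · simp only [Lb.deg, Sum.elim_inr, z]
        omega
      · rintro (i | ⟨j', l'⟩) ⟨b1, b2⟩
        · exact (n k hk i b2).elim
        · obtain rfl := Subsingleton.elim j j'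
          simp only [Lb.deg, Sum.elim_inr, z] at b2
          rw [(lfs hG h j).inj (l := l') b1.1 b1.2.1 l1 l2 (by omega)]
    · rcases o with i | ⟨j, l⟩
      · exact n k hk i
      · simp only [Lb.deg, Sum.elim_inr, z]
        omega
    · have := emp h k
      exact ⟨by simp [l0], by simp [hi, l0]⟩
  · have := emp h h1
    rcases o with i | ⟨j, l⟩
    · exact this.elim i
    rcases o' with i | ⟨j', l'⟩
    · exact this.elim i
    simp only [Lb.deg, Sum.elim_inr] at k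
    obtain rfl : j = j' := by_contra fun n => by obtain ⟨m, hm⟩ := h2 j j' n; omega
    rw [(lfs hG h j).inj (l := l) (l' := l') a.1 a.2.1 b.1 b.2.1 (by omega)]

end Crest.Agent.X212.Hp13.Num
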