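import Crest.Agent.X212.Hp13.Mv

/-!
# X212 / Hp13 (helper13): the cocycle carried by a union of components, DROP
-/

set_option autoImplicit false
set_option linter.unusedSectionVars false

open Finset Classical

noncomputable section

namespace Crest.Agent.X212.Hp13

section lr

variable {P : Type} [PartialOrder P] {A : Set P} {z w : P → P → ℤ} [IsCoc A z] [IsCoc A w]

/-- a partial isomorphism of level sets over the chains -/
structure LR (R : Lv A z → Lv A w → Prop) : Prop where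
  ch : ∀ {q p}, R q p → p.1.1 = q.1.1
  le_iff : ∀ {q q' p p'}, R q p → R q' p' → (q ≤ q' ↔ p ≤ p')

namespace LR

variable {R : Lv A z → Lv A w → Prop} (h : LR R)
include h

theorem symm : LR fun p q => R q p :=
  ⟨fun k => (h.ch k).symm, fun k k' => (h.le_iff k k').symm⟩

theorem uniq {q : Lv A z} {p p' : Lv A w} (k : R q p) (k' : R q p') : p = p' :=
  le_antisymm ((h.le_iff k k').1 le_rfl) ((h.le_iff k' k).1 le_rfl)

theorem la {q : Lv A z} {p : Lv A w} (k : R q p) : q ∈ LA A z ↔ p ∈ LA A w := by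
  simp only [LA, Set.mem_ofPred_eq, h.ch k]

theorem cm {q q' : Lv A z} {p p' : Lv A w} (k : R q p) (k' : R q' p') : Cm q q' ↔ Cm p p' :=
  or_congr (h.le_iff k k') (h.le_iff k' k)

theorem rch {S : Set (Lv A z)} {T : Set (Lv A w)} (hS : ∀ q ∈ S, ∃ p ∈ T, R q p)
    {q q' : Lv A z} {p p' : Lv A w} (k : R q p) (k' : R q' p') (hr : Rch S q q') : Rch T p p' := by
  refine hr.ind (p := fun t => ∀ r, R t r → Rch T p r) (fun r j => h.uniq k j ▸ Rch.rfl) ?_ p' k'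
  intro a ha b hb hab
  obtain ⟨a', a1, a2⟩ := hS a ha
  obtain ⟨b', b1, b2⟩ := hS b hb
  have := Rch.of_cm a1 b1 (Or.inl ((h.le_iff a2 b2).1 hab))
  exact ⟨fun H r j => h.uniq b2 j ▸ (H a' a2).trans this,
    fun H r j => h.uniq a2 j ▸ (H b' b2).trans this.symm⟩

theorem chiC [Fintype P] {S : Set (Lv A z)} {T : Set (Lv A w)} (hS : ∀ q ∈ S, ∃ p ∈ T, R q p)
    (hT : ∀ p ∈ T, ∃ q ∈ S, R q p) : chiC S = chiC T := by
  choose f f1 f2 using hS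
  refine sum_bij (fun q hq => f q (mem_filter.1 hq).2) (fun q hq => mem_filter.2 ⟨mem_univ _, f1 _ _⟩)
    (fun q hq q' hq' e => h.symm.uniq (f2 q _) (e ▸ f2 q' _)) (fun p hp => ?_)
    fun q hq => by rw [h.ch (f2 q _)]
  obtain ⟨q, q1, q2⟩ := hT p (mem_filter.1 hp).2
  exact ⟨q, mem_filter.2 ⟨mem_univ _, q1⟩, h.uniq (f2 q q1) q2⟩

end LR

theorem lr_mr (E : Set P) : LR (MR : Lv A z → Lv A (up z E) → Prop) :=
  ⟨fun k => k.1, fun k k' => k.le_iff k'⟩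

/-- first exit of a path from the complement of `X` -/
theorem Rch.exit {S X : Set P} {a b : P} (h : Rch S a b) (ha : a ∉ X) :
    (b ∉ X ∧ Rch (S \ X) a b) ∨ ∃ r ∈ S \ X, Rch (S \ X) a r ∧ ∃ x ∈ S, x ∈ X ∧ Cm r x := by
  induction h with
  | refl => exact Or.inl ⟨ha, Rch.rfl⟩
  | @tail b c _ k ih =>
    rcases ih with ⟨h1, h2⟩ | ih
    · by_cases hc : c ∈ X
      · exact Or.inr ⟨b, ⟨k.1, h1⟩, h2, c, k.2.1, hc, k.2.2⟩
      · exact Or.inl ⟨hc, h2.trans (Rch.of_cm ⟨k.1, h1⟩ ⟨k.2.1, hc⟩ k.2.2)⟩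
    · exact Or.inr ih

end lr

section cnt

variable {P : Type} [PartialOrder P] {A : Set P} {z : P → P → ℤ}

/-- the levels of `T` on the chain `c` -/
def lev (T : Set (Lv A z)) (c : Ch P) (k : ℤ) : Prop := ∃ q ∈ T, q.1.1 = c ∧ q.1.2 = k

/-- the number of levels of `T` on `c` in `[a, b)` -/
def nlev (T : Set (Lv A z)) (c : Ch P) (a b : ℤ) : ℤ := ((Ico a b).filter (lev T c)).card

/-- the cocycle carried by `T` -/
def cnt (T : Set (Lv A z)) : P → P → ℤ := fun x y =>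
  if h : x ≤ y then nlev T (Ch.pr x y h) 0 (z x y) else 0

/-- a union of components of the whole level set -/
def Sat (T : Set (Lv A z)) : Prop := ∀ p q, Lv.le p q → (p ∈ T ↔ q ∈ T)

variable {T : Set (Lv A z)}

theorem Sat.compl (h : Sat T) : Sat Tᶜ := fun p q k => not_congr (h p q k)

theorem lev_self {q : Lv A z} : lev T q.1.1 q.1.2 ↔ q ∈ T :=
  ⟨fun ⟨_, h, e1, e2⟩ => Lv.ext e1 e2 ▸ h, fun h => ⟨q, h, rfl, rfl⟩⟩

theorem nlev_nonneg (c : Ch P) (a b : ℤ) : 0 ≤ nlev T c a b := Int.natCast_nonneg _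

theorem nlev_add (c : Ch P) {a b d : ℤ} (h1 : a ≤ b) (h2 : b ≤ d) :
    nlev T c a d = nlev T c a b + nlev T c b d := by
  rw [nlev, nlev, nlev, ← Ico_union_Ico_eq_Ico h1 h2, filter_union,
    card_union_of_disjoint (disjoint_filter_filter (Ico_disjoint_Ico_consecutive a b d))]
  push_cast; rfl

theorem nlev_lt (c : Ch P) {a k b : ℤ} (h1 : a ≤ k) (h2 : k < b) (h : lev T c k) :
    nlev T c a k < nlev T c a b := by
  rw [nlev_add c h1 h2.le]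
  have : 0 < ((Ico k b).filter (lev T c)).card :=
    card_pos.2 ⟨k, mem_filter.2 ⟨mem_Ico.2 ⟨le_rfl, h2⟩, h⟩⟩
  have : 0 < nlev T c k b := by rw [nlev]; exact_mod_cast this
  omega

theorem exists_nlev (c : Ch P) {a b j : ℤ} (h1 : 0 ≤ j) (h2 : j < nlev T c a b) :
    ∃ k, a ≤ k ∧ k < b ∧ lev T c k ∧ nlev T c a k = j := by
  have key := surj_on_of_inj_on_of_card_le (s := (Ico a b).filter (lev T c))
    (t := Ico 0 (nlev T c a b)) (fun k _ => nlev T c a k) (fun k hk => ?_) (fun k k' hk hk' e => ?_)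
    (by rw [Int.card_Ico, sub_zero, nlev, Int.toNat_natCast]) j (mem_Ico.2 ⟨h1, h2⟩)
  · obtain ⟨k, hk, e⟩ := key
    obtain ⟨k1, k2⟩ := mem_filter.1 hk
    exact ⟨k, (mem_Ico.1 k1).1, (mem_Ico.1 k1).2, k2, e.symm⟩
  · obtain ⟨k1, k2⟩ := mem_filter.1 hk
    exact mem_Ico.2 ⟨nlev_nonneg _ _ _, nlev_lt c (mem_Ico.1 k1).1 (mem_Ico.1 k1).2 k2⟩
  · obtain ⟨k1, k2⟩ := mem_filter.1 hk
    obtain ⟨k3, k4⟩ := mem_filter.1 hk'
    rcases lt_trichotomy k k' with l | l | l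
    · exact absurd e (nlev_lt c (mem_Ico.1 k1).1 l k2).ne
    · exact l
    · exact absurd e (nlev_lt c (mem_Ico.1 k3).1 l k4).ne'

theorem cnt_nonneg (x y : P) : 0 ≤ cnt T x y := by
  unfold cnt; split_ifs
  exacts [nlev_nonneg _ _ _, le_rfl]

theorem mono_cnt : Mono A (cnt T) := fun x y _ => cnt_nonneg x y

theorem cnt_add_compl (hm : Mono A z) : EqD A z (cnt T + cnt Tᶜ) := fun x y hp => by
  have := hm x y hp
  simp only [Pi.add_apply, cnt, dif_pos hp.1, nlev]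
  rw [filter_congr (p := lev Tᶜ _) (q := fun k => ¬ lev T (Ch.pr x y hp.1) k) fun k hk => ?_,
    ← Nat.cast_add, card_filter_add_card_filter_not, Int.card_Ico, sub_zero, Int.toNat_of_nonneg this]
  let q : Lv A z := ⟨(Ch.pr x y hp.1, k), (dom_pr hp.1).2 hp, by simpa using mem_Ico.1 hk⟩
  exact (lev_self (q := q)).trans (not_congr (lev_self (T := T) (q := q))).symm

theorem cnt_le (hm : Mono A z) {x y : P} (hp : Dp A x y) : cnt T x y ≤ z x y := by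
  have := cnt_add_compl (T := T) hm x y hp
  have := cnt_nonneg (T := Tᶜ) x y
  simp only [Pi.add_apply] at *
  omega

variable [hz : IsCoc A z]

theorem Sat.shift (h : Sat T) (hm : Mono A z) {c d : Ch P} (hd : Dom A d) (hc : c ≤ d) {a b : ℤ}
    (ha : 0 ≤ a) (hb : b ≤ z c.bot c.top) :
    nlev T c a b = nlev T d (a + z d.bot c.bot) (b + z d.bot c.bot) := by
  rw [nlev, nlev]
  congr 1
  have key : ∀ k, a ≤ k → k < b → (lev T c k ↔ lev T d (k + z d.bot c.bot)) := fun k h1 h2 => by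
    let q : Lv A z := ⟨(c, k), hd.mono hc, ha.trans h1, h2.trans_le hb⟩
    obtain ⟨r, r1, r2⟩ := Lv.exists_ge hm q hd hc
    have e := (Lv.le_iff.1 r2).2
    rw [r1] at e
    exact ((lev_self (q := q)).trans (h q r r2)).trans (by rw [← lev_self, r1, e])
  refine card_bij (fun k _ => k + z d.bot c.bot) (fun k hk => ?_) (fun k _ k' _ e => by omega)
    fun k hk => ?_
  · obtain ⟨k1, k2⟩ := mem_filter.1 hk
    rw [mem_Ico] at k1
    exact mem_filter.2 ⟨mem_Ico.2 ⟨by omega, by omega⟩, (key k k1.1 k1.2).1 k2⟩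
  · obtain ⟨k1, k2⟩ := mem_filter.1 hk
    rw [mem_Ico] at k1
    refine ⟨k - z d.bot c.bot, mem_filter.2 ⟨mem_Ico.2 ⟨by omega, by omega⟩,
      (key _ (by omega) (by omega)).2 (by rwa [sub_add_cancel])⟩, sub_add_cancel _ _⟩

theorem Sat.cnt_eq (h : Sat T) (hm : Mono A z) {c : Ch P} (hc : Dom A c) {x y : P} (hx : x ∈ c.1)
    (hy : y ∈ c.1) (hxy : x ≤ y) : cnt T x y = nlev T c (z c.bot x) (z c.bot y) := by
  have : Ch.pr x y hxy ≤ c := by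
    intro t ht
    simp only [Ch.pr_val, mem_insert, mem_singleton] at ht
    rcases ht with rfl | rfl <;> assumption
  rw [cnt, dif_pos hxy, h.shift hm hc this le_rfl (by simp),
    hz.coc.add' hc c.bot_mem hx hy (Ch.bot_le hx) hxy]
  simp [add_comm]

theorem dom_zero {c : Ch P} (hc : Dom A c) {x : P} (hx : x ∈ c.1) : z x x = 0 :=
  let ⟨_, ha, h⟩ := hc; hz.coc.self ha (h x hx)

theorem Sat.coc (h : Sat T) (hm : Mono A z) : Coc A (cnt T) := by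
  intro a ha x y u h1 h2 c1 c2 c3
  let c : Ch P := (Ch.pr y u h2).ins x fun t ht => by
    simp only [Ch.pr_val, mem_insert, mem_singleton] at ht
    rcases ht with rfl | rfl
    exacts [Or.inl h1, Or.inl (h1.trans h2)]
  have hc : Dom A c := ⟨a, ha, fun t ht => by
    simp only [c, Ch.ins_val, Ch.pr_val, mem_insert, mem_singleton] at ht
    rcases ht with rfl | rfl | rfl <;> assumption⟩
  have hx : x ∈ c.1 := by simp [c]
  have hy : y ∈ c.1 := by simp [c]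
  have hu : u ∈ c.1 := by simp [c]
  have e1 := hz.coc.add' hc c.bot_mem hx hy (Ch.bot_le hx) h1
  have e2 := hz.coc.add' hc c.bot_mem hy hu (Ch.bot_le hy) h2
  have m1 := hm _ _ (hc.dp hx hy h1)
  have m2 := hm _ _ (hc.dp hy hu h2)
  rw [h.cnt_eq hm hc hx hu (h1.trans h2), h.cnt_eq hm hc hx hy h1, h.cnt_eq hm hc hy hu h2,
    nlev_add c (b := z c.bot y) (by omega) (by omega)]

theorem Sat.cnt_bt (h : Sat T) (hm : Mono A z) {c : Ch P} (hc : Dom A c) :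
    cnt T c.bot c.top = nlev T c 0 (z c.bot c.top) := by
  rw [h.cnt_eq hm hc c.bot_mem c.top_mem c.bot_le_top, dom_zero (z := z) hc c.bot_mem]

/-- the cells of `cnt T` are the cells of `T` -/
def PR (T : Set (Lv A z)) (q : Lv A z) (p : Lv A (cnt T)) : Prop :=
  q ∈ T ∧ p.1.1 = q.1.1 ∧ p.1.2 = nlev T q.1.1 0 q.1.2

theorem Sat.exists_pr (h : Sat T) (hm : Mono A z) {q : Lv A z} (hq : q ∈ T) : ∃ p, PR T q p :=
  ⟨⟨(q.1.1, nlev T q.1.1 0 q.1.2), q.2.1, nlev_nonneg _ _ _, by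
    simp only [h.cnt_bt hm q.2.1]
    exact nlev_lt _ q.2.2.1 q.2.2.2 (lev_self.2 hq)⟩, hq, rfl, rfl⟩

theorem Sat.exists_pr' (h : Sat T) (hm : Mono A z) (p : Lv A (cnt T)) : ∃ q, PR T q p := by
  obtain ⟨k, -, -, ⟨q, q1, q2, rfl⟩, e⟩ :=
    exists_nlev p.1.1 p.2.2.1 (h.cnt_bt hm p.2.1 ▸ p.2.2.2)
  exact ⟨q, q1, q2.symm, by rw [q2, e]⟩

theorem Sat.lr (h : Sat T) (hm : Mono A z) [IsCoc A (cnt T)] : LR (PR T) := by
  have fw : ∀ {q q' p p'}, PR T q p → PR T q' p' → q ≤ q' → p ≤ p' := by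
    rintro q q' p p' ⟨-, a1, a2⟩ ⟨-, b1, b2⟩ k
    obtain ⟨k1, k2⟩ := Lv.le_iff.1 k
    have b := k1 q.1.1.bot_mem
    have m := hm _ _ (q'.2.1.dp q'.1.1.bot_mem b (Ch.bot_le b))
    refine Lv.le_iff.2 ⟨by rwa [a1, b1], ?_⟩
    have := q.2.2.1
    rw [a1, b1, a2, b2, k2, h.shift hm q'.2.1 k1 le_rfl q.2.2.2.le,
      h.cnt_eq hm q'.2.1 q'.1.1.bot_mem b (Ch.bot_le b), dom_zero (z := z) q'.2.1 q'.1.1.bot_mem, zero_add,
      nlev_add q'.1.1 (b := z q'.1.1.bot q.1.1.bot) m (by omega), add_comm]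
  refine ⟨fun k => k.2.1, fun {q q' p p'} a b => ⟨fw a b, fun k => ?_⟩⟩
  obtain ⟨r, r1, r2⟩ := Lv.exists_ge hm q q'.2.1 (a.2.1 ▸ b.2.1 ▸ Lv.ch_le k)
  have rT := (h q r r2).1 a.1
  obtain ⟨s, hs⟩ := h.exists_pr hm rT
  have e1 := (Lv.le_iff.1 (fw a hs r2)).2
  have e2 := (Lv.le_iff.1 k).2
  rw [hs.2.1, r1, hs.2.2, r1] at e1
  rw [b.2.1, b.2.2, ← e1] at e2
  refine (Lv.ext r1 ?_ : r = q') ▸ r2
  rcases lt_trichotomy r.1.2 q'.1.2 with l | l | l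
  · exact absurd e2 (nlev_lt _ r.2.2.1 l (r1 ▸ lev_self.2 rT)).ne'
  · exact l
  · exact absurd e2 (nlev_lt _ q'.2.2.1 l (lev_self.2 b.1)).ne

/-- the down closure -/
def dn (C : Set (Lv A z)) : Set (Lv A z) := {q | ∃ p ∈ C, Lv.le q p}

theorem part_eq (C : Set (Lv A z)) : EqD A (part A z C) (cnt (dn C)) := fun x y hp => by
  rw [part, cnt, dif_pos hp.1, nlev]
  congr 2
  ext k
  simp only [mem_filter]
  exact and_congr_right fun _ => ⟨fun ⟨q, h1, h2, h3⟩ => ⟨q, h3, Ch.ext h1, h2⟩,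
    fun ⟨q, h3, h1, h2⟩ => ⟨q, by rw [h1]; rfl, h2, h3⟩⟩

theorem Lv.exists_la (hm : Mono A z) (q : Lv A z) : ∃ p ∈ LA A z, q ≤ p := by
  obtain ⟨d, h1, h2⟩ := dom_iff.1 q.2.1
  obtain ⟨p, p1, p2⟩ := Lv.exists_ge hm q h2.dom h1
  exact ⟨p, show Mt A p.1.1 from p1 ▸ h2, p2⟩

theorem sat_dn (hm : Mono A z) {C : Set (Lv A z)}
    (h : ∀ p ∈ C, ∀ q ≤ p, ∀ p' ∈ LA A z, q ≤ p' → p' ∈ C) : Sat (dn C) := fun p q k =>
  ⟨fun ⟨r, r1, r2⟩ => let ⟨s, s1, s2⟩ := Lv.exists_la hm q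
      ⟨s, h r r1 p r2 s s1 (le_trans (a := p) k s2), s2⟩,
    fun ⟨r, r1, r2⟩ => ⟨r, r1, le_trans (a := p) k r2⟩⟩

/-- the interior cofaces of a cell are connected -/
theorem Nice.rch [Fintype P] (hN : Nice A) (hm : Mono A z) {q p p' : Lv A z} (hp : p ∈ LA A z)
    (hp' : p' ∈ LA A z) (h : q ≤ p) (h' : q ≤ p') : Rch (LA A z) p p' := by
  by_cases hq : q ∈ LA A z
  · exact (Rch.of_cm hp hq (Or.inr h)).trans (Rch.of_cm hq hp' (Or.inl h'))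
  have join : ∀ {r s : Lv A z}, r ∈ LA A z → q ≤ r → q ≤ s → r.1.1 ≤ s.1.1 → Rch (LA A z) r s :=
    fun {r s} hr a b k => by
      obtain ⟨t, t1, t2⟩ := Lv.exists_ge hm r s.2.1 k
      have e1 := (Lv.le_iff.1 (a.trans t2)).2
      rw [t1, ← (Lv.le_iff.1 b).2] at e1
      exact Rch.of_cm hr (Mt.mono hr k) (Or.inl (Lv.ext t1 e1 ▸ t2))
  have ex : ∀ {a : P}, a ∈ A → ∀ k : ∀ x ∈ q.1.1.1, Cm a x, ∃ r ∈ LA A z, q ≤ r ∧
      r.1.1 = q.1.1.ins a k := fun {a} ha k => by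
    have m : Mt A (q.1.1.ins a k) := ⟨a, mem_insert_self _ _, ha⟩
    obtain ⟨r, r1, r2⟩ := Lv.exists_ge hm q m.dom (q.1.1.le_ins a k)
    exact ⟨r, show Mt A r.1.1 from r1 ▸ m, r2, r1⟩
  have key : ∀ {a : P}, a ∈ A → (∀ x ∈ q.1.1.1, Cm a x) → ∀ {r s : Lv A z}, q ≤ r → q ≤ s →
      a ∈ r.1.1.1 → a ∈ s.1.1.1 → Rch (LA A z) r s := fun {a} ha k r s h1 h2 h3 h4 => by
    obtain ⟨t, t1, t2, t3⟩ := ex ha k
    exact (join t1 t2 h1 (t3 ▸ insert_subset h3 (Lv.ch_le h1))).symm.trans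
      (join t1 t2 h2 (t3 ▸ insert_subset h4 (Lv.ch_le h2)))
  obtain ⟨a, a1, a2⟩ := hp
  obtain ⟨b, b1, b2⟩ := hp'
  refine ((hN q.1.1 q.2.1 hq).conn a ⟨a2, fun x hx => p.1.1.cm a1 (Lv.ch_le h hx)⟩ b
    ⟨b2, fun x hx => p'.1.1.cm b1 (Lv.ch_le h' hx)⟩).ind
    (p := fun t => ∀ s, q ≤ s → t ∈ s.1.1.1 → Rch (LA A z) p s)
    (fun s k1 k2 => key a2 (fun x hx => p.1.1.cm a1 (Lv.ch_le h hx)) h k1 a1 k2) ?_ p' h' b1
  intro u hu v hv huv
  let c := (q.1.1.ins u hu.2).ins v fun x hx =>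
    (mem_insert.1 hx).elim (fun e => e ▸ Or.inr huv) (hv.2 x)
  have m : Mt A c := ⟨v, mem_insert_self _ _, hv.1⟩
  obtain ⟨r, r1, r2⟩ := Lv.exists_ge hm q m.dom ((q.1.1.le_ins _ _).trans (Ch.le_ins _ _ _))
  have ru : u ∈ r.1.1.1 := r1 ▸ mem_insert_of_mem (mem_insert_self _ _)
  have rv : v ∈ r.1.1.1 := r1 ▸ mem_insert_self _ _
  exact ⟨fun H s k1 k2 => (H r r2 ru).trans (key hv.1 hv.2 r2 k1 rv k2),
    fun H s k1 k2 => (H r r2 rv).trans (key hu.1 hu.2 r2 k1 ru k2)⟩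

/-- a union of components of the interior is saturated after closing it -/
theorem Nice.sat [Fintype P] (hN : Nice A) (hm : Mono A z) {C : Set (Lv A z)} (hC : C ⊆ LA A z)
    (h : ∀ p ∈ C, ∀ q ∈ LA A z, Cm p q → q ∈ C) : Sat (dn C) :=
  sat_dn hm fun p hp _ h1 _ hp' h2 => (Rch.in_clopen h hp (hN.rch hm (hC hp) hp' h1 h2)).mem hp

theorem mem_dn {C : Set (Lv A z)} (h : ∀ p ∈ C, ∀ q ∈ LA A z, Cm p q → q ∈ C) {q : Lv A z}
    (hq : q ∈ LA A z) : q ∈ dn C ↔ q ∈ C :=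
  ⟨fun ⟨p, hp, k⟩ => h p hp q hq (Or.inr k), fun k => ⟨q, k, Or.inl rfl⟩⟩

/-- a union of closed components is saturated -/
theorem sat_closed {C : Set (Lv A z)} (hC : C ⊆ LA A z)
    (h : ∀ p ∈ C, ∀ q ∈ LA A z, Cm p q → q ∈ C) (hT : ¬ Tch A z C) : Sat C := fun p q k =>
  ⟨fun hp => h p hp q (LA.upper (hC hp) k) (Or.inl k),
    fun hq => h q hq p (by_contra fun hp => hT ⟨q, hq, p, hp, k⟩) (Or.inr k)⟩

theorem cl0_cnt (hC : T ⊆ LA A z) : Cl0 A (cnt T) := fun x y hp hx hy => by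
  rw [cnt, dif_pos hp.1, nlev, filter_false_of_mem, card_empty, Nat.cast_zero]
  rintro k - ⟨q, q1, q2, -⟩
  obtain ⟨a, a1, a2⟩ := hC q1
  rw [q2] at a1
  simp only [Ch.pr_val, mem_insert, mem_singleton] at a1
  rcases a1 with rfl | rfl
  exacts [hx a2, hy a2]

/-- the closed components -/
def Cls (A : Set P) (z : P → P → ℤ) [IsCoc A z] : Set (Lv A z) :=
  {p | p ∈ LA A z ∧ ¬ Tch A z (cmp (LA A z) p)}

theorem Cls.clopen {p q : Lv A z} (hp : p ∈ Cls A z) (hq : Rch (LA A z) p q) : q ∈ Cls A z :=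
  ⟨hq.mem hp.1, cmp_eq hq ▸ hp.2⟩

theorem sat_cls : Sat (Cls A z) :=
  sat_closed (fun _ h => h.1) (fun _ hp _ hq k => Cls.clopen hp (Rch.of_cm hp.1 hq k))
    fun ⟨p, hp, k⟩ => hp.2 ⟨p, mem_cmp_self hp.1, k⟩

theorem noCl_iff : NoCl A z ↔ Cls A z = ∅ :=
  ⟨fun h => Set.eq_empty_of_forall_notMem fun _ hp => hp.2 (h _ (isCmp_cmp hp.1)),
    fun h _ ⟨p, hp, e⟩ => by_contra fun k => (h ▸ ⟨hp, e ▸ k⟩ : p ∈ (∅ : Set (Lv A z)))⟩

theorem Sat.rch (h : Sat T) {p q : Lv A z} {S : Set (Lv A z)} (hp : p ∈ T) (k : Rch S p q) :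
    Rch (S ∩ T) p q := by
  have : q ∈ T ∧ Rch (S ∩ T) p q := k.ind (p := fun t => t ∈ T ∧ Rch (S ∩ T) p t) ⟨hp, Rch.rfl⟩
    fun a ha b hb hab => ⟨fun H => ⟨(h a b hab).1 H.1,
      H.2.trans (Rch.of_cm ⟨ha, H.1⟩ ⟨hb, (h a b hab).1 H.1⟩ (Or.inl hab))⟩,
      fun H => ⟨(h a b hab).2 H.1,
        H.2.trans (Rch.of_cm ⟨hb, H.1⟩ ⟨ha, (h a b hab).2 H.1⟩ (Or.inr hab))⟩⟩
  exact this.2

theorem Sat.rch_iff (h : Sat T) (hm : Mono A z) [IsCoc A (cnt T)] {q q' : Lv A z}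
    {p p' : Lv A (cnt T)} (k : PR T q p) (k' : PR T q' p') :
    Rch (LA A z) q q' ↔ Rch (LA A (cnt T)) p p' :=
  ⟨fun H => (h.lr hm).rch (fun a ha => let ⟨b, hb⟩ := h.exists_pr hm ha.2
      ⟨b, ((h.lr hm).la hb).1 ha.1, hb⟩) k k' (h.rch k.1 H),
    fun H => (h.lr hm).symm.rch (fun a ha => let ⟨b, hb⟩ := h.exists_pr' hm a
      ⟨b, ((h.lr hm).la hb).2 ha, hb⟩) k k' H⟩

theorem Sat.cls_iff (h : Sat T) (hm : Mono A z) [IsCoc A (cnt T)] {q : Lv A z}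
    {p : Lv A (cnt T)} (k : PR T q p) : q ∈ Cls A z ↔ p ∈ Cls A (cnt T) := by
  have l := h.lr hm
  refine and_congr (l.la k) (not_congr ⟨?_, ?_⟩)
  · rintro ⟨a, ⟨a1, a2⟩, b, b1, b2⟩
    have aT := ((h.rch k.1 a2).mono Set.inter_subset_right).mem k.1
    obtain ⟨a', ha⟩ := h.exists_pr hm aT
    obtain ⟨b', hb⟩ := h.exists_pr hm ((h b a b2).2 aT)
    exact ⟨a', ⟨(l.la ha).1 a1, (h.rch_iff hm k ha).1 a2⟩, b', fun j => b1 ((l.la hb).2 j),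
      (l.le_iff hb ha).1 b2⟩
  · rintro ⟨a, ⟨a1, a2⟩, b, b1, b2⟩
    obtain ⟨a', ha⟩ := h.exists_pr' hm a
    obtain ⟨b', hb⟩ := h.exists_pr' hm b
    exact ⟨a', ⟨(l.la ha).2 a1, (h.rch_iff hm k ha).2 a2⟩, b', fun j => b1 ((l.la hb).1 j),
      (l.le_iff hb ha).2 b2⟩

theorem Sat.sf (h : Sat T) (hm : Mono A z) (hT : ∀ q ∈ T, q ∉ Cls A z) : Sf A (cnt T) := by
  haveI : IsCoc A (cnt T) := ⟨h.coc hm⟩
  refine ⟨mono_cnt, this, noCl_iff.2 (Set.eq_empty_of_forall_notMem fun p hp => ?_)⟩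
  obtain ⟨q, hq⟩ := h.exists_pr' hm p
  exact hT q hq.1 ((h.cls_iff hm hq).2 hp)

variable [Fintype P]

theorem Sat.chi (h : Sat T) (hm : Mono A z) : chi A (cnt T) = chiC (LA A z ∩ T) := by
  haveI : IsCoc A (cnt T) := ⟨h.coc hm⟩
  rw [chi_eq_chiC mono_cnt]
  symm
  exact (h.lr hm).chiC (fun a ha => let ⟨b, hb⟩ := h.exists_pr hm ha.2
      ⟨b, ((h.lr hm).la hb).1 ha.1, hb⟩) fun a ha => let ⟨b, hb⟩ := h.exists_pr' hm a
      ⟨b, ⟨((h.lr hm).la hb).2 ha, hb.1⟩, hb⟩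

theorem Sat.eqv (hb : Bnd ℤ A) (h : Sat T) (hm : Mono A z) (hT : T ⊆ LA A z) :
    Eqv A z (cnt Tᶜ) :=
  hb.eqv hz.coc (h.compl.coc hm) fun x y hp hx hy => by
    rw [cnt_add_compl (T := T) hm x y hp, Pi.add_apply, Pi.add_apply, cl0_cnt hT x y hp hx hy,
      zero_add]

/-- **DROP**: remove all closed components -/
theorem drop (hb : Bnd ℤ A) (hm : Mono A z) :
    Sf A (cnt (Cls A z)ᶜ) ∧ Eqv A z (cnt (Cls A z)ᶜ) ∧
      chi A (cnt (Cls A z)ᶜ) = chi A z - chiC (Cls A z) ∧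
      ∀ x y, Dp A x y → cnt (Cls A z)ᶜ x y ≤ z x y := by
  refine ⟨sat_cls.compl.sf hm fun _ h => h, sat_cls.eqv hb hm fun _ h => h.1, ?_,
    fun _ _ => cnt_le hm⟩
  rw [sat_cls.compl.chi hm, chi_eq_chiC hm, chiC_split (LA A z) (Cls A z),
    Set.inter_eq_right.2 (show Cls A z ⊆ LA A z from fun _ h => h.1), Set.sdiff_eq]
  ring

end cnt

end Crest.Agent.X212.Hp13
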