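import Crest.Agent.X212.Hp13.TraS
import Crest.Agent.X212.Dd39.Lv

/-!
# X212 / Hp13 (helper13): the surface `HS` under a maximal surface, part 1
-/

set_option autoImplicit false
set_option linter.unusedSectionVars false

open Finset Classical

namespace Crest.Agent.X212.Hp13

open Crest.Agent.X212.Alg36 Cut21
open Pt30 hiding Dsc
open Crest.Agent.X212.Hk
open Kh11 (WS sctr_min)

variable {P : Type} [PartialOrder P] [Fintype P] {X Y M W : Set P} {z w e : P → P → ℤ}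

theorem isCmp_sub {S T C : Set P} (h : IsCmp S C) (h1 : C ⊆ T) (h2 : T ⊆ S) : IsCmp T C := by
  obtain ⟨x, hx⟩ := h.ne
  exact ⟨x, h1 hx, Set.ext fun y => ⟨fun k => ⟨h1 k, (h.conn x hx y k).mono h1⟩,
    fun k => h.eq hx ▸ ⟨h2 k.1, k.2.mono h2⟩⟩⟩

theorem ctr_top (h : Z1 M e) {d : Ch P} (hd : d ∈ Qe M e) :
    Ctr {C : Ch (Ch P) | C.top = d ∧ 0 < e C.bot.top d.top} := by
  have m : Mt {x | 0 < e x d.top} d := ⟨_, d.bot_mem, hd.2⟩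
  have k : ∀ C : Ch (Ch P), C.top = d → 0 < e C.bot.top d.top → C.bot ≤ rs {x | 0 < e x d.top} d :=
    fun C a b x hx => by
      have l : C.bot ≤ d := a ▸ C.bot_le_top
      have := h.coc.add' hd.1 (l hx) (l C.bot.top_mem) d.top_mem (Ch.le_top hx) (Ch.top_mono l)
      have := h.mono _ _ (hd.1.dp (l hx) (l C.bot.top_mem) (Ch.le_top hx))
      exact (mem_rs m).2 ⟨l hx, show 0 < e x d.top by omega⟩
  refine (force (rs {x | 0 < e x d.top} d) (fun C hC => ?_) fun C hC l => ?_).ctr_iff.1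
    (sctr_min (m := Ch.pr _ d (rs_le m)) ⟨⟨by simp, by simpa using ((mem_rs m).1 (Ch.top_mem _)).2⟩,
      by simp⟩ fun C hC => Cut21.pr_le hC.2 (hC.1.1 ▸ C.top_mem))
  · have a : C.bot ∈ C.1.filter (Cm (rs {x | 0 < e x d.top} d)) :=
      mem_filter.2 ⟨C.bot_mem, Or.inr (k C hC.1 hC.2)⟩
    refine ⟨C.sub _ ⟨_, a⟩ (filter_subset _ _), ⟨Ch.top_eq (mem_filter.2 ⟨hC.1 ▸ C.top_mem,
      Or.inl (rs_le m)⟩) fun x l => hC.1 ▸ Ch.le_top (mem_filter.1 l).1, ?_⟩, rfl⟩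
    rw [Ch.bot_eq (c := C.sub _ ⟨_, a⟩ (filter_subset _ _)) a
      fun x l => Ch.bot_le (mem_filter.1 l).1]
    exact hC.2
  · exact ⟨(Pt30.top_ins ((rs_le m).trans hC.1.ge)).trans hC.1,
      by rw [Pt30.bot_ins (k C hC.1 hC.2)]; exact hC.2⟩

/-- the cells one level up, seen from their top -/
theorem ws_tops (h : Z1 M e) {B : Set (Ch P)} (hB : B ⊆ Mx M e) :
    WS {C : Ch (Ch P) | C.top ∈ B ∧ 0 < e C.bot.top C.top.top} B Ch.top := by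
  refine WS.of_le (fun C k => k.1) (fun _ _ _ _ l => Ch.top_mono l) fun d hd => ?_
  refine (WS.of_clo' (D := {C : Ch (Ch P) | C.top = d ∧ 0 < e C.bot.top d.top})
    (A := {C | (C.top ∈ B ∧ 0 < e C.bot.top C.top.top) ∧ C.top ≤ d})
    (fun C k => ⟨⟨k.1 ▸ hd, k.1 ▸ k.2⟩, k.1.le⟩) fun C k => ⟨tp C d k.2, ⟨by simp, ?_⟩,
      le_tp _ _ _, fun b hb l => tp_le l (hb.1 ▸ b.top_mem)⟩).ctr_iff.1
    (ctr_top h (mx_qe subset_rfl (hB hd)))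
  have := h.add (hB hd).1 (Ch.top_mono C.bot_le_top) (Ch.top_mono k.2) le_rfl
  have := h.nn (hB hd).1 (Ch.top_mono k.2) le_rfl
  have := k.1.2
  rw [bot_tp]
  omega

/-- from cells to chains -/
theorem fam_of [IsCoc M e] (h : Z1 M e) (hM : IsUpperSet M) (h3 : Mf 3 M) {G : Set (Ch P)}
    (hG : ∀ p ∈ Mx M e, p ∈ G → ∀ q ∈ Mx M e, q ≤ p → q ∈ G) {D : Set (Lv M e)}
    (h1 : IsCmp (LA M e \ Pt30.ch ⁻¹' G) D) (h2 : ¬ Tch M e D) (h4 : chiC D = 1) :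
    ∃ C, IsCmp (Mx M e \ G) C ∧ ¬ Tc M e C ∧ eu C = 1 := by
  rw [la_eq hM, ← Set.preimage_diff] at h1
  have sq : Mx M e \ G ⊆ Qe _ _ := Set.sdiff_subset.trans (mx_qe subset_rfl)
  obtain ⟨C, c1, rfl⟩ := h.cmp_ex sq h1
  have sC : C ⊆ Mx M e := c1.sub.trans Set.sdiff_subset
  have uC : IsUpperSet C := fun a b k ha =>
    have m := mx_upper h hM subset_rfl k (sC ha)
    c1.clopen ha ⟨m, fun j => (c1.sub ha).2 (hG b m j a (sC ha) k)⟩ (Or.inl k)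
  exact ⟨C, c1, fun k => h2 (tch_of_tc h hM sC k),
    by rw [h.eu_eq h3 sC uC, ← h.chiC_pre (c1.sub.trans sq), h4]⟩

theorem hs_into (h : S1 Y z) {x y : P} (hy : y ∈ HS Y z) (l : x ≤ y) : z x y = 0 := by
  obtain ⟨u, h1, h2, h3⟩ := hy
  have := h.add (sub_cl h1) l h2
  have := h.nn x y ⟨u, h1, h2⟩ l
  have := h.le1 x u (sub_cl h1) (l.trans h2)
  omega

theorem hs_from (h : S1 Y z) {x y : P} (hx : x ∉ HS Y z) (hy : y ∈ Y) (l : x ≤ y) : z x y = 0 :=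
  le_antisymm (not_lt.1 fun k => hx ⟨y, hy, l, k⟩) (h.nn x y (sub_cl hy) l)

theorem hs_pre {t : St} {f : t.P → P} (h : Tw P t f) :
    HS (f ⁻¹' Y) (pb f z) = f ⁻¹' HS Y z :=
  Set.ext fun _ => ⟨fun ⟨_, a, l, k⟩ => ⟨_, a, Dd39.tw_mono h l, k⟩, fun ⟨_, a, l, k⟩ =>
    let ⟨p, h1, h2⟩ := Sup43.desc_up (s := lv0 P) h l
    ⟨p, by rwa [Set.mem_preimage, h2], h1, by rwa [pb, h2]⟩⟩

theorem hs_sd : HS (Ch.top ⁻¹' Y : Set (Ch P)) (pb Ch.top z) = Ch.top ⁻¹' HS Y z :=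
  hs_pre (Desc.sd (lv0 P))

/-- the cells over a part of `HS` -/
theorem ws_hs (h : S1 Y z) (hY : IsUpperSet Y) (hW : W ⊆ HS Y z ∩ Y)
    (k : ∀ x ∈ W, Ctr {i | (i ∉ HS Y z ∧ z x i = 1) ∧ x ≤ i}) :
    WS {K | K ∈ Mx Y z ∧ K.bot ∈ W} W (Pt30.tw W) := by
  refine WS.comp (f := rs W) (WS.of_ge (B := Kh11.In W Set.univ)
    (fun c k => ⟨fun _ l => ((mem_rs ⟨_, c.bot_mem, k.2⟩).1 l).2, trivial⟩)
    (fun c k _ _ l => rs_mono ⟨_, c.bot_mem, k.2⟩ l) fun d hd => ?_) (Kh11.ws_top W)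
  have t := hd.1 _ d.top_mem
  convert Pt30.ctr_over (V := {i | i ∉ HS Y z ∧ z d.top i = 1}) (· ∈ W) (hd.1 _ d.bot_mem) (k _ t) using 1
  ext c
  refine ⟨fun j => ?_, fun j => ?_⟩
  · have l := j.2.trans (rs_le ⟨_, c.bot_mem, j.1.2⟩)
    have := h.add (sub_cl j.1.1.1) (Ch.bot_le (l d.top_mem)) (Ch.top_mono l)
    have := hs_into h (hW t).1 (Ch.bot_le (l d.top_mem))
    have := h.le1 _ _ (sub_cl j.1.1.1) c.bot_le_top
    have := j.1.1.2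
    exact ⟨l, ⟨fun i => by have := hs_into h i c.bot_le_top; omega, by omega⟩, j.1.2⟩
  · have m : Mt W c := ⟨_, c.bot_mem, j.2.2⟩
    have y := hY (Ch.top_mono j.1) (hW t).2
    exact ⟨⟨⟨y, h.pos (sub_cl y) (j.1 d.top_mem) c.top_mem (Ch.top_mono j.1)
      (by rw [j.2.1.2]; norm_num)⟩, j.2.2⟩, fun x l => (mem_rs m).2 ⟨j.1 l, hd.1 x l⟩⟩

/-- every point of `HS` is joined to the outside -/
theorem hs_out (hY : IsUpperSet Y) (h : S1 Y z) (hs : Sf Y z) {x : P} (hx : x ∈ HS Y z) :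
    ∃ o, o ∉ Y ∧ Rch (HS Y z) x o := by
  have Z := (s1_iff hY).1 h
  have : IsCoc Y z := ⟨Z.coc⟩
  obtain ⟨y, h1, h2, h3⟩ := hx
  have q : Ch.pr x y h2 ∈ Mx Y z := ⟨by simpa using h1, by simpa using h3⟩
  have l : cel (mx_qe subset_rfl q) ∈ LA Y z := by rw [la_eq hY]; exact q
  obtain ⟨p, p1, r, r1, r2⟩ := hs.noCl _ (isCmp_cmp l)
  have m : ∀ p : Lv Y z, (Pt30.ch p).bot ∈ HS Y z := fun p => by
    obtain ⟨u, u1, u2⟩ := (dom_up hY).1 p.2.1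
    have := Z.add u1 p.1.1.bot_le_top u2 le_rfl
    have := Z.nn u1 u2 le_rfl
    have := (ch_mem p).2
    exact ⟨u, u1, p.1.1.bot_le_top.trans u2, by simp only [Pt30.ch] at *; omega⟩
  have s : ∀ a b : Lv Y z, a ≤ b → Rch (HS Y z) (Pt30.ch a).bot (Pt30.ch b).bot := fun a b j =>
    Rch.of_cm (m a) (m b) (Or.inr (Ch.bot_anti (Z.ch_le.2 j)))
  refine ⟨(Pt30.ch r).bot, fun j => r1 ⟨_, r.1.1.bot_mem, j⟩, ?_⟩
  simpa using (p1.2.map (f := fun p => (Pt30.ch p).bot) fun a _ b _ j => s a b j).trans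
    (s r p r2).symm

/-- a maximal surface with a two sided shadow -/
structure Hs (Y : Set P) (z : P → P → ℤ) : Prop where
  rg : Rg Y
  bnd : Bnd ℤ Y
  s1 : S1 Y z
  sf : Sf Y z
  max : Max ⟨P, Y⟩ z
  mf : MfIn (HS Y z) Y
  l : ∀ j, j = 0 ∨ j = 1 → ∀ x ∈ HS Y z ∩ Y, Ctr {y | (y ∉ HS Y z ∧ z x y = j) ∧ x ≤ y}
  b : ∀ x, x ∉ Y → ∀ y ∈ Y, x ≤ y → 0 < z x y → ∃ u b, b ∉ Y ∧ x ≤ b ∧ b ≤ u ∧ 0 < z x b ∧
    Rch {a | a ∈ Y ∧ x ≤ a ∧ 0 < z x a} y u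

theorem Hs.sd (h : Hs Y z) : Hs (Ch.top ⁻¹' Y : Set (Ch P)) (pb Ch.top z) where
  rg := rg_sd h.rg
  bnd := Bnd.sd h.rg.up.ordConnected h.rg.nice h.bnd
  s1 := Dd39.s1_pre (Desc.sd (lv0 P)) h.s1
  sf := (Desc.sd ⟨P, Y⟩).sf h.sf
  max := h.max.desc (Desc.sd ⟨P, Y⟩)
  mf := hs_sd (Y := Y) ▸ mfIn_sd (hs_low h.s1) h.mf
  l j hj c hc := by
    rw [hs_sd] at hc ⊢
    convert Pt30.ctr_over (V := {y | y ∉ HS Y z ∧ z c.top y = j}) (fun _ => True) trivial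
      (h.l j hj c.top hc) using 1
    exact Set.ext fun d => ⟨fun k => ⟨k.2, k.1, trivial⟩, fun k => ⟨k.2.1, k.1⟩⟩
  b c hc d hd l k := by
    obtain ⟨u, b, a1, a2, a3, a4, a5⟩ := h.b _ hc _ hd (Ch.top_mono l) k
    have m0 : d.top ∈ {a | a ∈ Y ∧ c.top ≤ a ∧ 0 < z c.top a} := ⟨hd, Ch.top_mono l, k⟩
    have m := a5.mem m0
    have s : ∀ e : Ch P, c ≤ e → e.top ∈ {a | a ∈ Y ∧ c.top ≤ a ∧ 0 < z c.top a} →
        e ∈ {a | a ∈ (Ch.top ⁻¹' Y : Set (Ch P)) ∧ c ≤ a ∧ 0 < pb Ch.top z c a} :=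
      fun e i j => ⟨j.1, i, j.2.2⟩
    have r := a5.ind (p := fun t => ∀ e : Ch P, c ≤ e → e.top = t →
        Rch {a | a ∈ (Ch.top ⁻¹' Y : Set (Ch P)) ∧ c ≤ a ∧ 0 < pb Ch.top z c a} d e)
      (fun e i j => ?_) fun x hx y hy i => ?_
    · exact ⟨tp (tp c b a2) u (by simpa using a3), tp c b a2, by simpa using a1, le_tp _ _ _,
        le_tp _ _ _, by simpa [pb] using a4, r _ ((le_tp _ _ _).trans (le_tp _ _ _)) (by simp)⟩
    · have t : tp c d.top (Ch.top_mono l) ∈ {a | a ∈ (Ch.top ⁻¹' Y : Set (Ch P)) ∧ c ≤ a ∧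
          0 < pb Ch.top z c a} := s _ (le_tp _ _ _) (by rwa [top_tp])
      exact (Rch.of_cm (s d l m0) t (Or.inr (tp_le l d.top_mem))).trans
        (Rch.of_cm t (s e i (j ▸ m0)) (Or.inl (tp_le i (j ▸ e.top_mem))))
    · have t : ∀ v (hv : v ∈ {a | a ∈ Y ∧ c.top ≤ a ∧ 0 < z c.top a}), ∀ e : Ch P, c ≤ e →
          e.top ∈ {a | a ∈ Y ∧ c.top ≤ a ∧ 0 < z c.top a} → v ∈ e.1 → Rch {a | a ∈
          (Ch.top ⁻¹' Y : Set (Ch P)) ∧ c ≤ a ∧ 0 < pb Ch.top z c a} (tp c v hv.2.1) e :=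
        fun v hv e i j n => Rch.of_cm (s _ (le_tp _ _ _) (by simpa using hv)) (s e i j)
          (Or.inl (tp_le i n))
      have e0 : c ≤ tp (tp c x hx.2.1) y (by simpa using i) := (le_tp _ _ _).trans (le_tp _ _ _)
      have a := t x hx _ e0 (by simpa using hy) (by simp)
      have b := t y hy _ e0 (by simpa using hy) (by simp)
      exact ⟨fun n e p q => (((n _ (le_tp _ _ _) (by simp)).trans a).trans b.symm).trans
          (t y hy e p (q ▸ hy) (q ▸ e.top_mem)),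
        fun n e p q => (((n _ (le_tp _ _ _) (by simp)).trans b).trans a.symm).trans
          (t x hx e p (q ▸ hx) (q ▸ e.top_mem))⟩

theorem Hs.pre (h : Hs Y z) {t : St} {f : t.P → P} (k : Tw P t f) : Hs (f ⁻¹' Y) (pb f z) :=
  Dd39.tw_ind k (p := fun _ f => Hs (f ⁻¹' Y) (pb f z)) h fun _ _ _ ih => ih.sd

/-- a piece that does not touch the boundary stays inside -/
theorem Hs.inside (h : Hs Y z) {G C : Set (Ch P)} (hG : ∀ c ∈ G, c.bot ∈ Y)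
    (hC : IsCmp (Mx Y z \ G) C) (hT : ¬ Tc Y z C) {c : Ch P} (hc : c ∈ C) : c.bot ∈ Y := by
  by_contra n
  have Z := (s1_iff h.rg.up).1 h.s1
  have m := (hC.sub hc).1
  obtain ⟨u, b, a1, a2, a3, a4, a5⟩ := h.b _ n _ m.1 c.bot_le_top m.2
  have s : ∀ d : Ch P, d.bot = c.bot → d.top ∈ {a | a ∈ Y ∧ c.bot ≤ a ∧ 0 < z c.bot a} →
      d ∈ Mx Y z \ G := fun d i j => ⟨⟨j.1, i ▸ j.2.2⟩, fun k => n (i ▸ hG d k)⟩
  have p : ∀ v (hv : v ∈ {a | a ∈ Y ∧ c.bot ≤ a ∧ 0 < z c.bot a}), Ch.pr _ v hv.2.1 ∈ Mx Y z \ G :=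
    fun v hv => s _ (by simp) (by simpa using hv)
  have hu := a5.mem ⟨m.1, c.bot_le_top, m.2⟩
  have r := a5.ind (p := fun t => ∀ l : c.bot ≤ t, Ch.pr _ t l ∈ C)
    (fun l => hC.clopen hc (p _ ⟨m.1, l, m.2⟩) (Or.inr (Ch.pr_le _ c.bot_mem c.top_mem)))
    fun x hx y hy i => by
      have t := s (Ch.tr _ x y hx.2.1 i) (Ch.bot_tr _ _) (by rwa [Ch.top_tr])
      have a : Ch.pr _ x hx.2.1 ≤ Ch.tr _ x y hx.2.1 i :=
        Ch.pr_le _ (by simp [Ch.mem_tr]) (by simp [Ch.mem_tr])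
      have b : Ch.pr _ y hy.2.1 ≤ Ch.tr _ x y hx.2.1 i :=
        Ch.pr_le _ (by simp [Ch.mem_tr]) (by simp [Ch.mem_tr])
      exact ⟨fun k _ => hC.clopen (hC.clopen (k _) t (Or.inl a)) (p y hy) (Or.inr b),
        fun k _ => hC.clopen (hC.clopen (k _) t (Or.inl b)) (p x hx) (Or.inr a)⟩
  exact hT ⟨Ch.tr _ b u a2 a3, hC.clopen (r hu.2.1) (s _ (Ch.bot_tr _ _) (by rwa [Ch.top_tr]))
    (Or.inl (Ch.pr_le _ (by simp [Ch.mem_tr]) (by simp [Ch.mem_tr]))), c.bot,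
    by simp [Ch.mem_tr], b, by simp [Ch.mem_tr], a2, a1, a4⟩

end Crest.Agent.X212.Hp13
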