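import Crest.Agent.X212.Hp13.Rsl1

/-!
# X212 / Hp13 (helper13): the surface `HS` under a maximal surface is incompressible
-/

set_option autoImplicit false
set_option linter.unusedSectionVars false

open Finset Classical

namespace Crest.Agent.X212.Hp13

open Crest.Agent.X212.Alg36 Cut21
open Pt30 hiding Dsc
open Crest.Agent.X212.Hk
open Kh11 (WS sctr_min)

variable {P : Type} [PartialOrder P] [Fintype P] {X Y : Set P} {z w : P → P → ℤ} {D : Set (Ch P)}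

theorem mfIn_ca' (hX : IsUpperSet X) (hM : Mf 3 X) (hw : S1 X w) : MfIn (mx w) (CA X w) := by
  have z := (s1_iff hX).1 hw
  have : IsCoc X w := ⟨z.coc⟩
  have q : ∀ c ∈ CA X w, ∀ e ∈ mx w, Cm c e → e ∈ Qe X w := fun c k e l m =>
    ⟨m.elim (fun j => dom_top (hX (Ch.top_mono j) k.1)) (dom_top k.1).mono, l⟩
  exact mf_img (f := fun p : Lv X w => (⟨Pt30.ch p, (ch_mem p).2⟩ : mx w)) (fun _ _ => z.ch_le)
    (fun a k => ⟨cel (q _ k _ a.2 Cm.rfl), k, rfl⟩)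
    (fun a k x l => ⟨cel (q _ k _ x.2 l), rfl⟩) (z.mf hM (S := CA X w) subset_rfl)

/-- the boundary curve of `D` -/
def Bc (H : Set P) (w : P → P → ℤ) (D : Set (Ch P)) : Set (Ch P) :=
  {e | e ∈ Cv H w ∧ ∃ c ∈ D, e ≤ c}

/-- a test disc -/
structure Td (Y : Set P) (z : P → P → ℤ) (X : Set P) (w : P → P → ℤ) (D : Set (Ch P)) :
    Prop extends Hs Y z, Inn (HS Y z) X w D where
  up : IsUpperSet X
  sub : X ⊆ Y
  sw : S1 X w

namespace Td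

variable (h : Td Y z X w D)
include h

theorem low : IsLowerSet (HS Y z) := hs_low h.s1

theorem ca {c : Ch P} (hc : c ∈ D) : c ∈ CA X w := (h.cmp.sub hc).1

theorem nt {c : Ch P} (hc : c ∈ D) : c.top ∉ HS Y z := fun k =>
  (h.cmp.sub hc).2 ((mem_cv h.low).2 ⟨k, (h.ca hc).2⟩)

theorem mem {c d : Ch P} (hc : c ∈ D) (h1 : d ∈ CA X w) (h2 : d.top ∉ HS Y z) (k : Cm c d) :
    d ∈ D := h.cmp.clopen hc ⟨h1, fun j => h2 (j.1 _ d.top_mem)⟩ k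

theorem upD : IsUpperSet D := fun _ _ l k => h.mem k (h.sw.ca_up h.up l (h.ca k))
  (fun j => h.nt k (h.low (Ch.top_mono l) j)) (Or.inl l)

theorem bca {e : Ch P} (he : e ∈ Bc (HS Y z) w D) : e ∈ CA X w :=
  let ⟨a, c, b, l⟩ := he; ⟨h.int c b e l a.2, a.2⟩

omit h in
theorem bh {e : Ch P} (he : e ∈ Bc (HS Y z) w D) : e.top ∈ HS Y z := he.1.1 _ e.top_mem

theorem face {q c : Ch P} (hc : c ∈ D) (l : q ≤ c) (k : 0 < w q.bot q.top) (n : q ∉ D) :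
    q ∈ Bc (HS Y z) w D :=
  ⟨(mem_cv h.low).2 ⟨by_contra fun j => n (h.mem hc ⟨h.int c hc q l k, k⟩ j (Or.inr l)), k⟩, c, hc, l⟩

/-- the disc lies on one side -/
theorem side : ∃ j, (j = 0 ∨ j = 1) ∧ ∀ e ∈ Bc (HS Y z) w D, ∀ c ∈ D, e ≤ c → z e.top c.top = j := by
  obtain ⟨c, hc, e, he, l⟩ := h.ne
  have Z := (s1_iff h.up).1 h.sw
  have y : ∀ c ∈ D, c.top ∈ Y := fun c k => h.sub (h.ca k).1
  have qe : ∀ e ∈ Bc (HS Y z) w D, e ∈ Qe X w ∧ e ∉ D := fun e k =>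
    ⟨mx_qe subset_rfl (h.bca k), fun j => h.nt j (bh k)⟩
  refine ⟨_, h.s1.cases (sub_cl (y c hc)) (Ch.top_mono l), fun e' he' c' hc' l' =>
    Z.rim (h.rg.mf.mono h.sub) (fun _ => h.ca) h.upD h.cmp.conn h.eu.ge (fun q c => z q.top c.top)
      (fun q _ _ c k c' j j' => ?_) (fun q a n c k q' _ j j' => ?_) (qe e' he').1 (qe e' he').2 hc'
      l' (qe e ⟨he, c, hc, l⟩).1 (qe e ⟨he, c, hc, l⟩).2 hc l⟩
  · have m := y _ (h.upD j' k)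
    simp only [h.s1.add (sub_cl m) (Ch.top_mono j) (Ch.top_mono j'),
      hs_from h.s1 (h.nt k) m (Ch.top_mono j'), add_zero]
  · simp only [h.s1.add (sub_cl (y c k)) (Ch.top_mono j) (Ch.top_mono j'),
      hs_into h.s1 (bh (h.face k j' a.2 n)) (Ch.top_mono j), zero_add]

variable {j : ℤ} (hj : j = 0 ∨ j = 1)
  (hs : ∀ e ∈ Bc (HS Y z) w D, ∀ c ∈ D, e ≤ c → z e.top c.top = j)
include hj hs

theorem ctr_ov {e : Ch P} (he : e ∈ Bc (HS Y z) w D) :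
    Ctr {c | e ≤ c ∧ c.top ∈ {y | y ∉ HS Y z ∧ z e.top y = j} ∧ True} :=
  Pt30.ctr_over (fun _ => True) trivial (h.l j hj _ ⟨bh he, h.sub (h.bca he).1⟩)

theorem ovr {e c : Ch P} (he : e ∈ Bc (HS Y z) w D) (l : e ≤ c) (h1 : c.top ∉ HS Y z)
    (h2 : z e.top c.top = j) : c ∈ D := by
  obtain ⟨d, hd, l'⟩ := he.2
  exact ((h.ctr_ov hj hs he).conn d ⟨l', ⟨h.nt hd, hs e he d hd l'⟩, trivial⟩ c
    ⟨l, ⟨h1, h2⟩, trivial⟩).ind (p := (· ∈ D)) hd fun a ha b _ k => ⟨h.upD k, fun i =>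
      h.mem i (h.sw.ca_up h.up ha.1 (h.bca he)) ha.2.1.1 (Or.inr k)⟩

theorem bc_up {e c : Ch P} (he : e ∈ Bc (HS Y z) w D) (l : e ≤ c) (h1 : c.top ∈ HS Y z) :
    c ∈ Bc (HS Y z) w D := by
  have m := h.sw.ca_up h.up l (h.bca he)
  obtain ⟨y, ⟨y1, y2⟩, y3⟩ := (h.l j hj _ ⟨h1, h.sub m.1⟩).ne
  refine ⟨(mem_cv h.low).2 ⟨h1, m.2⟩, tp c y y3, h.ovr hj hs he (l.trans (le_tp _ _ _))
    (by rwa [top_tp]) ?_, le_tp _ _ _⟩
  rw [top_tp, h.s1.add (sub_cl (h.rg.up y3 (h.sub m.1))) (Ch.top_mono l) y3,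
    hs_into h.s1 h1 (Ch.top_mono l), zero_add, y2]

/-- from the disc on the level set to the disc on `HS` -/
theorem fin {C : Set (Ch (Ch P))}
    (hC : IsCmp (Mx (Ch.top ⁻¹' Y) (pb Ch.top z) \ Ch.bot ⁻¹' Bc (HS Y z) w D) C)
    (hT : ¬ Tc (Ch.top ⁻¹' Y) (pb Ch.top z) C) (h1 : eu C = 1) : Bds (HS Y z) Y (pc w D) := by
  have H1 := h.toHs.sd
  set W1 : Set (Ch P) := {c | c.top ∈ HS Y z ∩ Y ∧ c ∉ Bc (HS Y z) w D} with hW
  have sT : C ⊆ {K | K ∈ Mx (Ch.top ⁻¹' Y) (pb Ch.top z) ∧ K.bot ∈ W1} := fun K k =>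
    have m := hC.sub k
    ⟨m.1, ⟨⟨_, m.1.1, Ch.top_mono K.bot_le_top, m.1.2⟩,
      H1.inside (fun _ a => h.sub (h.bca a).1) hC hT k⟩, m.2⟩
  have ws := ws_hs (W := W1) H1.s1 H1.rg.up (fun c k => by rw [hs_sd]; exact k.1)
    fun c k => H1.l 1 (Or.inr rfl) c (by rw [hs_sd]; exact k.1)
  obtain ⟨V, v1, v2⟩ := ws.isCmp_ex (isCmp_sub hC sT fun _ k => ⟨k.1, k.2.2⟩)
  have euV : eu V = 1 := by
    rw [← h1, v2]; exact (ws.restr (Kh11.clo_cmp v1)).eu_eq.symm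
  have vl : IsLowerSet V := fun c c' l k => by
    obtain ⟨y, ⟨-, y2⟩, y3⟩ := (h.l 1 (Or.inr rfl) _ (v1.sub k).1).ne
    have yY := h.rg.up y3 (v1.sub k).1.2
    have m : Mt W1 (Ch.pr c _ (le_tp c y y3)) := ⟨c, by simp, v1.sub k⟩
    have a : Ch.pr c _ (le_tp c y y3) ∈ C := by
      rw [v2]
      exact ⟨⟨⟨by simpa using yY, by simp [pb, y2]⟩, by simpa using v1.sub k⟩,
        v1.clopen k (tw_mem m).2 (Ch.cm _ (by simp) (tw_mem m).1)⟩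
    have t : Ch.pr c _ (le_tp c y y3) ≤ Ch.tr c' c _ l (le_tp c y y3) :=
      Ch.pr_le _ (by simp [Ch.mem_tr]) (by simp [Ch.mem_tr])
    have b := (sT (hC.clopen a ⟨mx_upper ((s1_iff H1.rg.up).1 H1.s1) H1.rg.up subset_rfl t
      (hC.sub a).1, fun i => (v1.sub k).2 (h.bc_up hj hs (by rwa [Set.mem_preimage, Ch.bot_tr] at i)
        l (v1.sub k).1.1)⟩ (Or.inl t))).2
    rw [Ch.bot_tr] at b
    exact v1.clopen k b (Or.inr l)
  let W : Set P := {x | Ch.pt x ∈ V}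
  have wo : ∀ x ∈ W, x ∈ HS Y z ∩ Y := fun x a => by simpa using (v1.sub a).1
  have edge : ∀ u v (l : u ≤ v), v ∈ HS Y z → Ch.pr u v l ∉ Bc (HS Y z) w D → (u ∈ W ↔ v ∈ W) :=
    fun u v l a n => by
      have k : v ∈ Y → Ch.pr u v l ∈ W1 := fun b => ⟨by simpa using ⟨a, b⟩, n⟩
      exact ⟨fun c => vl (Ch.pt_le.2 (by simp)) (v1.clopen c (k (h.rg.up l (wo u c).2))
        (Or.inl (Ch.pt_le.2 (by simp)))), fun c => vl (Ch.pt_le.2 (by simp))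
          (v1.clopen c (k (wo v c).2) (Or.inl (Ch.pt_le.2 (by simp))))⟩
  have Z := (s1_iff h.up).1 h.sw
  have cst : ∀ e ∈ Bc (HS Y z) w D, ∀ e' ∈ Bc (HS Y z) w D,
      (e.bot ∈ W ↔ e'.bot ∈ W) ∧ (e.top ∈ W ↔ e'.top ∈ W) := fun e a e' b =>
    (h.fc e a e' b).ind (p := fun t => (e.bot ∈ W ↔ t.bot ∈ W) ∧ (e.top ∈ W ↔ t.top ∈ W))
      ⟨Iff.rfl, Iff.rfl⟩ fun s c t d l => by
        have m := dom_top (h.bca d).1
        rw [edge _ _ (Ch.bot_anti l) (c.1.1 _ s.bot_mem) fun i => by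
            simpa [Z.bot_bot m l c.1.2] using i.1.2,
          edge _ _ (Ch.top_mono l) (bh d) fun i => by simpa [Z.top_top m l c.1.2] using i.1.2]
  obtain ⟨c₀, hc₀⟩ := v1.ne
  have x₀ : c₀.top ∈ W := vl (Ch.pt_le.2 c₀.top_mem) hc₀
  obtain ⟨u, v, l, -, hv, n⟩ : ∃ u v, u ≤ v ∧ u ∈ HS Y z ∧ v ∈ HS Y z ∧ ¬ (u ∈ W ↔ v ∈ W) := by
    by_contra k
    obtain ⟨o, o1, o2⟩ := hs_out h.rg.up h.s1 h.sf (wo _ x₀).1
    exact o1 (wo o (o2.ind (p := (· ∈ W)) x₀ fun a ha b hb l =>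
      by_contra fun i => k ⟨a, b, l, ha, hb, i⟩)).2
  have g : Ch.pr u v l ∈ Bc (HS Y z) w D := by_contra fun i => n (edge u v l hv i)
  have pat : ∀ e ∈ Bc (HS Y z) w D, (e.bot ∈ W ↔ u ∈ W) ∧ (e.top ∈ W ↔ v ∈ W) := fun e a => by
    simpa using cst e a _ g
  have VW : V = Cq W := Set.ext fun c => ⟨fun a x hx => vl (Ch.pt_le.2 hx) a, fun a =>
    v1.clopen (a _ c.top_mem) ⟨wo _ (a _ c.top_mem), fun g => n (iff_of_true
      ((pat c g).1.1 (a _ c.bot_mem)) ((pat c g).2.1 (a _ c.top_mem)))⟩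
      (Or.inl (Ch.pt_le.2 c.top_mem))⟩
  have cW : Conn W := fun x a y b => by
    simpa using (v1.conn _ a _ b).map (F := W) (f := Ch.top) fun c hc d hd l =>
      Rch.of_cm (vl (Ch.pt_le.2 c.top_mem) hc) (vl (Ch.pt_le.2 d.top_mem) hd)
        (Or.inl (Ch.top_mono l))
  have val : WS (Subtype.val ⁻¹' W : Set (HS Y z)) W Subtype.val :=
    WS.of_iso (fun _ k => k) (fun y k => ⟨⟨y, (wo y k).1⟩, k, rfl⟩) fun _ _ _ _ => Iff.rfl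
  have cW' := val.conn_iff.2 cW
  have sW : (Subtype.val ⁻¹' W : Set (HS Y z)) ⊆ Subtype.val ⁻¹' Y := fun x k => (wo _ k).2
  have one : ∀ x ∈ HS Y z, ∀ y ∈ HS Y z, ∀ l : x ≤ y,
      (pc w D x y = 1 ∧ (x ∈ W ↔ u ∈ W) ∧ (y ∈ W ↔ v ∈ W)) ∨ (pc w D x y = 0 ∧ (x ∈ W ↔ y ∈ W)) :=
    fun x a y b l => by
      by_cases k : 0 < w x y ∧ ∃ c ∈ D, x ∈ c.1 ∧ y ∈ c.1
      · obtain ⟨c, c1, c2, c3⟩ := k.2
        exact Or.inl ⟨if_pos k, by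
          simpa using pat (Ch.pr x y l) ⟨⟨by simpa using ⟨a, b⟩, by simpa using k.1⟩, c, c1,
            Ch.pr_le _ c2 c3⟩⟩
      · exact Or.inr ⟨if_neg k, edge x y l b fun ⟨i, c, c1, c2⟩ =>
          k ⟨by simpa using i.2, c, c1, c2 (by simp), c2 (by simp)⟩⟩
  have hu := h.low l hv
  refine ⟨W, fun x a => (wo x a).1, fun x a => (wo x a).2, val.ctr_iff.1
    (Mf.ctr_of_eu h.mf sW cW' ?_ (by rw [val.eu_eq, ← eu_cq, ← VW, euV])), ?_⟩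
  · by_cases k : u ∈ W
    · exact Sf30.esc_of (a := ⟨u, hu⟩) (x := ⟨v, hv⟩) sW cW' k (fun i => n (iff_of_true k i))
        (Or.inl l)
    · exact Sf30.esc_of (a := ⟨v, hv⟩) (x := ⟨u, hu⟩) sW cW'
        (by_contra fun i => n (iff_of_false k i)) k (Or.inr l)
  · by_cases k : u ∈ W
    · have k' : v ∉ W := fun i => n (iff_of_true k i)
      refine Or.inr fun x a y b l => ?_
      rcases one x a y b l with ⟨e, p, q⟩ | ⟨e, p⟩ <;> rw [e, Pi.neg_apply, Pi.neg_apply]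
      · simp [cb, ind_of_mem (p.2 k), ind_of_not fun i => k' (q.1 i)]
      · rw [cb_ind_eq_zero.2 p, neg_zero]
    · have k' : v ∈ W := by_contra fun i => n (iff_of_false k i)
      refine Or.inl fun x a y b l => ?_
      rcases one x a y b l with ⟨e, p, q⟩ | ⟨e, p⟩ <;> rw [e]
      · exact (cb_ind_eq_one.2 ⟨fun i => k (p.1 i), q.2 k'⟩).symm
      · exact (cb_ind_eq_zero.2 p).symm

theorem g_low (p : Ch (Ch P)) (hp : p ∈ Mx (Ch.top ⁻¹' Y) (pb Ch.top z))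
    (k : p ∈ Ch.bot ⁻¹' Bc (HS Y z) w D) (q : Ch (Ch P)) (hq : q ∈ Mx (Ch.top ⁻¹' Y) (pb Ch.top z))
    (l : q ≤ p) : q ∈ Ch.bot ⁻¹' Bc (HS Y z) w D :=
  h.bc_up hj hs k (Ch.bot_anti l) ⟨_, hq.1, Ch.top_mono q.bot_le_top, hq.2⟩

omit hj hs

/-- the disc lies below -/
theorem below (hs : ∀ e ∈ Bc (HS Y z) w D, ∀ c ∈ D, e ≤ c → z e.top c.top = 0) :
    Bds (HS Y z) Y (pc w D) := by
  have hj : (0 : ℤ) = 0 ∨ (0 : ℤ) = 1 := Or.inl rfl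
  have H1 := h.toHs.sd
  have Z := (s1_iff H1.rg.up).1 H1.s1
  have i : IsCoc (Ch.top ⁻¹' Y) (pb Ch.top z) := ⟨Z.coc⟩
  have ca : D ∪ Bc (HS Y z) w D ⊆ CA X w := fun _ k => k.elim h.ca h.bca
  have ws : WS D (D ∪ Bc (HS Y z) w D) id := WS.of_ge (fun _ => Or.inl) (fun _ _ _ _ l => l)
    fun e he => he.elim (fun k => sctr_min ⟨k, le_rfl⟩ fun _ m => m.2) fun k => by
      convert h.ctr_ov hj hs k using 1
      exact Set.ext fun c => ⟨fun a => ⟨a.2, ⟨h.nt a.1, hs e k c a.1 a.2⟩, trivial⟩,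
        fun a => ⟨h.ovr hj hs k a.1 a.2.1.1 a.2.1.2, a.1⟩⟩
  have y : ∀ x ∈ D ∪ Bc (HS Y z) w D, ∀ c, x ≤ c → c.top ∈ Y := fun x k c l =>
    h.rg.up (Ch.top_mono l) (h.sub (ca k).1)
  obtain ⟨z', z1, z2, -, -, z3⟩ := swap_up (Q := mx w) (E := D ∪ Bc (HS Y z) w D) H1.rg.mf H1.bnd
    ⟨Mf.mono (mfIn_ca' h.up (h.rg.mf.mono h.sub) h.sw) fun _ k => ca k, fun x k => y x k x le_rfl,
      fun _ k _ l => (h.sw.ca_up h.up l (ca k)).2,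
      fun c k x a l => k.elim (fun k => (Classical.em _).imp_right (h.face k l a)) fun k =>
        let ⟨_, d, b, m⟩ := k
        Or.inr ⟨(mem_cv h.low).2 ⟨h.low (Ch.top_mono l) (bh k), a⟩, d, b, l.trans m⟩,
      ws.conn_iff.1 h.cmp.conn, by
        obtain ⟨c, hc, e, he, l⟩ := h.ne
        have g : e ∈ Bc (HS Y z) w D := ⟨he, c, hc, l⟩
        obtain ⟨u, ⟨u1, u2⟩, u3⟩ := (h.l 1 (Or.inr rfl) _ ⟨bh g, h.sub (h.bca g).1⟩).ne
        refine ⟨e, Or.inr g, tp e u u3, fun k => k.elim (fun k => ?_) fun k => ?_, le_tp _ _ _⟩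
        · have := hs e g _ k (le_tp _ _ _)
          rw [top_tp] at this; omega
        · exact u1 (by simpa using bh k)⟩
    (ws.eu_eq ▸ h.eu) H1.sf
    (fun x c k a n => by
      have g := a.resolve_left fun j => n (Or.inl (h.upD k.1 j))
      rcases h.s1.cases (sub_cl (y x a c k.1)) (Ch.top_mono k.1) with e | e
      · exact absurd (Or.inl (h.ovr hj hs g k.1 (fun j => n (Or.inr (h.bc_up hj hs g k.1 j))) e)) n
      · exact e.ge)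
    fun x c k a b => a.elim (fun a' => hs_from h.s1 (h.nt a') (y x a c k.1) (Ch.top_mono k.1))
      fun a' => b.elim (fun b => hs x a' c b k.1) fun b => hs_into h.s1 (bh b) (Ch.top_mono k.1)
  obtain ⟨C, c1, c2, c3⟩ := z3.resolve_left (H1.max _ _ Desc.refl z' z1 z2).not_gt i
  have e : LA (Ch.top ⁻¹' Y) (pb Ch.top z) \ CY _ _ (D ∪ Bc (HS Y z) w D) =
      LA _ _ \ Pt30.ch ⁻¹' (Ch.bot ⁻¹' Bc (HS Y z) w D) := Set.ext fun p => and_congr_right fun m =>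
    not_congr ⟨fun k => k.1.resolve_left fun j => (ch_mem p).2.ne' (hs_from h.s1 (h.nt j)
      (Alg36.mt_up H1.rg.up m) (Ch.top_mono p.1.1.bot_le_top)), fun k => ⟨Or.inr k, Z.lv0 p⟩⟩
  obtain ⟨C, d1, d2, d3⟩ := fam_of Z H1.rg.up H1.rg.mf (h.g_low hj hs) (e ▸ c1) c2 c3
  exact h.fin hj hs d1 d2 d3

/-- the disc lies above -/
theorem above (hs : ∀ e ∈ Bc (HS Y z) w D, ∀ c ∈ D, e ≤ c → z e.top c.top = 1) :
    Bds (HS Y z) Y (pc w D) := by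
  have hj : (1 : ℤ) = 0 ∨ (1 : ℤ) = 1 := Or.inr rfl
  have H1 := h.toHs.sd
  have H2 := H1.sd
  have Z1 := (s1_iff H1.rg.up).1 H1.s1
  have Z := (s1_iff H2.rg.up).1 H2.s1
  have i : IsCoc (Ch.top ⁻¹' (Ch.top ⁻¹' Y)) (pb Ch.top (pb Ch.top z)) := ⟨Z.coc⟩
  have sD : D ⊆ mx w := fun _ k => (h.ca k).2
  have tD : ∀ K ∈ Ce (mx w) D, K.top ∈ D := fun K k => Alg36.mt_up h.upD k.2
  obtain ⟨z', z1, z2, -, -, z3⟩ := swap_low H2.rg.mf H2.bnd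
    (low_ce (A := Ch.top ⁻¹' Y) (mfIn_ca' h.up (h.rg.mf.mono h.sub) h.sw) (fun _ k => h.sub k.1) sD
      (fun _ k _ _ l => h.ca (h.upD l k)) h.cmp.conn (by
        obtain ⟨c, hc, e, he, l⟩ := h.ne
        exact ⟨e, he.2, fun k => h.nt k (he.1 _ e.top_mem), c, hc, Or.inl l⟩))
    ((eu_ce sD).trans h.eu) H2.sf
    (fun x c k n a => by
      have q := lower_cq _ k.1 a.1
      exact (hs _ (h.face (tD c a) (Ch.top_mono k.1) (q _ x.top_mem)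
        fun j => n ⟨q, _, x.top_mem, j⟩) _ (tD c a) (Ch.top_mono k.1)).ge)
    fun x c k a b => hs_from h.s1 (h.nt (tD x a)) (h.sub (h.ca (tD c b)).1)
      (Ch.top_mono (Ch.top_mono k.1))
  obtain ⟨C, c1, c2, c3⟩ := z3.resolve_left (H2.max _ _ Desc.refl z' z1 z2).not_gt i
  have e : CW (Ch.top ⁻¹' (Ch.top ⁻¹' Y)) (pb Ch.top (pb Ch.top z)) (Ce (mx w) D) =
      Pt30.ch ⁻¹' (Ch.top ⁻¹' Ce (mx w) D) := Set.ext fun p => ⟨fun k => k.1, fun k => ⟨k, by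
    have := Z.le _ _ p.2.1.bt
    have := p.2.2
    omega⟩⟩
  obtain ⟨C, d1, d2, d3⟩ := fam_of Z H2.rg.up H2.rg.mf (fun p _ k q b l => by
    have t := Ch.top_mono l
    have c := lower_cq _ t k.1
    exact ⟨c, _, q.top.top_mem, by_contra fun n => b.2.ne' (hs_into h.s1 (bh (h.face (tD _ k)
      (Ch.top_mono t) (c _ q.top.top_mem) n)) (Ch.top_mono (Ch.top_mono q.bot_le_top)))⟩)
    (e ▸ c1) c2 c3
  have k : ∀ K ∈ Mx (Ch.top ⁻¹' Y) (pb Ch.top z), K ∈ Ce (mx w) D ↔ K.bot ∈ Bc (HS Y z) w D :=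
    fun K m => ⟨fun a => h.face (tD K a) K.bot_le_top (a.1 _ K.bot_mem) fun j => m.2.ne'
      (hs_from h.s1 (h.nt j) m.1 (Ch.top_mono K.bot_le_top)), fun a =>
      ⟨fun x hx => (h.sw.ca_up h.up (Ch.bot_le hx) (h.bca a)).2, _, K.top_mem,
        h.ovr hj hs a K.bot_le_top (fun j => m.2.ne' (hs_into h.s1 j (Ch.top_mono K.bot_le_top)))
          ((h.s1.cases (sub_cl m.1) (Ch.top_mono K.bot_le_top)).resolve_left m.2.ne')⟩⟩
  have e' : Mx (Ch.top ⁻¹' (Ch.top ⁻¹' Y)) (pb Ch.top (pb Ch.top z)) \ Ch.top ⁻¹' Ce (mx w) D =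
      {C | C.top ∈ Mx (Ch.top ⁻¹' Y) (pb Ch.top z) \ Ch.bot ⁻¹' Bc (HS Y z) w D ∧
        0 < pb Ch.top z C.bot.top C.top.top} := Set.ext fun C =>
    ⟨fun a =>
      have m : C.top ∈ Mx (Ch.top ⁻¹' Y) (pb Ch.top z) := ⟨a.1.1, Z1.pos (dom_top a.1.1)
        (C.bot_le_top C.bot.top_mem) C.top.top_mem (Ch.top_mono C.bot_le_top) a.1.2⟩
      ⟨⟨m, fun j => a.2 ((k _ m).2 j)⟩, a.1.2⟩,
    fun a => ⟨⟨a.1.1.1, a.2⟩, fun j => a.1.2 ((k _ a.1.1).1 j)⟩⟩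
  rw [e'] at d1
  have ws := ws_tops Z1 (B := Mx (Ch.top ⁻¹' Y) (pb Ch.top z) \ Ch.bot ⁻¹' Bc (HS Y z) w D)
    Set.sdiff_subset
  obtain ⟨B, b1, b2⟩ := ws.isCmp_ex d1
  refine h.fin hj hs b1 (fun ⟨K, a, x, x1, y, y1, l, n, m⟩ => d2 ?_)
    (by rw [← d3, b2]; exact (ws.restr (Kh11.clo_cmp b1)).eu_eq.symm)
  have p1 : Ch.pt x ≤ Ch.pr x y l := Ch.pt_le.2 (by simp)
  have p2 : Ch.pr x y l ≤ K := Ch.pr_le _ x1 y1
  refine ⟨Ch.tr _ _ K p1 p2, ?_, Ch.pt x, by simp [Ch.mem_tr], Ch.pr x y l, by simp [Ch.mem_tr], p1,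
    by simpa using n, by simpa [pb] using m⟩
  have := Z1.add (b1.sub a).1.1 l (Ch.le_top y1) le_rfl
  have := Z1.nn (b1.sub a).1.1 (Ch.le_top y1) le_rfl
  rw [b2]
  simp only [Set.mem_ofPred_eq, Ch.top_tr, Ch.bot_tr, Ch.top_pt]
  exact ⟨⟨b1.sub a, by omega⟩, a⟩

theorem bds : Bds (HS Y z) Y (pc w D) := by
  obtain ⟨j, rfl | rfl, k⟩ := h.side
  exacts [h.below k, h.above k]

end Td

theorem Hs.icP (h : Hs Y z) : IcP (HS Y z) Y := fun t f k X w D a b c d => by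
  rw [← hs_pre k] at d ⊢
  exact Td.bds ⟨h.pre k, d, a, b, c⟩

end Crest.Agent.X212.Hp13
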