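import Crest.Agent.X212.Hp13.Rsl2
import Crest.Agent.X212.Alg36.Nm2

/-!
# X212 / Hp13 (helper13): `RslStmt`
-/

set_option autoImplicit false
set_option linter.unusedSectionVars false

open Finset Classical

namespace Crest.Agent.X212.Hp13

open Crest.Agent.X212.Alg36 Cut21
open Pt30 hiding Dsc
open Crest.Agent.X212.Hk
open Kh11 (WS sctr_min)
open Sup43 (inn_up inn_sub)

section
variable {P : Type} [PartialOrder P] [Fintype P] {A : Set P} {z u : P → P → ℤ}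

/-- in the frontier layer every sheet reaches the boundary -/
theorem tb_pp (hz : Coc A z) (hm : Mono A z) (hc : CondP A z)
    (off : ∀ x y, x ≤ y → y ∉ Yo A → u x y = z x y) {a o : P} {k : ℤ} (ha : a ∈ A) (ho : o ∉ A)
    (l : a ≤ o) (h0 : 0 ≤ k) (h1 : k < z a o) : Tb A u a o k := by
  obtain ⟨N, hN⟩ := (Set.finite_range fun p : P × P => z p.1 p.2).bddAbove
  obtain ⟨n, hn⟩ : ∃ n : ℕ, N - k ≤ n := ⟨(N - k).toNat, Int.self_le_toNat _⟩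
  have e : ∀ {x y o : P}, x ≤ y → y ≤ o → o ∉ A → u x y = z x y := fun l l' ho =>
    off _ _ l fun k => ho (inn_up l' k).1
  induction n generalizing a o k with
  | zero => have := hN ⟨(a, o), rfl⟩; simp only at this; omega
  | succ n ih =>
  have pp := hc a ha o ho l
  induction pp with
  | @sut x a o hx j =>
    exact (Tb.L (tri2 ha j l) h0 (by rwa [e l le_rfl ho]) rfl).2 (Tb.base hx ho)
  | @low x a o hx j i =>
    have := (tri2 ha j l).add hz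
    exact (Tb.L (tri2 ha j l) h0 (by rwa [e l le_rfl ho]) (by rw [e j l ho])).2
      (ih hx ho (j.trans l) (k := k + z x a) (by omega) (by omega) (by omega))
  | @up a b o hb j j' i _ r =>
    have := (tri1 ha j j').add hz
    exact (Tb.L (tri1 ha j j') h0 (by rw [e j' le_rfl ho]; omega) (by rw [e j j' ho]; omega)).1
      (r hb ho j' (by omega))
  | @dn a b o hb j i _ r =>
    have := (tri1 hb j l).add hz
    exact (Tb.L (tri1 hb j l) h0 (by rwa [e l le_rfl ho]) (by rw [e j l ho]; omega)).2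
      (r hb ho (j.trans l) (by omega))
  | @mv a o p hp j i _ r =>
    rcases i with i | i
    · have := (tri1 ha l i).add hz
      have := hm _ _ (tri1 ha l i).d23
      exact (Tb.R (tri1 ha l i) h0 (by rwa [e l le_rfl ho])).2 (r ha hp j (by omega))
    have := (tri1 ha j i).add hz
    by_cases c : k < z a p
    · exact (Tb.R (tri1 ha j i) h0 (by rwa [e j le_rfl hp])).1 (r ha hp j c)
    · exact (Tb.L (k := k - z a p) (tri1 ha j i) (by omega) (by rw [e i le_rfl ho]; omega)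
        (by rw [e j le_rfl hp]; omega)).1 (Tb.base hp ho)

/-- a competitor inside is a competitor -/
theorem sf_out' (hz : Coc A z) (hm : Mono A z) (hc : CondP A z) {g : P → ℤ}
    (hg : ∀ x, x ∉ Yo A → g x = 0) (h : Sf (Yo A) (z + cb g)) : Sf A (z + cb g) := by
  have off : ∀ x y, x ≤ y → y ∉ Yo A → (z + cb g) x y = z x y := fun x y l hy => by
    simp [cb, hg y hy, hg x fun k => hy (inn_up l k)]
  have top : ∀ x o k, x ≤ o → o ∉ A → 0 ≤ k → k < z x o → Tb A (z + cb g) x o k :=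
    fun x o k l ho h0 h1 => (Classical.em (x ∈ A)).elim (fun j => tb_pp hz hm hc off j ho l h0 h1)
      fun j => Tb.base j ho
  have base : ∀ x y k, x ≤ y → y ∉ Yo A → 0 ≤ k → k < (z + cb g) x y →
      Tb A (z + cb g) x y k := fun x y k l hy h0 h1 => by
    by_cases j : y ∈ A
    · obtain ⟨-, o, o1, o2⟩ : y ∈ Fr A := by_contra fun i => hy ⟨j, i⟩
      have := (tri2 j l o2).add hz
      have := hm _ _ (tri2 j l o2).d23
      have := off x y l hy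
      exact Tb.dnR (tri2 j l o2) h0 h1 (top x o k (l.trans o2) o1 h0 (by omega))
    · exact top x y k l j h0 (by rwa [off x y l hy] at h1)
  have tr : ∀ {x y w}, Tri (Yo A) x y w → Tri A x y w := fun ⟨h1, h2, a, ha, k⟩ =>
    ⟨h1, h2, a, ha.1, k⟩
  refine sf_iff.2 ⟨fun x y hp => ?_, hz.add (coc_cb g), fun x y k hp h0 h1 => ?_⟩ <;>
    by_cases hy : y ∈ Yo A
  · exact h.mono x y (Dp.of_right hy hp.le)
  · rw [off x y hp.le hy]; exact hm x y hp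
  · exact h.nc.ind h.coc h.mono (G := Tb A (z + cb g)) (fun x y k hp _ hy => base x y k hp.le hy)
      (fun _ _ _ _ t h0 h1 => Tb.R (tr t) h0 h1) (fun _ _ _ _ t h0 h1 => Tb.L (tr t) h0 h1 rfl)
      (Dp.of_right hy hp.le) h0 h1
  · exact base x y k hp.le hy h0 h1

theorem mf_loc {d : ℕ} (h : ∀ a ∈ A, Mf d {a}) : Mf d A :=
  have k : ∀ c : Ch P, Mt A c → ∃ a, Mf d {a} ∧ Mt {a} c := fun _ ⟨a, b, c⟩ => ⟨a, h a c, a, b, rfl⟩
  ⟨fun c m => let ⟨_, a, b⟩ := k c m; a.card_le c b, fun c m => let ⟨_, a, b⟩ := k c m; a.eul c b,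
    fun c m => let ⟨_, a, b⟩ := k c m; a.conn c b, fun c m => let ⟨_, a, b⟩ := k c m; a.pure c b⟩

end

theorem condP_desc {s t : St} {f : t.P → s.P} {z : s.P → s.P → ℤ} (d : Desc s t f)
    (hz : Coc s.A z) (h : CondP s.A z) : CondP t.A (pb f z) := by
  induction d with
  | refl => exact h
  | step d ih => exact condP_iff.2 (Ind26.CondU.sd (d.coc hz) (condP_iff.1 ih))

/-- a conditioned maximal surface is maximal inside -/
theorem max_yo {s : St} {z : s.P → s.P → ℤ} (hM : Mf 3 s.A) (hz : Sf s.A z) (hc : CondP s.A z)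
    (h : Max s z) : Max (s.at (Yo s.A)) z := by
  rintro t f d w hw ⟨g, g1, g2⟩
  have d' : Desc s (t.at (f ⁻¹' s.A)) f := d.at s.A
  have e : t.A = Yo (f ⁻¹' s.A) := d.A_eq.trans (Sup43.inn_desc d').symm
  have M : Mf 3 (f ⁻¹' s.A) := Alg36.Mf.desc hM d'
  have c1 : chi (f ⁻¹' s.A) (pb f z) = chi s.A z := d'.chi _
  have c2 := d.chi z
  rw [e] at hw g1 g2 c2 ⊢
  have k : chi (f ⁻¹' s.A) (pb f z + cb g) ≤ chi s.A z :=
    h (t.at (f ⁻¹' s.A)) f d' _ (sf_out' (d'.coc hz.coc) (d'.mono' hz.mono)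
      (condP_desc (s := s) d' hz.coc hc) g1 (Kh11.sf_congr hw g2.symm))
      (eqv_add_cb fun x hx => g1 x fun j => hx (inn_sub j))
  rw [chi_add, c1, chi_cb_sub (B := Yo (f ⁻¹' s.A)) M inn_sub g1] at k
  rw [chi_congr g2, chi_add, c2]
  omega

section
variable {t s' : St} {z : t.P → t.P → ℤ} {π : s'.P → t.P} (h : CutH t s' z π)
include h

theorem cut_nn {x y a : t.P} (ha : a ∈ t.A) (h1 : x ≤ y) (h2 : y ≤ a) : 0 ≤ z x y :=
  h.sf.mono _ _ (dp_hi ha h1 h2)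

theorem cut_le {x y a : t.P} (ha : a ∈ t.A) (h1 : x ≤ y) (h2 : y ≤ a) : z x y ≤ 1 :=
  h.jk x y ((Classical.em (y ∈ t.A)).imp id fun k => ⟨k, a, ha, h2⟩) h1

theorem cut_s1 : S1 (Yo t.A) z :=
  ⟨(coc_iff inn_up).2 (h.sf.coc.mono inn_sub), fun _ _ ⟨_, a, b⟩ l => cut_nn h a.1 l b,
    fun _ _ ⟨_, a, b⟩ l => cut_le h a.1 l b⟩

theorem cut_up {b : s'.P} (hb : b ∈ s'.A) {x : t.P} (l : π b ≤ x) : ∃ q, b ≤ q ∧ π q = x :=
  let ⟨q, h1, h2⟩ := h.cov.toLift.ex hb (Or.inl l)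
  ⟨q, h.cov.refl b hb b q Cm.rfl h1 (h2 ▸ l), h2⟩

/-- the inner part of the cut -/
theorem cut_inn {b : s'.P} : b ∈ Yo s'.A ↔ b ∈ s'.A ∧ π b ∈ Yo t.A ∧ π b ∉ HS (Yo t.A) z := by
  have mon := h.cov.toLift.mon
  refine ⟨fun k => ⟨k.1, ⟨h.cov.toLift.mem k.1, fun ⟨_, o, h1, h2⟩ => ?_⟩, fun ⟨u, _, h2, h3⟩ => ?_⟩,
    fun ⟨h1, h2, h3⟩ => ⟨h1, fun ⟨_, q, h4, h5⟩ => h4 ((h.cov.up b h1 q h5).2
      ⟨(inn_up (mon h5) h2).1, hs_from (cut_s1 h) h3 (inn_up (mon h5) h2) (mon h5)⟩)⟩⟩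
  · obtain ⟨q, l, rfl⟩ := cut_up h k.1 h2
    exact h1 (h.cov.toLift.mem (inn_up l k).1)
  · obtain ⟨q, l, rfl⟩ := cut_up h k.1 h2
    exact h3.ne' (h.cov.zero k.1 (inn_up l k).1 l)

theorem cut_mf : MfIn (HS (Yo t.A) z) (Yo t.A) := by
  have mon := h.cov.toLift.mon
  have g := Sup43.good_inn h.st'.toGood h.st'.thick
  have m := ((nmStmt s'.P).1 (Yo s'.A) ⟨inn_up, g.mf, g.nice⟩).1
  refine mf_loc fun ⟨x, hx⟩ hy => ?_
  obtain ⟨b, hb, rfl⟩ := h.cov.toLift.exA (inn_sub hy)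
  have ob : b ∈ Om (Yo s'.A) := fr_om h.st'.thick (fr_of hb fun k => ((cut_inn h).1 k).2.2 hx)
  have hs : ∀ q, Cm b q → q ∈ Om (Yo s'.A) → π q ∈ HS (Yo t.A) z := fun q k ⟨n, u, u1, u2⟩ =>
    k.elim (fun l => by_contra fun j => n ((cut_inn h).2
      ⟨h.st'.conv.out hb u1.1 ⟨l, u2⟩, inn_up (mon l) hy, j⟩)) fun l => hs_low (cut_s1 h) (mon l) hx
  refine mf_img (R := {q // Cm b q ∧ q ∈ Om (Yo s'.A)}) (B := {⟨b, Cm.rfl, ob⟩})
    (f := fun q => ⟨π q.1, hs _ q.2.1 q.2.2⟩)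
    (fun p q => ⟨h.cov.refl b hb _ _ p.2.1 q.2.1, fun l => mon l⟩)
    (by rintro _ rfl; exact ⟨_, rfl, rfl⟩) ?_
    (Mf.emb (f := fun q => (⟨q.1, q.2.2⟩ : Om (Yo s'.A))) (fun _ _ => Iff.rfl)
      (fun _ _ => by exact trivial) (by rintro _ rfl x k; exact ⟨⟨x.1, k, x.2⟩, rfl⟩) m)
  rintro _ rfl ⟨y, k⟩ l
  obtain ⟨q, q1, rfl⟩ := h.cov.toLift.ex hb l
  refine ⟨⟨q, q1, q1.elim (fun j => ?_) fun j => om_low inn_up j ob⟩, rfl⟩
  have a := (h.cov.up b hb q j).2 ⟨(inn_up (mon j) hy).1, hs_into (cut_s1 h) k (mon j)⟩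
  exact fr_om h.st'.thick (fr_of a fun i => ((cut_inn h).1 i).2.2 k)

theorem cut_lc {x y : t.P} (hy : y ∈ t.A) (l : x ≤ y) (k : 0 < z x y) :
    Ctr {a | a ∈ t.A ∧ x ≤ a ∧ z x a = 1} :=
  h.lc x 1 (Or.inr one_pos) ⟨y, hy, l, le_antisymm (cut_le h hy l le_rfl) k⟩

theorem cut_pinch {a u : t.P} (ha : a ∈ Fr t.A) (h4 : u ∈ t.A) (h5 : a ≤ u) (h6 : 0 < z a u) :
    ∃ b ∈ Fr t.A, a ≤ b ∧ z a b = 1 := by
  have mon := h.cov.toLift.mon
  obtain ⟨h1, o, h2, h3⟩ := ha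
  obtain ⟨a, hb, rfl⟩ := h.cov.toLift.exA h1
  obtain ⟨o, l, rfl⟩ := cut_up h hb h3
  obtain ⟨u, m, rfl⟩ := cut_up h hb h5
  by_contra k
  have := (h.st'.thick.out a hb u ⟨fun t => h6.ne' (h.cov.zero hb t m), m⟩ o
    ⟨fun t => h2 (h.cov.toLift.mem t), l⟩).ind (p := fun q => π q ∈ t.A) h4 fun x hx y hy r =>
      ⟨fun t => by_contra fun t' => k ⟨π x, ⟨t, π y, t', mon r⟩, mon hx.2, ?_⟩,
        fun t => h.st.conv.out h1 t ⟨mon hx.2, mon r⟩⟩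
  · exact h2 this
  · have := cut_nn h t (mon hx.2) le_rfl
    have := cut_le h t (mon hx.2) le_rfl
    have : z (π a) (π x) ≠ 0 := fun e => hx.1 ((h.cov.up a hb x hx.2).2 ⟨t, e⟩)
    omega

theorem cut_hs (cp : CondP t.A z) (vm : VM t.A z) : Hs (Yo t.A) z := by
  have mon := h.cov.toLift.mon
  have g := Sup43.good_inn h.st.toGood h.st.thick
  have s := cut_s1 h
  refine ⟨⟨inn_up, g.mf, g.nice⟩, g.bnd, s, Sup43.sf_inn h.sf, max_yo h.st.mf h.sf cp h.max,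
    cut_mf h, ?_, fun x hx y hy l k => ?_⟩
  · rintro j (rfl | rfl) x ⟨hx, hy⟩
    · obtain ⟨b, hb, rfl⟩ := h.cov.toLift.exA (inn_sub hy)
      refine (WS.of_iso (f := π) (A := {q | q ∈ s'.A ∧ b ≤ q ∧ q ∉ Fr s'.A})
        (B := {y | (y ∉ HS (Yo t.A) z ∧ z (π b) y = 0) ∧ π b ≤ y}) (fun q k => ⟨⟨((cut_inn h).1 ⟨k.1, k.2.2⟩).2.2,
        h.cov.zero hb k.1 k.2.1⟩, mon k.2.1⟩) (fun y k => ?_) fun p a q c =>
          ⟨fun l => (h.cov.le_iff a.1 c.1).2 ⟨l, hs_from s ((cut_inn h).1 ⟨a.1, a.2.2⟩).2.2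
            ((cut_inn h).1 ⟨c.1, c.2.2⟩).2.1 l⟩, fun l => mon l⟩).ctr_iff.1
        (h.st'.thick.inn b (fr_of hb fun k => ((cut_inn h).1 k).2.2 hx))
      obtain ⟨q, l, rfl⟩ := cut_up h hb k.2
      have a := (h.cov.up b hb q l).2 ⟨(inn_up k.2 hy).1, k.1.2⟩
      exact ⟨q, ⟨a, l, ((cut_inn h).2 ⟨a, inn_up k.2 hy, k.1.1⟩).2⟩, rfl⟩
    · obtain ⟨y, y1, y2, y3⟩ := hx
      convert cut_lc h y1.1 y2 y3 using 1
      exact Set.ext fun a => ⟨fun k => ⟨(inn_up k.2 hy).1, k.2, k.1.2⟩, fun k =>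
        ⟨⟨fun j => by have := hs_into s j k.2.1; have := k.2.2; omega, k.2.2⟩, k.2.1⟩⟩
  by_cases j : x ∈ t.A
  · obtain ⟨b, b1, b2, b3⟩ := cut_pinch h (fr_of j hx) hy.1 l k
    rcases ((cut_lc h hy.1 l k).conn y ⟨hy.1, l, le_antisymm (cut_le h hy.1 l le_rfl) k⟩ b
      ⟨b1.1, b2, b3⟩).exit (X := (Yo t.A)ᶜ) (not_not.2 hy) with ⟨i, -⟩ | ⟨r, r1, r2, v, v1, v2, v3⟩
    · exact absurd b1 (not_not.1 i).2
    · exact ⟨r, v, v2, v1.2.1, v3.resolve_left fun i => v2 (inn_up i (not_not.1 r1.2)),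
        by rw [v1.2.2]; norm_num, r2.mono fun a i => ⟨not_not.1 i.2, i.1.2.1, by
          rw [i.1.2.2]; norm_num⟩⟩
  · obtain ⟨m, m1, m2, m3, m4⟩ := vm y hy.1 x j l
    have := (tri3 hy.1 (m4 x j l) m2).add h.sf.coc
    exact ⟨y, m, fun i => m1 i.1, m4 x j l, m2, by omega, Rch.rfl⟩

/-- **RSL** -/
theorem rsl (cp : CondP t.A z) (vm : VM t.A z) :
    MfIn (HS (Yo t.A) z) (Yo t.A) ∧ IcP (HS (Yo t.A) z) (Yo t.A) ∧
      ∀ x ∈ HS (Yo t.A) z, ∃ o, o ∉ Yo t.A ∧ Rch (HS (Yo t.A) z) x o :=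
  ⟨cut_mf h, (cut_hs h cp vm).icP, fun _ => hs_out inn_up (cut_s1 h) (Sup43.sf_inn h.sf)⟩

end

end Crest.Agent.X212.Hp13
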