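import Crest.Agent.X212.Hp13.Rcj
import Crest.Agent.X212.Abx52.Lv
import Crest.Agent.X212.Nt66.Ln

/-!
# X212 / Hp13 (helper13): the rows of the cuts in a chart (job level)
-/

set_option autoImplicit false
set_option linter.unusedSectionVars false
noncomputable section
open scoped Manifold ContDiff Topology InnerProductSpace Real
open MeasureTheory Set Function Filter

namespace Crest.Agent.X212.Hp13.Rt
open An M Nd18 Mod61 Rf65 Pte3 Hol14 Prm93 Sob92 Nt66 Hp13.Rcj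
open An.Job (Sol SolOn)

theorem top_of {H : Type} [AddCommGroup H] [Module ℝ H] (V : Submodule ℝ H)
    (pr : H →ₗ[ℝ] Fin 2 → ℝ) (h1 : ∀ v, pr v = 0 → v ∈ V)
    (h2 : ∀ χ ≠ 0, ∃ v ∈ V, χ ⬝ᵥ pr v ≠ 0) (v : H) : v ∈ V := by
  have : V.map pr = ⊤ := by
    by_contra k
    obtain ⟨φ, h3, h4⟩ := (V.map pr).exists_le_ker_of_lt_top (lt_top_iff_ne_top.2 k)
    have e : ∀ u, φ u = (fun i => φ (Pi.single i 1)) ⬝ᵥ u := fun u => by
      rw [φ.pi_apply_eq_sum_univ]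
      exact Finset.sum_congr rfl fun i _ => by
        rw [smul_eq_mul, mul_comm]
        congr 2
        funext j
        simp [Pi.single_apply, eq_comm]
    obtain ⟨w, h5, h6⟩ := h2 (fun i => φ (Pi.single i 1)) fun k' =>
      h3 (LinearMap.ext fun u => by rw [e, k']; simp)
    exact h6 ((e _).symm.trans (h4 ⟨w, h5, rfl⟩))
  obtain ⟨w, h3, h4⟩ : pr v ∈ V.map pr := this ▸ trivial
  simpa using add_mem (h1 (v - w) (by rw [map_sub, h4, sub_self])) h3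

theorem dK0 {Y ι : Type} {K : ι → Type} [Fintype ι] [∀ i, NormedAddCommGroup (K i)]
    [∀ i, InnerProductSpace ℝ (K i)] [NormedAddCommGroup Y] [NormedSpace ℝ Y] (a : Y)
    (T : ∀ i, K i →L[ℝ] K i) (ψ η : ∀ i, K i) :
    HasDerivAt (F := Y × (∀ i, K i) × (ι → ℝ)) (fun s : ℝ => (a, fun i => T i ((ψ + s • η) i),
      fun i => ‖(ψ + s • η) i‖ ^ 2 - 1)) (0, fun i => T i (η i), fun i => 2 * ⟪ψ i, η i⟫_ℝ) 0 := by
  have k : ∀ i, HasDerivAt (fun s : ℝ => (ψ + s • η) i) (η i) 0 := fun i => by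
    simpa using ((hasDerivAt_id (0 : ℝ)).smul_const (η i)).const_add (ψ i)
  refine (hasDerivAt_const _ _).prodMk (.prodMk (hasDerivAt_pi.2 fun i => der0 (T i) (k i))
    (hasDerivAt_pi.2 fun i => ?_))
  simpa using (k i).norm_sq.sub_const 1

theorem uq0 {Y : Type} [NormedAddCommGroup Y] [NormedSpace ℝ Y] {f g : ℝ → Y} {a b : Y}
    (hf : HasDerivAt f a 0) (hg : HasDerivAt g b 0) (e : ∀ s, f s = g s) : a = b :=
  hf.unique ((funext e : f = g) ▸ hg)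

theorem in0 {K : Type} [NormedAddCommGroup K] [InnerProductSpace ℝ K] (v : K) (h : ‖v‖ = 1) (t : ℝ) :
    2 * ⟪v, (t / 2) • v⟫_ℝ = t := by
  rw [real_inner_smul_right, real_inner_self_eq_norm_sq, h]
  ring

theorem dA0 {K : Type} [NormedAddCommGroup K] [NormedSpace ℝ K] {f : ℝ → K →L[ℝ] K} {T : K →L[ℝ] K}
    (hf : HasDerivAt f T 0) (h0 : f 0 = 0) (ψ η : K) :
    HasDerivAt (fun s : ℝ => f s (ψ + s • η)) (T ψ) 0 := by
  simpa [h0] using hf.clm_apply (((hasDerivAt_id (0 : ℝ)).smul_const η).const_add ψ)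

variable {Wi : Type} {X : Mf 4} {A κ lam : Type} [Fintype A] [Fintype κ] [Fintype lam]
  [DecidableEq lam] {M : Mark X A κ} {W : World M} {N : ML M lam} {Λ : Lns W N}
  {A' h : Type} [Fintype A'] [DecidableEq A'] [Fintype h] {r n : ℕ}
  {J : Job Wi Λ A' h r n} {c : M.Cl} {σ : Cel A'} {p : Prt A A' h} {U : Type} [Fintype U] {δ : ℝ}
  {b : Bp J c} {E : EC b p U δ} {q q' : Wi →₀ ℝ} {y : J.Obc c} {s : A' → ℝ} {l : h}

theorem pc_eq {x : A} (e : c.1 = {x}) (np : ¬M.pin x) {ρ : Reg A} (hρ : M.sys.Piece c.1 ρ) :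
    W.pc c ρ = W.φ c '' M.sys.U ρ :=
  subset_antisymm (fun _ hz => Wrd81.pc_tgt W.toCaps hρ ⟨W.tgt c ▸ fun _ ha k =>
    (np (mem_singleton_iff.1 (e ▸ ha) ▸ k)).elim, hz⟩) subset_union_left

theorem Cl_smul (k : Cl J s l q') (t : ℝ) : Cl J s l (t • q') := fun w hw =>
  k w (Finsupp.support_smul hw)

theorem σc_smul (t : ℝ) (z : Cfg (W.Z c).M (Option κ) (lam ⊕ lam) r) :
    J.σc c (t • q') s l z = t • J.σc c q' s l z := by
  rw [Job.σc, Job.σc, Finsupp.sum_smul_index' fun _ => by rw [zero_mul, zero_smul], Finsupp.smul_sum]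
  exact Finset.sum_congr rfl fun _ _ => by
    beta_reduce
    rw [smul_eq_mul, mul_assoc, smul_smul]

theorem sop (hP : PJ J c) (h : Sol σ q y) (hp : Cl J y.s l q')
    (h0 : J.σc c q' y.s l y.x (y.ψ l) = 0) : Sol σ (q + q') y := by
  have t : J.τ c (q + q') y.s = J.τ c q y.s := Abx52.τ_add fun w hw => ⟨(hp w hw).1, (hp w hw).2.2⟩
  refine ⟨h.cell, h.inf, t ▸ h.sol, h.sub, fun j hj => ⟨(h.cut j hj).1, (h.cut j hj).2.trans ?_⟩,
    h.drop, h.lim, h.crit, fun a ha => ?_, h.int, h.lev⟩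
  · rw [Abx52.σc_add, add_apply, left_eq_add]
    by_cases e : j = l
    · exact e ▸ h0
    · rw [Abx52.σc_zero fun w hw => (hp w hw).2.1 j e]
      rfl
  · have : ∀ q, (J.xs a).q q = 0 := fun q => by simp [Xs.q, (hP.nil a ha).2]
    rw [this, ← this q]
    exact h.brk a ha

variable (H : CS σ E) (x : Pnt E.o r) (ψ : E.K) {f g : E.C → E.Y}
include H

theorem sg_y (S : SolOn p σ q y) (R : E.RepC y x ψ) (hθ : b.θ p U x.t = y.s) (i : p.H)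
    (h0 : sg y.s i.1 q' x (ψ i) = 0) : J.σc c q' y.s i y.x (y.ψ i) = 0 := by
  obtain ⟨u, ζ, e, f⟩ := R.e
  have k := H.cr S R.s e
  rw [hθ] at k
  have g := H.ok.kt H.mem S.ov H.cl
  have R := Cnt93.rel_refl g.hB (H.cut_sub i)
  obtain ⟨η, f⟩ := (Cnt93.eqv_iff (k.lm g.toKC) R).1 (f i)
  refine Cnt93.inj_Rh (k.lm g.toKC) R η ?_
  rw [map_zero, ← H.ok.σc_nat H.mem S.ov H.cl (Job.unc_of H.pok.pc (H.pok.nb i i.2))
    (H.cut_sub i) q' k η, ← f]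
  exact h0

theorem derK (hf : E.Map q f) (η : E.K) : fderiv ℝ f (x.pt 8, ψ) (0, η) =
    (0, fun i => E.row q x i (η i), fun i => 2 * ⟪ψ i, η i⟫_ℝ) := by
  have k : HasDerivAt (F := E.Y) (fun s : ℝ => ((f (x.pt 8, ψ)).1, fun i => E.row q x i ((ψ + s • η) i),
      fun i => ‖(ψ + s • η) i‖ ^ 2 - 1)) (0, fun i => E.row q x i (η i), fun i => 2 * ⟪ψ i, η i⟫_ℝ) 0 :=
    dK0 (f (x.pt 8, ψ)).1 (E.row q x) ψ η
  refine uq0 (Y := E.Y) (der_K H.F x hf.sm ψ η) k fun s => ?_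
  exact Prod.ext ((hf.e x _).unique H.F (by norm_num) (hf.e x ψ))
    (Prod.ext (funext fun i => hf.row x _ i) (funext fun i => hf.nrm x _ i))

omit H in
variable (E) in
/-- targets in the row of one cut -/
def tg [DecidableEq p.H] (i : p.H) : (J.cut c i).H (J.B c) E.o.m →L[ℝ] E.Y :=
  (0 : _ →L[ℝ] _).prod
    ((ContinuousLinearMap.single ℝ (fun i : p.H => (J.cut c i).H (J.B c) E.o.m) i).prod 0)

omit H in
theorem tg_apply [DecidableEq p.H] (i : p.H) (v) : tg E i v = (0, Pi.single i v, 0) := rfl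

theorem row_mem [DecidableEq p.H] (hf : E.Map q f) (i : p.H) {η} (h0 : ⟪ψ i, η⟫_ℝ = 0) :
    tg E i (E.row q x i η) ∈ range (fderiv ℝ f (x.pt 8, ψ)) :=
  ⟨(0, Pi.single i η), (derK H x ψ hf _).trans (Prod.ext rfl (Prod.ext (funext fun j => by
    by_cases e : j = i
    · subst e; simp [tg_apply]
    · simp [tg_apply, e]) (funext fun j => by
    by_cases e : j = i
    · subst e; simp [tg_apply, h0]
    · simp [tg_apply, e])))⟩

theorem nrm_mem [DecidableEq p.H] (hf : E.Map q f) (i : p.H) (h1 : ‖ψ i‖ = 1)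
    (h0 : E.row q x i (ψ i) = 0) (t : ℝ) :
    ((0, 0, Pi.single i t) : E.Y) ∈ range (fderiv ℝ f (x.pt 8, ψ)) :=
  ⟨(0, Pi.single i ((t / 2) • ψ i)), (derK H x ψ hf _).trans (Prod.ext rfl (Prod.ext (funext fun j => by
    by_cases e : j = i
    · subst e; simp [h0]
    · simp [e]) (funext fun j => by
    by_cases e : j = i
    · subst e
      show 2 * ⟪ψ j, Pi.single (M := fun i : p.H => (J.cut c i).H (J.B c) E.o.m) j _ j⟫_ℝ = _
      rw [Pi.single_eq_same]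
      exact (in0 (ψ j) h1 t).trans (Pi.single_eq_same (M := fun _ => ℝ) j t).symm
    · simp [e])))⟩

theorem sum_mem' [DecidableEq p.H] (L : E.C →L[ℝ] E.Y) {e : E.Y}
    (h1 : (b.F p U δ).F0.val 8 E.o.Pm e.1.1 = 0) (h2 : (b.F p U δ).F0.val 8 E.o.P2 e.1.2.1 = 0)
    (h3 : e.1.2.2 = 0) {Hs : Set h} (k0 : ∀ i : p.H, i.1 ∉ Hs → e.2.1 i = 0 ∧ e.2.2 i = 0)
    (k : ∀ i : p.H, i.1 ∈ Hs → (∀ v, tg E i v ∈ range L) ∧
      ∀ t, ((0, 0, Pi.single i t) : E.Y) ∈ range L) : e ∈ range L := by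
  have e0 : e.1 = 0 := Y_ext H.F (by norm_num) (h1.trans val_zero.symm) (h2.trans val_zero.symm) h3
  have : e = ∑ i, (tg E i (e.2.1 i) + (0, 0, Pi.single i (e.2.2 i))) := by
    refine Prod.ext (e0.trans ?_) (Prod.ext ?_ ?_) <;>
      simp [tg_apply, Prod.fst_sum, Prod.snd_sum, Finset.univ_sum_single]
  rw [this]
  refine sum_mem (S := LinearMap.range (L : E.C →ₗ[ℝ] E.Y)) fun i _ => ?_
  by_cases hi : i.1 ∈ Hs
  · exact add_mem ((k i hi).1 _) ((k i hi).2 _)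
  · rw [(k0 i hi).1, (k0 i hi).2, map_zero, Pi.single_zero, zero_add]
    exact zero_mem _

omit H in
theorem row_add (i : p.H) : E.row (q + q') x i = E.row q x i - sg (b.θ p U x.t) i.1 q' x :=
  (congrArg ((J.cut c i).T (J.B c) (J.G c (b.θ p U x.t)).F E.o.m x.cfg.W - ·)
    (Abx52.σc_add x.cfg)).trans (sub_sub _ _ _).symm

theorem sub_eq [DecidableEq p.H] (hf : E.Map q f) (hg : E.Map (q + q') g) (i : p.H)
    (hp : Cl J (b.θ p U x.t) i.1 q') : g (x.pt 8, ψ) =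
      f (x.pt 8, ψ) - tg E i (sg (b.θ p U x.t) i.1 q' x (ψ i)) := by
  have t : J.τ c (q + q') (b.θ p U x.t) = J.τ c q (b.θ p U x.t) :=
    Abx52.τ_add fun w hw => ⟨(hp w hw).1, (hp w hw).2.2⟩
  obtain ⟨a1, a2, a3, a4⟩ := tot_ev (b := b) (U := U) (δ := δ) (t := x.t) (q := q + q') x.cfg
  obtain ⟨b1, b2, b3, b4⟩ := tot_ev (b := b) (U := U) (δ := δ) (t := x.t) (q := q) x.cfg
  rw [t] at a1 a2 a3
  have k := hg.e x ψ
  rw [tg_apply]
  refine Prod.ext ((RepE.unique H.F (by norm_num) ⟨k.D.trans ?_, k.C.trans ?_, k.S.trans ?_,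
    k.R.trans (a4.trans b4.symm)⟩ (hf.e x ψ)).trans (sub_zero _).symm) (Prod.ext (funext fun j => ?_)
      (funext fun j => ((hg.nrm x ψ j).trans (hf.nrm x ψ j).symm).trans (sub_zero _).symm))
  · exact congrArg _ (funext fun z => (a1 z).trans (b1 z).symm)
  · exact congrArg _ (funext fun z => (a2 z).trans (b2 z).symm)
  · exact funext fun z => (a3 z).trans (b3 z).symm
  · refine (hg.row x ψ j).trans (Eq.trans ?_ (congrArg (· - _) (hf.row x ψ j).symm))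
    rw [row_add]
    refine congrArg (E.row q x j (ψ j) - ·) ?_
    unfold sg
    by_cases e : j = i
    · subst e
      exact (Pi.single_eq_same (M := fun i : p.H => (J.cut c i).H (J.B c) E.o.m) j _).symm
    · rw [Abx52.σc_zero fun w hw => (hp w hw).2.1 j fun k => e (Subtype.ext k)]
      exact (Pi.single_eq_of_ne (M := fun i : p.H => (J.cut c i).H (J.B c) E.o.m) e _).symm

theorem derP [DecidableEq p.H] (hf : E.Map q f) (hg : E.Map (q + q') g) (i : p.H)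
    (hθ : b.θ p U x.t = s) (hp : Cl J s i.1 q') {α} (hα : α ∈ Mod61.Hs (b.F p U δ).F0.toPre E.o.P1)
    (h0 : sg s i.1 q' x = 0) {T} (hT : HasDerivAt (fun t => sg s i.1 q' (ln x hα (zero_mem _) t)) T 0)
    (η : E.K) : fderiv ℝ g (x.pt 8, ψ) ((ofV _ 9 _ α, 0, 0), η) =
      fderiv ℝ f (x.pt 8, ψ) ((ofV _ 9 _ α, 0, 0), η) - tg E i (T (ψ i)) := by
  subst hθ
  have a := der_lnC H.F x hα (zero_mem _) hg.sm ψ η
  have a' := der_lnC H.F x hα (zero_mem _) hf.sm ψ η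
  rw [ofV_zero H.F.sup (by norm_num)] at a a'
  have k := der0 (Y := E.Y) (tg E i) (dA0 hT (by rwa [ln_zero]) (ψ i) (η i))
  exact a.unique ((funext fun t => sub_eq H (ln x hα (zero_mem _) t) (ψ + t • η) hf hg i hp :
    (fun t : ℝ => g ((ln x hα (zero_mem _) t).pt 8, ψ + t • η)) = _) ▸ a'.sub k)

theorem tg_mem [DecidableEq p.H] (hf : E.Map q f) (i : p.H) (hθ : b.θ p U x.t = s) {α}
    (hα : α ∈ Mod61.Hs (b.F p U δ).F0.toPre E.o.P1) (η : E.K)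
    (K : fderiv ℝ f (x.pt 8, ψ) ((ofV _ 9 _ α, 0, 0), η) = 0)
    (St : ∀ q', Cl J s i.1 q' → sg s i.1 q' x = 0 → ∃ g, E.Map (q + q') g ∧
      ∀ v, fderiv ℝ f (x.pt 8, ψ) v = 0 → fderiv ℝ g (x.pt 8, ψ) v ∈ range (fderiv ℝ f (x.pt 8, ψ)))
    (pr : (J.cut c i).H (J.B c) E.o.m →ₗ[ℝ] Fin 2 → ℝ)
    (p1 : ∀ v, pr v = 0 → ∃ η, ⟪ψ i, η⟫_ℝ = 0 ∧ E.row q x i η = v) {ν : E.o.m.A}
    (p2 : ∀ χ ≠ 0, ∃ a b w, χ ⬝ᵥ pr (el E s i.1 a b w ν (ψ i)) ≠ 0)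
    (n3 : ∀ a b w, ∃ q', Cl J s i.1 q' ∧ sg s i.1 q' x = 0 ∧
      HasDerivAt (fun t => sg s i.1 q' (ln x hα (zero_mem _) t)) (el E s i.1 a b w ν) 0) (v) :
    tg E i v ∈ range (fderiv ℝ f (x.pt 8, ψ)) := by
  refine top_of ((LinearMap.range (fderiv ℝ f (x.pt 8, ψ) : E.C →ₗ[ℝ] E.Y)).comap
    (tg E i : _ →ₗ[ℝ] E.Y)) pr (fun v hv => ?_) (fun χ hχ => ?_) v
  · obtain ⟨η, k, rfl⟩ := p1 v hv
    exact row_mem H x ψ hf i k
  · obtain ⟨a, a', w, k⟩ := p2 χ hχ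
    obtain ⟨q', c1, c2, c3⟩ := n3 a a' w
    obtain ⟨g, hg, k'⟩ := St q' c1 c2
    obtain ⟨v, hv⟩ := k' _ K
    have := derP H x ψ hf hg i hθ c1 hα c2 c3 η
    rw [K, zero_sub, ← hv] at this
    exact ⟨_, ⟨-v, (map_neg _ v).trans (neg_eq_iff_eq_neg.2 this)⟩, k⟩

theorem row_zero (hθ : b.θ p U x.t = s) (i : p.H)
    (sx : (J.cut c i).Sol (J.B c) (J.G c s).F (J.σc c q s i) x.cfg (ψ i)) : E.row q x i (ψ i) = 0 := by
  subst hθ
  exact sub_eq_zero.2 sx.2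

variable {ξ : (W.Z c).M → E.o.m.A}

theorem rwj (hR : RowStmt (W.Z c).I (W.Z c).M (Option κ) (lam ⊕ lam)) (hθ : b.θ p U x.t = s)
    (i : p.H) {O : Set (W.Z c).M} (hO : IsClopen O) (A : Qab60.Ab (J.B c) (J.G c s) O x.cfg ξ)
    (hs : (J.cut c i).supp ⊆ O)
    (fl : |flux (W.Z c).I (J.cut c i) (Abel74.fm (J.G c s).F E.o.m x.cfg.W ξ)| = 2 * π)
    (sx : (J.cut c i).Sol (J.B c) (J.G c s).F (J.σc c q s i) x.cfg (ψ i))
    (uq : ∀ a a', (J.cut c i).Sol (J.B c) (J.G c s).F (J.σc c q s i) x.cfg a →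
      (J.cut c i).Sol (J.B c) (J.G c s).F (J.σc c q s i) x.cfg a' →
      ∃ η : Circle, a' = cH E.o.m (J.B c) (J.cut c i) (csE E.o.m.J η) a) :
    ∃ pr : (J.cut c i).H (J.B c) E.o.m →ₗ[ℝ] Fin 2 → ℝ,
      (∀ v, pr v = 0 → ∃ η, ⟪ψ i, η⟫_ℝ = 0 ∧ E.row q x i η = v) ∧
      ∀ χ ≠ 0, ∀ ν ∈ E.o.m.gS (J.cut c i).x0, (∀ u : ℝ, ν ≠ u • ξ (J.cut c i).x0) →
        ∃ a b w, χ ⬝ᵥ pr (el E s i.1 a b w ν (ψ i)) ≠ 0 := by
  subst hθ
  have hJ := H.ok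
  have ov := H.ovx x
  have hG := hJ.G_ok H.mem ov
  have ck := H.cut_ok H.hb x.ht i
  have cm : ∀ {η} (_ : Qab60.Ab (J.B c) (J.G c (b.θ p U x.t)) O x.cfg η),
      Commute (sg (b.θ p U x.t) i.1 q x) (JH E.o.m.J (E.o.m.pp (J.B c) (J.cut c i).x0)) ∧
      Commute (sg (b.θ p U x.t) i.1 q x) (cH E.o.m (J.B c) (J.cut c i)
        (ph (J.B c) (J.cut c i) (J.G c (b.θ p U x.t)).F (η (J.cut c i).x0))) := fun {η} A => by
    have k := fun w (hw : J.cc i w (b.θ p U x.t) ≠ 0) => Cob34.xi _ _ _ _ r _ _ _ _ x.cfg η _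
      ((J.tp c).tc (J.tc i w)) (Λ.B_ok _ _) hG (hJ.tame H.mem ov) hO A ck (hs x0_mem)
      (hJ.tc_in H.mem ov hw).choose_spec
    exact ⟨Abx52.σc_cm fun w z => (k w z).1, Abx52.σc_cm fun w z => (k w z).2⟩
  exact hR _ _ E.o.m x.cfg.W _ ξ (sg (b.θ p U x.t) i.1 q x) (ψ i) (Λ.B_ok _ _) hG E.o.ok
    A.adm.conn ck (A.rd.toRedOn.mono hs) fl (Abx52.σc_cpt x.cfg) (cm A).1 (cm A).2
    (cm (Lns95.ab_neg A)).2 sx.1 sx.2 fun ψ' h1 h2 => uq _ _ sx ⟨h1, h2⟩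

theorem rcj (hF : ForStmt (W.Z c).I (W.Z c).M (Option κ) (lam ⊕ lam)) (hθ : b.θ p U x.t = s)
    {ρ : Reg A} (pc : M.sys.Piece c.1 ρ) (om : W.pc c ρ = W.φ c '' M.sys.U ρ) (hR : J.RichC s ρ l)
    (sup : (J.cut c l).supp ⊆ W.pc c ρ) (A : Qab60.Ab (J.B c) (J.G c s) (W.pc c ρ) x.cfg ξ)
    (ne : ∃ z ∈ W.pc c ρ, E.o.m.Fg (J.G c s).F x.cfg.W z ≠ 0) {α}
    (hα : α ∈ Mod61.Hs (b.F p U δ).F0.toPre E.o.P1) (h0 : ∀ z ∉ W.pc c ρ, α z = 0)
    (ng : NG (J.G c s).F x.cfg (W.pc c ρ) ξ fun z => idx ((b.F p U δ).S x.t z) (.id ℝ _) (α z)) :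
    ∃ ν ∈ E.o.m.gS (J.cut c l).x0, (∀ u : ℝ, ν ≠ u • ξ (J.cut c l).x0) ∧ ∀ a b w, ∃ q',
      Cl J s l q' ∧ sg s l q' x = 0 ∧
      HasDerivAt (fun t => sg s l q' (ln x hα (zero_mem _) t)) (el E s l a b w ν) 0 := by
  subst hθ
  have F := H.F
  obtain ⟨K, w, t, ν, w1, w2, w3, w4, w5⟩ := hF r _ _ (W.pc c ρ) x.cfg ξ _ (J.cut c l).x0 F.B
    (F.G _ x.ht) (F.tameG _ x.ht) (Cyl58.isClopen_pc _ pc) (Cyl58.isConnected_pc _ pc).2 A
    (cb_W F x) (cb_Φ F x) ne (cb_a F x hα) (p1_a F x hα)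
    (fun z hz => (congrArg _ (h0 z hz)).trans (map_zero _)) ng (sup ⟨(0, 0), rfl⟩)
  refine ⟨ν, w4, w5, fun a a' u => ?_⟩
  have iv := (Wrd81.inv_tp (J := J) (Wrd81.br_of H.ok H.mem (H.ovx x)) (Wrd81.U_src W.toCaps pc)).1
  rw [om] at w1
  choose v v1 v2 v3 v4 v5 using fun j => hR ⟨a, a', u, .aw ((Wrd81.tq c J).aw (w j))⟩ (iv.toIn.aw (w1 j))
  have e : ∀ x' : Pnt E.o r, sg (b.θ p U x.t) l
      (∑ j, Finsupp.single (v j) (t j / J.cc l (v j) (b.θ p U x.t))) x' =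
      ∑ j, t j • x'.cfg.tc (J.B c) (J.G c (b.θ p U x.t)).F (J.cut c l) ⟨a, a', u, .aw (w j)⟩ :=
    fun x' => by
    refine (σc_sum _ _ _ _ _).trans (Finset.sum_congr rfl fun j _ => ?_)
    simp only [div_mul_cancel₀ _ (v2 j), v1, Tp.tc, Tp.xi, iv.aw' (w1 j)]
  refine ⟨_, fun w hw => ?_, (e x).trans ((tc_sum _ _ _ _ _ _ _).trans
    ((congrArg _ w2).trans (map_zero _))), ?_⟩
  · obtain ⟨j, -, k⟩ := Finsupp.mem_support_finsetSum _ hw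
    obtain rfl := Finset.mem_singleton.1 (Finsupp.support_single_subset k)
    exact ⟨v3 j, v4 j, v5 j⟩
  · have k1 := Rcj.der_ln (α := α) (ν := ν) (w := w) (t := t) x (J.B c) (J.G c (b.θ p U x.t)).F
      (J.cut c l) a a' u (ln x hα (zero_mem _)) (fun _ => rfl)
      (fun s => (congrArg (x.φ + ·) (smul_zero s)).trans (add_zero _)) (fun _ => rfl) (fun _ => rfl) w3
      fun s => e _
    exact k1

end Crest.Agent.X212.Hp13.Rt
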