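import Crest.Agent.X212.Hp13.Rt
import Crest.Agent.X212.Cqn41.Nr0

/-!
# X212 / Hp13 (helper13): NTR-RT, the terms of the cuts inside
-/

set_option autoImplicit false
set_option linter.unusedSectionVars false
noncomputable section
open scoped Manifold ContDiff Topology InnerProductSpace Real
open MeasureTheory Set Function Filter

namespace Crest.Agent.X212.Hp13.Rt
open An M Nd18 Mod61 Rf65 Pte3 Hol14 Prm93 Sob92 Nt66 Nr41 Qab60
open An.Job (Sol SolOn)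
open G75 Ins26 Jb7

variable {κ lam : Type} [Fintype κ] [Fintype lam] [DecidableEq lam] {Lm : LM κ lam}
  {S : Scene Lm} {D : S.Dat} {i : S.L} {Wi : Type} {r n : ℕ}
  {J : Job Wi (D.Λ i) (S.A ⊕ Unit) S.ls r n} {c : S.M.Cl} {δ : ℝ} {σ : Cel (S.A ⊕ Unit)} {R : S.A}
  {b : Bp J c} {E : ER σ R b δ} {q : Wi →₀ ℝ} {y : J.Obc c} {x : Pnt E.o r} {ψ : E.K}
  {ξ : (D.W.Z c).M → E.o.m.A} (C : Cr q y x ψ ξ)
include C

theorem solOn : SolOn (pW J c (shX S {R}) σ R) σ q y :=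
  have h := C.sol
  ⟨h.cell, h.inf, h.sol.toAdm, fun _ hz => (hz ((Abx52.un_two C.one).ge trivial)).elim,
    fun z _ => h.sol.D z, fun z _ => h.sol.C z, h.sol.S,
    fun i _ => h.cut i (((h.H_eq C.ti.1).trans C.unc).ge trivial),
    fun a b ha _ => h.lim a b ha, fun a ha b _ => h.crit a ha b, h.int.integrableOn⟩

theorem pc (d : Bool) : S.M.sys.Piece c.1 (hp R d) := C.one ▸ Mp86.St.piece_hp d

theorem sol_x (l : (pW J c (shX S {R}) σ R).H) :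
    (J.cut c l).Sol (J.B c) (J.G c y.s).F (J.σc c q y.s l) x.cfg (ψ l) := by
  obtain ⟨u, ζ, e, f⟩ := C.ch.rep.e
  have := C.cs.cut_sol (solOn C) C.ch.rep.s e (f l)
  rwa [C.θ] at this

theorem richC {l : S.ls} (hl : Qab60.Inn J R l) : J.RichC y.s (hp R false) l := by
  obtain ⟨_, _, _, _, _, _, g⟩ := C.jr
  exact ((g.gx.rich σ C.cs.mem _ C.sol.cell c C.sol.inf (by simp)).2 _ (pc C false)).2 l
    (g.gx.nb ▸ hl)

theorem cut_in {l : S.ls} (hl : Qab60.Inn J R l) : (J.cut c l).supp ⊆ oI D.W c R :=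
  (C.cs.ok.cut_sub (P := {hp R false}) (by rwa [biUnion_singleton])).trans (An.un_one _ c _).le

theorem ha {α} (h : α ∈ HA C) : α ∈ Mod61.Hs (FW σ R b δ).F0.toPre E.o.P1 ∧
    ∀ z ∉ oI D.W c R, α z = 0 := by
  have k : ∀ z ∉ oI D.W c R, ∀ v, (rf E x.t {hp R false} ∅ ∅).P1 z v = 0 := fun z hz v => by
    have e : (rf E x.t {hp R false} ∅ ∅).Pg z = 0 :=
      indicator_of_notMem (fun k => hz ((An.un_one D.W.toCaps c _).le k)) _
    rw [Ref.P1, e]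
    ext a : 1
    simp
  refine ⟨hs_ex C.cs.F.sup (fun z v hv => ?_) h, fun z hz => (Hs_proj C.cs.F.sup h z).symm.trans (k z hz _)⟩
  by_cases hz : z ∈ oI D.W c R
  · refine Eq.trans (congrArg (· v) (congrArg (idx _) ?_)) hv
    exact (indicator_of_mem ((Abx52.un_two C.one).ge trivial) _).trans
      (indicator_of_mem ((An.un_one D.W.toCaps c _).ge hz) _).symm
  · rw [← hv, k z hz, map_zero]

theorem kp {l : (pW J c (shX S {R}) σ R).H} {q' : Wi →₀ ℝ} (h1 : Cl J y.s l.1 q')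
    (h0 : sg y.s l.1 q' x = 0) : q' ∈ Kp σ y := fun _ k t =>
  sop C.an.pj k (Cl_smul h1 t) (by
    rw [σc_smul, smul_apply,
      sg_y C.cs x ψ (solOn C) C.ch.rep C.θ l (by rw [h0]; rfl), smul_zero])

theorem rw_at (hR : RowStmt (D.W.Z c).I (D.W.Z c).M (Option κ) (lam ⊕ lam))
    (l : (pW J c (shX S {R}) σ R).H) (hl : Qab60.Inn J R l.1) :
    ∃ pr : (J.cut c l).H (J.B c) E.o.m →ₗ[ℝ] Fin 2 → ℝ,
      (∀ v, pr v = 0 → ∃ η, ⟪ψ l, η⟫_ℝ = 0 ∧ E.row q x l η = v) ∧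
      ∀ χ ≠ 0, ∀ ν ∈ E.o.m.gS (J.cut c l).x0, (∀ u : ℝ, ν ≠ u • ξ (J.cut c l).x0) →
        ∃ a b w, χ ⬝ᵥ pr (el E y.s l.1 a b w ν (ψ l)) ≠ 0 :=
  rwj C.cs x ψ hR C.θ l (Cyl58.isClopen_pc _ (pc C false)) C.ins.ab
    (cut_in C hl) (C.ins.cut l hl).1 (sol_x C l) (C.ins.cut l hl).2

theorem rc_at (hF : ForStmt (D.W.Z c).I (D.W.Z c).M (Option κ) (lam ⊕ lam)) {l : S.ls}
    (hl : Qab60.Inn J R l) {α} (h : α ∈ HA C)
    (ng : NG (J.G c y.s).F x.cfg (oI D.W c R) ξ (fa E x.t α)) :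
    ∃ ν ∈ E.o.m.gS (J.cut c l).x0, (∀ u : ℝ, ν ≠ u • ξ (J.cut c l).x0) ∧ ∀ a b w, ∃ q',
      Cl J y.s l q' ∧ sg y.s l q' x = 0 ∧
      HasDerivAt (fun t => sg y.s l q' (ln x (ha C h).1 (zero_mem _) t)) (el E y.s l a b w ν) 0 :=
  rcj C.cs x hF C.θ (pc C false) (pc_eq C.one C.np (pc C false))
    (richC C hl) (cut_in C hl) C.ins.ab C.ins.ne (ha C h).1 (ha C h).2 ng

theorem cut_at (hF : ForStmt (D.W.Z c).I (D.W.Z c).M (Option κ) (lam ⊕ lam))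
    (hR : RowStmt (D.W.Z c).I (D.W.Z c).M (Option κ) (lam ⊕ lam)) {f : E.C → E.Y}
    (hf : E.Map q f) (St : Stk σ q y x ψ f) {α η} (K : Kn C f α η)
    [DecidableEq (pW J c (shX S {R}) σ R).H] (l : (pW J c (shX S {R}) σ R).H)
    (hl : Qab60.Inn J R l.1) (v) : tg E l v ∈ range (Ld f x ψ) :=
  (rw_at C hR l hl).elim fun pr p => (rc_at C hF hl K.mem K.ng).elim fun ν n =>
    tg_mem C.cs x ψ hf l C.θ (ha C K.mem).1 η K.eq (fun q' c1 c2 => St.st q' (kp C c1 c2)) pr p.1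
      (fun χ hχ => p.2 χ hχ ν n.1 n.2.1) n.2.2 v

theorem rchT_at (hF : ForStmt (D.W.Z c).I (D.W.Z c).M (Option κ) (lam ⊕ lam))
    (hR : RowStmt (D.W.Z c).I (D.W.Z c).M (Option κ) (lam ⊕ lam)) {f : E.C → E.Y}
    (hf : E.Map q f) : RchT C f := by
  intro St α η K e T
  classical
  exact sum_mem' C.cs (Ld f x ψ) (funext fun z => T.D z id) (funext fun z => T.C z id) T.S T.T
    fun l hl => ⟨cut_at C hF hR hf St K l hl,
      nrm_mem C.cs x ψ hf l (sol_x C l).1 (row_zero C.cs x ψ C.θ l (sol_x C l))⟩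

omit C

/-- **LEAF RT** -/
theorem rchT (hF : ∀ Z : Mf 4, ForStmt Z.I Z.M (Option κ) (lam ⊕ lam))
    (hR : ∀ Z : Mf 4, RowStmt Z.I Z.M (Option κ) (lam ⊕ lam)) : All Lm RchT :=
  fun _ _ _ _ _ _ _ _ _ _ => ⟨1, one_pos, fun _ _ _ _ _ _ _ _ _ _ _ C _ hf => rchT_at C (hF _) (hR _) hf⟩

end Crest.Agent.X212.Hp13.Rt
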