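import Crest.Agent.X212.Hp13.Sd
import Crest.Agent.X212.Alg36.Hp1

/-!
# X212 / Hp13 (helper13): a connected piece of a hypersurface has at most two sides
-/

set_option autoImplicit false
set_option linter.unusedSectionVars false

open Finset Classical

noncomputable section

namespace Crest.Agent.X212.Hp13

section sub

variable {P : Type} [PartialOrder P] {Q : Set P}

theorem val_mono (Q : Set P) : Monotone (Subtype.val : Q → P) := fun _ _ h => h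

/-- a chain of the subposet `Q` as a chain of `P` -/
def Ch.up (c : Ch Q) : Ch P := Ch.img Subtype.val (val_mono Q) c

theorem Ch.mem_up {c : Ch Q} {x : P} : x ∈ c.up.1 ↔ ∃ h : x ∈ Q, (⟨x, h⟩ : Q) ∈ c.1 :=
  Ch.mem_img.trans ⟨fun ⟨a, ha, e⟩ => e ▸ ⟨a.2, ha⟩, fun ⟨h, k⟩ => ⟨⟨x, h⟩, k, rfl⟩⟩

theorem Ch.val_mem_up {c : Ch Q} {x : Q} : x.1 ∈ c.up.1 ↔ x ∈ c.1 :=
  Ch.mem_up.trans ⟨fun ⟨_, h⟩ => h, fun h => ⟨x.2, h⟩⟩

theorem Ch.up_sub (c : Ch Q) : ∀ x ∈ c.up.1, x ∈ Q := fun _ hx => (Ch.mem_up.1 hx).1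

theorem Ch.up_le {c d : Ch Q} : c.up ≤ d.up ↔ c ≤ d :=
  ⟨fun h _ hx => Ch.val_mem_up.1 (h (Ch.val_mem_up.2 hx)), fun h => Ch.img_mono _ h⟩

theorem Ch.up_inj {c d : Ch Q} (h : c.up = d.up) : c = d :=
  le_antisymm (Ch.up_le.1 h.le) (Ch.up_le.1 h.ge)

theorem Ch.up_lt {c d : Ch Q} : c.up < d.up ↔ c < d := by
  simp only [lt_iff_le_not_ge, Ch.up_le]

theorem Ch.card_up (c : Ch Q) : c.up.1.card = c.1.card :=
  card_image_of_injective _ Subtype.val_injective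

theorem Ch.sg_up (c : Ch Q) : c.up.sg = c.sg := by rw [Ch.sg, Ch.sg, Ch.card_up]
theorem Ch.top_up (c : Ch Q) : c.up.top = c.top.1 := Ch.top_img _ c
theorem Ch.bot_up (c : Ch Q) : c.up.bot = c.bot.1 := Ch.bot_img _ c
theorem mt_up {A : Set P} {c : Ch Q} : Mt A c.up ↔ Mt (Subtype.val ⁻¹' A) c := mt_img _

theorem Ch.exists_up {c : Ch P} (h : ∀ x ∈ c.1, x ∈ Q) : ∃ d : Ch Q, d.up = c := by
  obtain ⟨x, hx⟩ := c.2.1
  refine ⟨Ch.mk' (c.1.subtype (· ∈ Q)) ⟨⟨x, h x hx⟩, mem_subtype.2 hx⟩ fun a ha b hb =>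
    c.cm (mem_subtype.1 ha) (mem_subtype.1 hb), Ch.ext (Finset.ext fun y => Ch.mem_up.trans ?_)⟩
  exact ⟨fun ⟨_, k⟩ => mem_subtype.1 k, fun k => ⟨h y k, mem_subtype.2 k⟩⟩

theorem Ch.eq_of_card {c d : Ch P} (h : c ≤ d) (hc : d.1.card ≤ c.1.card) : c = d :=
  Ch.ext (eq_of_subset_of_card_le h hc)

theorem Ch.card_le {c d : Ch P} (h : c ≤ d) : c.1.card ≤ d.1.card := card_le_card h

end sub

variable {P : Type} [PartialOrder P] [Fintype P] {A Q E : Set P} {d : ℕ}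

/-- local form of `Alg36.Mf.star` -/
theorem Mf.star' (h : Mf d A) (Z : Ch P → Prop) {c₀ : Ch P} (hc₀ : Mt A c₀)
    (hZ : ∀ e : Ch P, c₀ ≤ e → e.1.card = d → ∀ a b, e < a → e < b → Z a → Z b)
    {a b : Ch P} (ha : c₀ ≤ a) (hb : c₀ ≤ b) (ha' : a.1.card = d + 1)
    (hb' : b.1.card = d + 1) (hz : Z a) : Z b := by
  suffices H : ∀ n, ∀ c a b : Ch P, d + 1 - c.1.card = n → c₀ ≤ c → c ≤ a → c ≤ b →
      a.1.card = d + 1 → b.1.card = d + 1 → Z a → Z b from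
    H _ c₀ a b rfl le_rfl ha hb ha' hb' hz
  intro n
  induction n using Nat.strong_induction_on with
  | _ n ih =>
  intro c a b hn h0 ha hb ha' hb' hz
  have hc := hc₀.mono h0
  have hle := h.card_le c hc
  by_cases h1 : c.1.card = d + 1
  · exact Ch.eq_of_card hb (by omega) ▸ Ch.eq_of_card ha (by omega) ▸ hz
  have la : c < a := lt_of_le_of_ne ha fun e => h1 (e ▸ ha')
  have lb : c < b := lt_of_le_of_ne hb fun e => h1 (e ▸ hb')
  by_cases h2 : c.1.card = d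
  · exact hZ c h0 h2 a b la lb hz
  refine (h.conn c hc (by omega) a la b lb).ind
    (p := fun t => ∀ s, t ≤ s → s.1.card = d + 1 → Z s) ?_ ?_ b le_rfl hb'
  · exact fun s hs hs' => Ch.eq_of_card hs (by omega) ▸ hz
  · intro t ht t' _ htt
    refine ⟨fun H s hs hs' => H s (htt.trans hs) hs', fun H s hs hs' => ?_⟩
    have hm : Mt A t := hc.mono (le_of_lt ht)
    obtain ⟨r, hr, hr'⟩ := h.pure t' (hm.mono htt)
    have hlt := Ch.card_lt ht
    have := h.card_le t hm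
    exact ih _ (by omega) t r s rfl (h0.trans (le_of_lt ht)) (htt.trans hr) hs hr' hs' (H r hr hr')

theorem card_between {f a : Ch P} (h : f ≤ a) (hc : a.1.card = f.1.card + 2) :
    (univ.filter fun g : Ch P => f < g ∧ g < a).card = 2 := by
  have : (a.1 \ f.1).card = 2 := by rw [card_sdiff_of_subset h]; omega
  rw [← this]
  symm
  refine card_bij (fun x hx => f.ins x fun y hy => a.cm (mem_sdiff.1 hx).1 (h hy)) ?_ ?_ ?_
  · intro x hx
    obtain ⟨h1, h2⟩ := mem_sdiff.1 hx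
    refine mem_filter.2 ⟨mem_univ _, lt_of_le_of_ne (f.le_ins _ _) fun e => h2 ?_,
      lt_of_le_of_ne (insert_subset h1 h) fun e => ?_⟩
    · rw [e]; exact mem_insert_self _ _
    · have := congrArg (fun c : Ch P => c.1.card) e
      simp only [Ch.ins_val, card_insert_of_notMem h2] at this
      omega
  · intro x hx y hy e
    have : x ∈ insert y f.1 := by
      have e' : insert x f.1 = insert y f.1 := congrArg Subtype.val e
      exact e' ▸ mem_insert_self _ _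
    exact (mem_insert.1 this).resolve_right (mem_sdiff.1 hx).2
  · intro g hg
    obtain ⟨h1, h2⟩ := (mem_filter.1 hg).2
    have c1 := Ch.card_lt h1
    have c2 := Ch.card_lt h2
    obtain ⟨x, hx, hx'⟩ := exists_mem_notMem_of_card_lt_card c1
    refine ⟨x, mem_sdiff.2 ⟨h2.le hx, hx'⟩, Ch.eq_of_card (insert_subset hx h1.le) ?_⟩
    simp only [Ch.ins_val, card_insert_of_notMem hx']
    omega

/-- the punctured neighbourhood of `E` off `Q` -/
def Nb (Q E : Set P) : Set (Ch P) := {c | Mt E c ∧ ∃ t ∈ c.1, t ∉ Q}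

theorem Nb.mono {c c' : Ch P} (h : c ∈ Nb Q E) (hc : c ≤ c') : c' ∈ Nb Q E :=
  let ⟨h1, t, ht, h2⟩ := h; ⟨h1.mono hc, t, hc ht, h2⟩

theorem Mt.sub {c : Ch P} (h : Mt E c) (hE : E ⊆ A) : Mt A c :=
  let ⟨a, ha, h⟩ := h; ⟨a, ha, hE h⟩

section side

variable (h : Mf (d + 1) A) (hQ : Mf d (Subtype.val ⁻¹' E : Set Q)) (hE : E ⊆ A)
include h hQ hE

/-- a chain meeting `E` with `d + 2` points leaves `Q` -/
theorem top_mem_nb {a : Ch P} (ha : Mt E a) (hc : a.1.card = d + 2) : a ∈ Nb Q E := by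
  refine ⟨ha, ?_⟩
  by_contra k
  push Not at k
  obtain ⟨b, rfl⟩ := Ch.exists_up k
  have := hQ.card_le b (mt_up.1 ha)
  rw [Ch.card_up] at hc
  omega

theorem side_step {W : Set (Ch P)} (hW : ∀ x ∈ W, ∀ y ∈ Nb Q E, Cm x y → y ∈ W)
    {f e e' : Ch Q} (hf : Mt (Subtype.val ⁻¹' E) f) (hc : f.1.card = d) (he : f < e) (he' : f < e')
    (hz : ∃ t ∈ W, e.up < t) : ∃ t ∈ W, e'.up < t := by
  by_contra hn
  push Not at hn
  obtain ⟨t, htW, ht⟩ := hz
  have hfE : Mt E f.up := mt_up.2 hf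
  have hfA := hfE.sub hE
  have cf : f.up.1.card = d := by rw [Ch.card_up, hc]
  have cardQ : ∀ g : Ch Q, f < g → g.up.1.card = d + 1 := fun g hg => by
    have := hQ.card_le g (hf.mono hg.le)
    have := Ch.card_lt hg
    rw [Ch.card_up]; omega
  have top : ∀ g a : Ch P, f.up ≤ g → g.1.card = d + 1 → g < a → a.1.card = d + 1 + 1 :=
    fun g a h1 h2 h3 => by
      have := h.card_le a (hfA.mono (h1.trans h3.le))
      have := Ch.card_lt h3
      omega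
  have hne : e ≠ e' := fun k => hn t htW (k ▸ ht)
  -- facets through `f`
  have fac : ∀ g : Ch P, f.up ≤ g → g.1.card = d + 1 → g ∈ Nb Q E ∨ g = e.up ∨ g = e'.up := by
    intro g h1 h2
    by_cases k : ∃ t ∈ g.1, t ∉ Q
    · exact Or.inl ⟨hfE.mono h1, k⟩
    push Not at k
    obtain ⟨b, rfl⟩ := Ch.exists_up k
    have hb : f < b := Ch.up_lt.1 (lt_of_le_of_ne h1 fun k => by rw [← k] at h2; omega)
    rcases Alg36.Mf.two hQ hf hc hb he he' with k | k | k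
    exacts [Or.inr (Or.inl (k ▸ rfl)), Or.inr (Or.inr (k ▸ rfl)), absurd k hne]
  -- parity
  have both : ∀ b, e.up < b → b ∈ W := by
    set Ed := univ.filter fun a : Ch P => f.up ≤ a ∧ a.1.card = d + 2 ∧ a ∈ W with hEd
    set Ve := univ.filter fun g : Ch P => f.up ≤ g ∧ g.1.card = d + 1 with hVe
    have dc := sum_card_bipartiteAbove_eq_sum_card_bipartiteBelow (s := Ve) (t := Ed) (· < ·)
    have r : ∀ a ∈ Ed, (bipartiteBelow (· < ·) Ve a).card = 2 := fun a ha => by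
      obtain ⟨h1, h2, -⟩ := (mem_filter.1 ha).2
      rw [← card_between h1 (by omega)]
      congr 1
      ext g
      simp only [mem_bipartiteBelow, hVe, mem_filter, mem_univ, true_and]
      refine ⟨fun k => ⟨lt_of_le_of_ne k.1.1 fun k' => ?_, k.2⟩, fun k => ⟨⟨k.1.le, ?_⟩, k.2⟩⟩
      · have := k.1.2; rw [← k'] at this; omega
      · have := Ch.card_lt k.1; have := Ch.card_lt k.2; omega
    have l : ∀ g ∈ Ve, bipartiteAbove (· < ·) Ed g = univ.filter fun a => g < a ∧ a ∈ W :=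
      fun g hg => by
        obtain ⟨h1, h2⟩ := (mem_filter.1 hg).2
        ext a
        simp only [mem_bipartiteAbove, hEd, mem_filter, mem_univ, true_and]
        exact ⟨fun k => ⟨k.2, k.1.2.2⟩, fun k => ⟨⟨h1.trans k.1.le, top g a h1 h2 k.1, k.2⟩, k.1⟩⟩
    have heV : e.up ∈ Ve := mem_filter.2 ⟨mem_univ _, Ch.up_le.2 he.le, cardQ e he⟩
    rw [sum_congr rfl r, ← add_sum_erase _ _ heV, l _ heV] at dc
    have ev : Even (∑ g ∈ Ve.erase e.up, (bipartiteAbove (· < ·) Ed g).card) := by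
      refine even_sum _ fun g hg => ?_
      obtain ⟨g1, hg⟩ := mem_erase.1 hg
      obtain ⟨h1, h2⟩ := (mem_filter.1 hg).2
      rw [l g hg]
      by_cases k : ∃ a ∈ W, g < a
      · obtain ⟨a, a1, a2⟩ := k
        rcases fac g h1 h2 with k | k | k
        · have gW := hW a a1 g k (Or.inr a2.le)
          rw [filter_congr (q := fun a => g < a) fun a _ =>
            ⟨fun k => k.1, fun k' => ⟨k', hW g gW a (Nb.mono k k'.le) (Or.inl k'.le)⟩⟩,
            Alg36.Mf.card_two h (hfA.mono h1) h2]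
          exact even_two
        · exact absurd k g1
        · exact absurd (k ▸ a2) (hn a a1)
      · rw [filter_false_of_mem fun a _ k' => k ⟨a, k'.2, k'.1⟩]
        simp
    have c2 := Alg36.Mf.card_two h (hfA.mono (Ch.up_le.2 he.le)) (cardQ e he)
    have sub : (univ.filter fun a => e.up < a ∧ a ∈ W) ⊆ univ.filter (e.up < ·) :=
      fun a ha => mem_filter.2 ⟨mem_univ _, (mem_filter.1 ha).2.1⟩
    have pos : 0 < (univ.filter fun a => e.up < a ∧ a ∈ W).card :=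
      card_pos.2 ⟨t, mem_filter.2 ⟨mem_univ _, ht, htW⟩⟩
    have le := card_le_card sub
    obtain ⟨m, hm⟩ := ev
    simp only [sum_const, smul_eq_mul] at dc
    have := eq_of_subset_of_card_le sub (by omega)
    intro b hb
    have hb' : b ∈ univ.filter (e.up < ·) := mem_filter.2 ⟨mem_univ _, hb⟩
    rw [← this] at hb'
    exact (mem_filter.1 hb').2.2
  have l1 : f.up ≤ e.up := Ch.up_le.2 he.le
  have l2 : f.up ≤ e'.up := Ch.up_le.2 he'.le
  obtain ⟨b, hb, hb'⟩ := h.pure e'.up (hfA.mono l2)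
  have hb2 : e'.up < b := lt_of_le_of_ne hb fun k => by have := cardQ e' he'; rw [k] at this; omega
  refine hn b (h.star' (· ∈ W) hfA (fun g h1 h2 a b ha hb hz => ?_) (l1.trans ht.le) (l2.trans hb)
    (top _ _ l1 (cardQ e he) ht) hb' htW) hb2
  rcases fac g h1 h2 with k | k | k
  · exact hW g (hW a hz g k (Or.inr ha.le)) b (Nb.mono k hb.le) (Or.inl hb.le)
  · exact both b (k ▸ hb)
  · exact absurd (k ▸ ha) (hn a hz)

theorem side_start (hEQ : E ⊆ Q) {W : Set (Ch P)} (hW : ∀ x ∈ W, ∀ y ∈ Nb Q E, Cm x y → y ∈ W)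
    {c : Ch P} (hc : c ∈ W) (hcN : c ∈ Nb Q E) {x : P} (hx : x ∈ c.1) (hxE : x ∈ E) :
    ∃ e : Ch Q, ⟨x, hEQ hxE⟩ ∈ e.1 ∧ e.1.card = d + 1 ∧ ∃ t ∈ W, e.up < t := by
  by_contra hn
  push Not at hn
  have hxA : Mt A (Ch.pt x) := mt_pt.2 (hE hxE)
  obtain ⟨a, ha, ha'⟩ := h.pure c (hcN.1.sub hE)
  obtain ⟨e, he, he'⟩ := hQ.pure (Ch.pt ⟨x, hEQ hxE⟩) (mt_pt.2 hxE)
  have xe : x ∈ e.up.1 := Ch.val_mem_up.2 (Ch.pt_le.1 he)
  obtain ⟨b, hb, hb'⟩ := h.pure e.up ⟨x, xe, hE hxE⟩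
  refine hn e (Ch.pt_le.1 he) he' b (h.star' (· ∈ W) hxA (fun g h1 h2 a b ha hb hz => ?_)
    (Ch.pt_le.2 (ha hx)) (Ch.pt_le.2 (hb xe)) ha' hb' (hW c hc a (Nb.mono hcN ha) (Or.inl ha)))
    (lt_of_le_of_ne hb fun k => by rw [← k, Ch.card_up] at hb'; omega)
  by_cases k : ∃ t ∈ g.1, t ∉ Q
  · have k : g ∈ Nb Q E := ⟨⟨x, Ch.pt_le.1 h1, hxE⟩, k⟩
    exact hW g (hW a hz g k (Or.inr ha.le)) b (Nb.mono k hb.le) (Or.inl hb.le)
  · push Not at k
    obtain ⟨g, rfl⟩ := Ch.exists_up k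
    exact absurd ha (hn g (Ch.val_mem_up.1 (Ch.pt_le.1 h1)) (g.card_up ▸ h2) a hz)

/-- every side of `E` is seen from every top cell of `Q` that meets `E` -/
theorem side_all (hEQ : E ⊆ Q) (hc : Conn E) {c : Ch P} (hcN : c ∈ Nb Q E) {e : Ch Q}
    (he : Mt (Subtype.val ⁻¹' E) e) (he' : e.1.card = d + 1) :
    ∃ t, e.up < t ∧ Rch (Nb Q E) c t := by
  obtain ⟨x, hx, hxE⟩ := hcN.1
  obtain ⟨y, hy, hyE⟩ := he
  have hW : ∀ x ∈ cmp (Nb Q E) c, ∀ y ∈ Nb Q E, Cm x y → y ∈ cmp (Nb Q E) c :=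
    fun x hx y hy k => (isCmp_cmp hcN).clopen hx hy k
  obtain ⟨e₀, h1, h2, h3⟩ := side_start h hQ hE hEQ hW (mem_cmp_self hcN) hcN hx hxE
  have r : Rch (Subtype.val ⁻¹' E : Set Q) ⟨x, hEQ hxE⟩ y := by
    have : ∀ hy : y.1 ∈ Q, Rch (Subtype.val ⁻¹' E : Set Q) ⟨x, hEQ hxE⟩ ⟨y.1, hy⟩ :=
      (hc x hxE y.1 hyE).ind (p := fun t => ∀ ht : t ∈ Q,
        Rch (Subtype.val ⁻¹' E : Set Q) ⟨x, hEQ hxE⟩ ⟨t, ht⟩) (fun _ => Rch.rfl)
        fun a ha b hb hab =>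
          ⟨fun H _ => (H (hEQ ha)).trans (Rch.of_cm ha hb (Or.inl hab)),
            fun H _ => (H (hEQ hb)).trans (Rch.of_cm hb ha (Or.inr hab))⟩
    exact this y.2
  obtain ⟨t, t1, t2⟩ := Alg36.Mf.along hQ (fun e => ∃ t ∈ cmp (Nb Q E) c, e.up < t)
    (fun f hf hfc a b ha hb => side_step h hQ hE hW hf hfc ha hb) hxE r h1 hy h2 he' h3
  exact ⟨t, t2, t1.2⟩

/-- **SIDE**: at most two sides -/
theorem side (hEQ : E ⊆ Q) (hc : Conn E) {a b c : Ch P} (ha : a ∈ Nb Q E) (hb : b ∈ Nb Q E)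
    (hc' : c ∈ Nb Q E) : Rch (Nb Q E) a b ∨ Rch (Nb Q E) a c ∨ Rch (Nb Q E) b c := by
  obtain ⟨x, -, hxE⟩ := ha.1
  obtain ⟨e, he, he'⟩ := hQ.pure (Ch.pt ⟨x, hEQ hxE⟩) (mt_pt.2 hxE)
  have m : Mt (Subtype.val ⁻¹' E) e := ⟨_, Ch.pt_le.1 he, hxE⟩
  obtain ⟨t1, a1, a2⟩ := side_all h hQ hE hEQ hc ha m he'
  obtain ⟨t2, b1, b2⟩ := side_all h hQ hE hEQ hc hb m he'
  obtain ⟨t3, c1, c2⟩ := side_all h hQ hE hEQ hc hc' m he'
  rcases Alg36.Mf.two h ((mt_up.2 m).sub hE) (e.card_up ▸ he') a1 b1 c1 with k | k | k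
  · exact Or.inl (a2.trans (k ▸ b2.symm))
  · exact Or.inr (Or.inl (a2.trans (k ▸ c2.symm)))
  · exact Or.inr (Or.inr (b2.trans (k ▸ c2.symm)))

end side

end Crest.Agent.X212.Hp13
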