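import Crest.Agent.X212.Hp13.Tst

/-!
# X212 / Hp13 (helper13): the thick raise, and the drop of a number of components
-/

set_option autoImplicit false
set_option linter.unusedSectionVars false

open Finset Classical

noncomputable section

namespace Crest.Agent.X212.Hp13

variable {P : Type} [PartialOrder P] [Fintype P] {A Q F : Set P}

theorem Ch.pr_le {c : Ch P} {x y : P} (h : x ≤ y) (hx : x ∈ c.1) (hy : y ∈ c.1) :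
    Ch.pr x y h ≤ c := insert_subset hx (singleton_subset_iff.2 hy)

/-- the chain of a triple -/
def Ch.tr (x y u : P) (h1 : x ≤ y) (h2 : y ≤ u) : Ch P := (Ch.pr y u h2).ins x fun t ht => by
  simp only [Ch.pr_val, mem_insert, mem_singleton] at ht
  rcases ht with rfl | rfl
  exacts [Or.inl h1, Or.inl (h1.trans h2)]

theorem Ch.mem_tr {x y u t : P} {h1 : x ≤ y} {h2 : y ≤ u} :
    t ∈ (Ch.tr x y u h1 h2).1 ↔ t = x ∨ t = y ∨ t = u := by simp [Ch.tr]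

theorem Ch.bot_tr {x y u : P} (h1 : x ≤ y) (h2 : y ≤ u) : (Ch.tr x y u h1 h2).bot = x :=
  Ch.bot_eq (Ch.mem_tr.2 (Or.inl rfl)) fun t ht => by
    rcases Ch.mem_tr.1 ht with rfl | rfl | rfl
    exacts [le_rfl, h1, h1.trans h2]

theorem Ch.top_tr {x y u : P} (h1 : x ≤ y) (h2 : y ≤ u) : (Ch.tr x y u h1 h2).top = u :=
  Ch.top_eq (Ch.mem_tr.2 (Or.inr (Or.inr rfl))) fun t ht => by
    rcases Ch.mem_tr.1 ht with rfl | rfl | rfl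
    exacts [h1.trans h2, h2, le_rfl]

theorem rch_pr {R : Set P} {x d x' d' : P} (hx : x ∉ R) (hx' : x' ∉ R) (hd : d ∈ R) (hd' : d' ∈ R)
    (h1 : x ≤ d) (h2 : x' ≤ d') (h3 : x ≤ x') (h4 : d ≤ d') :
    Rch {c : Ch P | c.bot ∉ R ∧ c.top ∈ R} (Ch.pr x d h1) (Ch.pr x' d' h2) := by
  have m : ∀ {a b : P} (h : a ≤ b), a ∉ R → b ∈ R →
      Ch.pr a b h ∈ {c : Ch P | c.bot ∉ R ∧ c.top ∈ R} := fun h ha hb => by simpa using ⟨ha, hb⟩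
  have m' : ∀ {b : P} (h : x ≤ b) (h' : b ≤ d'),
      Ch.tr x b d' h h' ∈ {c : Ch P | c.bot ∉ R ∧ c.top ∈ R} := fun h h' =>
    ⟨by rwa [Ch.bot_tr], by rwa [Ch.top_tr]⟩
  exact (((Rch.of_cm (m h1 hx hd) (m' h1 h4) (Or.inl (Ch.pr_le _ (by simp [Ch.mem_tr])
    (by simp [Ch.mem_tr])))).trans (Rch.of_cm (m' h1 h4) (m (h1.trans h4) hx hd')
      (Or.inr (Ch.pr_le _ (by simp [Ch.mem_tr]) (by simp [Ch.mem_tr]))))).trans
    (Rch.of_cm (m _ hx hd') (m' h3 h2) (Or.inl (Ch.pr_le _ (by simp [Ch.mem_tr])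
      (by simp [Ch.mem_tr]))))).trans (Rch.of_cm (m' h3 h2) (m h2 hx' hd')
      (Or.inr (Ch.pr_le _ (by simp [Ch.mem_tr]) (by simp [Ch.mem_tr]))))

theorem Low.ee_bot (h : Low A Q F) (hM : Mf 3 A) : ee (Ch.bot ⁻¹' F : Set (Ch P)) = -eu F := by
  have := sum_bot (ind F)
  simp only [ind, mul_ite, mul_one, mul_zero, ← sum_filter] at this
  rw [ee_ch, ← h.ee_eq, ee, neg_inj]
  refine Eq.trans ?_ (this.trans (sum_congr rfl fun a ha => ?_))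
  · refine sum_congr ?_ fun _ _ => rfl
    ext c
    simp only [mem_filter, Set.mem_preimage]
  · rw [hM.bet_eq (h.sub (mem_filter.1 ha).2)]; norm_num

/-- a point under the slab and off the slab misses `Q` -/
theorem Low.off (h : Low A Q F) {x d : Ch P} (hx : x.bot ∉ F) (hd : d.bot ∈ F) (l : x ≤ d) :
    ∀ t ∈ x.1, t ∉ Q := fun t ht k => hx (by
  have := h.up _ hd t k (Ch.bot_le (l ht))
  exact h.up _ hd _ (h.dn t this _ (Ch.bot_le ht)) (Ch.bot_anti l))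

theorem Low.split (h : Low A Q F) {t : Ch P} (ht : t ∈ Nb Q F) : ∃ x d : Ch P, x.bot ∉ F ∧
    d.bot ∈ F ∧ x ≤ d ∧ d ≤ t ∧ x.1 = t.1.filter (· ∉ Q) ∧
      d.1 = t.1.filter fun a => a ∈ F ∨ a ∉ Q := by
  obtain ⟨⟨e, e1, e2⟩, y, y1, y2⟩ := ht
  let x := t.sub (t.1.filter (· ∉ Q)) ⟨y, mem_filter.2 ⟨y1, y2⟩⟩ (filter_subset _ _)
  let d := t.sub (t.1.filter fun a => a ∈ F ∨ a ∉ Q) ⟨e, mem_filter.2 ⟨e1, Or.inl e2⟩⟩
    (filter_subset _ _)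
  refine ⟨x, d, fun k => (mem_filter.1 x.bot_mem).2 (h.subQ k), ?_,
    fun a ha => mem_filter.2 ⟨(mem_filter.1 ha).1, Or.inr (mem_filter.1 ha).2⟩,
    filter_subset _ _, rfl, rfl⟩
  exact (mem_filter.1 d.bot_mem).2.resolve_right (not_not.2 (h.dn e e2 _
    (Ch.bot_le (c := d) (mem_filter.2 ⟨e1, Or.inl e2⟩))))

theorem Low.nb {x d t : Ch P} (h : Low A Q F) (hx : x.bot ∉ F) (hd : d.bot ∈ F) (l : x ≤ d)
    (l' : d ≤ t) : t ∈ Nb Q F :=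
  ⟨⟨_, l' d.bot_mem, hd⟩, _, l' (l x.bot_mem), h.off hx hd l _ x.bot_mem⟩

theorem Low.rch_bot (h : Low A Q F) {x d t x' d' t' : Ch P} (hx : x.bot ∉ F) (hd : d.bot ∈ F)
    (l : x ≤ d) (l' : d ≤ t) (hx' : x'.bot ∉ F) (hd' : d'.bot ∈ F) (k : x' ≤ d') (k' : d' ≤ t')
    (hr : Rch (Nb Q F) t t') :
    Rch {c : Ch (Ch P) | c.bot ∉ Ch.bot ⁻¹' F ∧ c.top ∈ Ch.bot ⁻¹' F} (Ch.pr x d l) (Ch.pr x' d' k) := by
  have key : ∀ {x d t s : Ch P} (_ : x.bot ∉ F) (_ : d.bot ∈ F) (l : x ≤ d), d ≤ t → t ≤ s →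
      ∀ {x' d' : Ch P} (_ : x'.bot ∉ F) (_ : d'.bot ∈ F) (k : x' ≤ d'), d' ≤ s →
      Rch {c : Ch (Ch P) | c.bot ∉ Ch.bot ⁻¹' F ∧ c.top ∈ Ch.bot ⁻¹' F}
        (Ch.pr x d l) (Ch.pr x' d' k) := by
    intro x d t s hx hd l l' ts x' d' hx' hd' k k'
    obtain ⟨a, b, a1, b1, ab, -, ea, eb⟩ := h.split (h.nb hx' hd' k k')
    have f : ∀ {x d : Ch P} (_ : x.bot ∉ F) (_ : d.bot ∈ F) (l : x ≤ d), d ≤ s →
        Rch {c : Ch (Ch P) | c.bot ∉ Ch.bot ⁻¹' F ∧ c.top ∈ Ch.bot ⁻¹' F}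
          (Ch.pr x d l) (Ch.pr a b ab) := fun {x d} hx hd l l' =>
      rch_pr (R := Ch.bot ⁻¹' F) hx a1 hd b1 l ab
        (fun u hu => ea ▸ mem_filter.2 ⟨l' (l hu), h.off hx hd l u hu⟩)
        fun u hu => eb ▸ mem_filter.2 ⟨l' hu, or_iff_not_imp_right.2 fun j =>
          h.up _ hd u (not_not.1 j) (Ch.bot_le hu)⟩
    exact (f hx hd l (l'.trans ts)).trans (f hx' hd' k k').symm
  refine hr.ind (p := fun s => ∀ {x' d' : Ch P} (_ : x'.bot ∉ F) (_ : d'.bot ∈ F) (k : x' ≤ d'),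
    d' ≤ s → Rch _ (Ch.pr x d l) (Ch.pr x' d' k)) (key hx hd l l' le_rfl) ?_ hx' hd' k k'
  intro a ha b _ ab
  obtain ⟨u, v, u1, v1, uv, va, -⟩ := h.split ha
  exact ⟨fun H _ _ j1 j2 j3 j4 => (H u1 v1 uv va).trans (key u1 v1 uv va ab j1 j2 j3 j4),
    fun H _ _ j1 j2 j3 j4 => H j1 j2 j3 (j4.trans ab)⟩

/-- **the thick raise** on the slab over `F` -/
theorem Low.sg_bot (h : Low A Q F) (hM : Mf 3 A)
    (hR : (Ch.bot ⁻¹' F : Set (Ch P)) ⊆ Ch.top ⁻¹' A) {z : Ch P → Ch P → ℤ}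
    [IsCoc (Ch.top ⁻¹' A) z] (hv : Mv (Ch.top ⁻¹' A) z (Ch.bot ⁻¹' F)) :
    Sg MR (CY (Ch.top ⁻¹' A) z (Ch.bot ⁻¹' F)) (CX (Ch.top ⁻¹' A) z (Ch.bot ⁻¹' F))
      (NX (Ch.top ⁻¹' A) z (Ch.bot ⁻¹' F)) fun a b => Rch (Nb Q F) a.1.1.top b.1.1.top := by
  set R : Set (Ch P) := Ch.bot ⁻¹' F with hRe
  set B : Set (Ch P) := Ch.top ⁻¹' A
  have S : ∀ c ∈ {c : Ch (Ch P) | c.bot ∉ R ∧ c.top ∈ R}, Mt B c ∧ Mt R c ∧ c.bot ∉ R :=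
    fun c hc => ⟨⟨_, c.top_mem, hR hc.2⟩, ⟨_, c.top_mem, hc.2⟩, hc.1⟩
  have nla : NX B z R ⊆ LA B (Hp13.up z R) := fun a ⟨x, x1, x2, _⟩ => ⟨x, x1, hR x2⟩
  have nb : ∀ a ∈ NX B z R, a.1.1.top ∈ Nb Q F := fun a ha =>
    let ⟨_, x1, x2, _⟩ := id ha
    h.nb (hv.NX_bot ha) x2 (Ch.bot_le x1) (Ch.le_top x1)
  have cx : ∀ r ∈ NX B z R, r.1.1.top ∈ R → r ∈ CX B z R := by
    rintro r ⟨t, t1, t2, t3⟩ hb
    refine ⟨hb, ?_⟩
    rw [t3, up_apply, up_apply, ind_of_mem t2, ind_of_mem hb,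
      hv.z_eq r.2.1 t1 r.1.1.top_mem t2 hb]
  -- the edge of a cell
  have ed : ∀ a ∈ NX B z R, ∀ d ∈ a.1.1.1, d ∈ R → ∃ (l : a.1.1.bot ≤ d), ∃ r ∈ CX B z R,
      r.1.1 = Ch.pr _ d l ∧ r ≤ a := fun a ha d d1 d2 => by
    have l := Ch.bot_le d1
    have le := Ch.pr_le l a.1.1.bot_mem d1
    obtain ⟨r, r1, r2⟩ := hv.exists_X (a.2.1.mono le) (by simpa) (by simpa using hv.NX_bot ha)
    exact ⟨l, r, r1, r2, hv.NX_le (X_sub_NX r1) ha (r2 ▸ le)⟩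
  have jj : ∀ a ∈ NX B z R, ∀ b ∈ NX B z R, Rch (Nb Q F) a.1.1.top b.1.1.top →
      ∃ r ∈ CX B z R, ∃ r' ∈ CX B z R, r ≤ a ∧ r' ≤ b ∧ Rch (CX B z R) r r' := by
    intro a ha b hb k
    obtain ⟨d, d1, d2, -⟩ := id ha
    obtain ⟨e, e1, e2, -⟩ := id hb
    obtain ⟨l, r, r1, r2, r3⟩ := ed a ha d d1 d2
    obtain ⟨l', s, s1, s2, s3⟩ := ed b hb e e1 e2
    refine ⟨r, r1, s, s1, r3, s3, (hv.rch_NX S (X_sub_NX r1) (X_sub_NX s1) ?_).mono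
      fun u hu => cx u hu.1 hu.2.2⟩
    rw [r2, s2]
    exact h.rch_bot (hv.NX_bot ha) d2 l (Ch.le_top d1) (hv.NX_bot hb) e2 l' (Ch.le_top e1) k
  have jr : ∀ a ∈ NX B z R, ∀ b ∈ NX B z R, Rch (Nb Q F) a.1.1.top b.1.1.top →
      Rch (LA B (Hp13.up z R)) a b := fun a ha b hb k => by
    obtain ⟨r, r1, s, s1, r2, s2, j⟩ := jj a ha b hb k
    exact ((Rch.of_cm (nla ha) (nla (X_sub_NX r1)) (Or.inr r2)).trans
      (j.mono fun _ u => nla (X_sub_NX u))).trans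
      (Rch.of_cm (nla (X_sub_NX s1)) (nla hb) (Or.inl s2))
  obtain ⟨x, hx, y, hy, hxy⟩ := h.ne
  refine ⟨lr_mr R, fun q hq => let ⟨p, k⟩ := exists_mr hq; ⟨p, k.notX, k⟩,
    fun p hp => let ⟨q, k⟩ := exists_mr' hp; ⟨q, k.notY, k⟩, fun _ _ k a => hv.Y_low a k,
    fun p hp => ⟨_, p.1.1.bot_mem, hR hp.1⟩, ?_, fun _ _ k a => hv.X_low a k,
    fun _ => X_sub_NX, nla, fun p q x k hx l => k.nb.1 (NY.upper (Y_sub_NY hx) l),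
    fun a ha b hb c hc => side hM h.mf h.sub h.subQ h.conn (nb a ha) (nb b hb) (nb c hc), jr,
    fun a ha b hb k => ?_, fun a ha => ?_⟩
  · have m : Ch.pt y ∈ R := by simpa [hRe]
    have l : Ch.pt y ≤ Ch.pr x y hxy := Ch.pt_le.2 (by simp)
    obtain ⟨p, hp, -⟩ := hv.exists_Y (c := Ch.pr _ _ l) ((dom_pr l).2 (Dp.of_left (hR m) l))
      (by simpa) (by simpa [hRe])
    exact ⟨p, hp⟩
  · obtain ⟨r, r1, s, s1, r2, s2, j⟩ := jj a (X_sub_NX ha) b (X_sub_NX hb) k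
    exact ((Rch.of_cm ha r1 (Or.inr r2)).trans j).trans (Rch.of_cm s1 hb (Or.inl s2))
  · have hxQ := h.dn y hy x hxy
    obtain ⟨t, t1, t2⟩ := exists_far hM h.mf h.sub h.subQ h.conn hxQ hy (Or.inl hxy)
      (nb a (X_sub_NX ha))
    obtain ⟨u, v, u1, v1, uv, vt, -⟩ := h.split (t2.mem (nb a (X_sub_NX ha)))
    have m : Mt R (Ch.tr u v t uv vt) := ⟨v, by simp [Ch.mem_tr], v1⟩
    obtain ⟨b, b1, b2⟩ := hv.exists_NX (m.sub hR).dom m (by rwa [Ch.bot_tr])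
    have e : b.1.1.top = t := by rw [b2, Ch.top_tr]
    exact ⟨b, fun k => hx (h.up _ (e ▸ k.1 : t ∈ R) x hxQ (Ch.bot_le t1)),
      jr a (X_sub_NX ha) b b1 (e ▸ t2)⟩

/-- the number of components drops -/
theorem ncard_cmp_lt {α β : Type} [PartialOrder α] [PartialOrder β] [Finite α] {I : Set α}
    {I' : Set β} (R : β → α → Prop) {k : α} (hk : k ∈ I)
    (h1 : ∀ b ∈ I', ∃ a ∈ I, R b a ∧ ¬ Rch I k a)
    (h2 : ∀ b ∈ I', ∀ b' ∈ I', ∀ a a', R b a → R b' a' → Rch I a a' → Rch I' b b') :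
    {C | IsCmp I' C}.ncard < {C | IsCmp I C}.ncard := by
  have ex : ∀ C : Set β, ∃ D : Set α, IsCmp I' C → ∃ b ∈ C, ∃ a ∈ I, R b a ∧ ¬ Rch I k a ∧
      D = cmp I a := fun C => by
    by_cases hC : IsCmp I' C
    · obtain ⟨b, hb⟩ := hC.ne
      obtain ⟨a, a1, a2, a3⟩ := h1 b (hC.sub hb)
      exact ⟨_, fun _ => ⟨b, hb, a, a1, a2, a3, rfl⟩⟩
    · exact ⟨∅, fun j => absurd j hC⟩
  choose f hf using ex
  refine lt_of_le_of_lt (Set.ncard_le_ncard_of_injOn f (t := {C | IsCmp I C} \ {cmp I k})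
    (fun C hC => ?_) (fun C hC D hD e => ?_) (Set.toFinite _))
    (Set.ncard_sdiff_singleton_lt_of_mem (isCmp_cmp hk) (Set.toFinite _))
  · obtain ⟨b, -, a, a1, -, a3, e⟩ := hf C hC
    refine ⟨e ▸ isCmp_cmp a1, fun j => a3 ?_⟩
    have : a ∈ cmp I k := (Set.mem_singleton_iff.1 j) ▸ e ▸ mem_cmp_self a1
    exact this.2
  · obtain ⟨b, b1, a, -, a2, -, e1⟩ := hf C hC
    obtain ⟨b', b2, a', a3, a4, -, e2⟩ := hf D hD
    have : a' ∈ cmp I a := e1 ▸ e ▸ e2 ▸ mem_cmp_self a3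
    exact (IsCmp.eq hC b1).trans ((cmp_eq (h2 b (IsCmp.sub hC b1) b' (IsCmp.sub hD b2) a a' a2 a4
      this.2)).trans (IsCmp.eq hD b2).symm)

end Crest.Agent.X212.Hp13
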