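import Crest.Agent.X212.Hp13.NegM
import Crest.Agent.X212.Kh11.Defs

/-!
# X212 / Hp13 (helper13): bridge to `Hk`, the basic surgery of a disc or a sphere
-/

set_option autoImplicit false
set_option linter.unusedSectionVars false

open Finset Classical

namespace Crest.Agent.X212.Hp13

open Crest.Agent.X212.Alg36 Cut21
open Pt30 hiding Dsc
open Hk

variable {P : Type} [PartialOrder P] [Fintype P] {X Y H K Z : Set P} {w u : P → P → ℤ}

theorem sub_cl : X ⊆ cl X := fun x hx => ⟨x, hx, le_rfl⟩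

theorem cl_low : IsLowerSet (cl X) := fun _ _ k ⟨a, ha, l⟩ => ⟨a, ha, k.trans l⟩

theorem om_cl : Om X ⊆ cl X := fun _ h => h.2

theorem cl_mono (h : X ⊆ Y) : cl X ⊆ cl Y := fun _ ⟨a, ha, l⟩ => ⟨a, h ha, l⟩

theorem dp_iff (hX : IsUpperSet X) {x y : P} : Dp X x y ↔ x ≤ y ∧ y ∈ cl X :=
  ⟨fun h => ⟨h.1, Sup43.dp_up hX h⟩, fun ⟨h, _, ha, l⟩ => dp_hi ha h l⟩

theorem om_low (hX : IsUpperSet X) : IsLowerSet (Om X) := fun _ _ k h => om_dn hX.ordConnected h k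

theorem coc_iff {G : Type} [AddCommGroup G] (hX : IsUpperSet X) {w : P → P → G} :
    CocOn (cl X) w ↔ Coc X w :=
  ⟨fun h a ha x y t h1 h2 _ _ c => by
    have : t ∈ cl X := c.elim (fun k => sub_cl (hX k ha)) fun k => ⟨a, ha, k⟩
    exact h x (cl_low (h1.trans h2) this) y (cl_low h2 this) t this h1 h2,
  fun h x _ y _ t ⟨a, ha, l⟩ h1 h2 =>
    h a ha x y t h1 h2 (Or.inr (h1.trans (h2.trans l))) (Or.inr (h2.trans l)) (Or.inr l)⟩

theorem s1_iff (hX : IsUpperSet X) : S1 X w ↔ Z1 X w :=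
  ⟨fun h => ⟨(coc_iff hX).1 h.coc, fun x y k => h.nn x y ((dp_iff hX).1 k).2 k.1,
    fun x y k => h.le1 x y ((dp_iff hX).1 k).2 k.1⟩,
  fun h => ⟨(coc_iff hX).2 h.coc, fun x y a l => h.mono x y ((dp_iff hX).2 ⟨l, a⟩),
    fun x y a l => h.le x y ((dp_iff hX).2 ⟨l, a⟩)⟩⟩

theorem conn_la [IsCoc X w] (hX : IsUpperSet X) (h : Z1 X w) : Conn (LA X w) ↔ Conn (CA X w) := by
  rw [la_eq hX]; exact h.conn_pre (mx_qe subset_rfl)

theorem cv_ne_iff [IsCoc X w] (hX : IsUpperSet X) :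
    (Cv (Om X) w).Nonempty ↔ ∃ q : Lv X w, q ∉ LA X w :=
  ⟨fun ⟨c, h1, h2⟩ => ⟨cel ⟨(dom_up hX).2 (h1 _ c.top_mem).2, h2⟩,
      fun k => (h1 _ c.top_mem).1 ((mt_top hX).1 k)⟩,
    fun ⟨q, h⟩ => ⟨Pt30.ch q, fun x hx => om_low hX (Ch.le_top hx)
      ⟨fun k => h ((mt_top hX).2 k), (dom_up hX).1 q.2.1⟩, (ch_mem q).2⟩⟩

theorem td_dsc [IsCoc X w] (hX : IsUpperSet X) (h : TD X w) : Dsc X w := by
  have z := (s1_iff hX).1 h.toS1
  have c := (conn_la hX z).2 h.conn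
  refine ⟨z.mono, fun C ⟨p, hp, e⟩ => ?_, c, h.chi⟩
  obtain ⟨q, hq⟩ := (cv_ne_iff hX).1 h.ne
  obtain ⟨r, r1, r2⟩ := Lv.exists_la z.mono q
  exact ⟨r, e ▸ ⟨r1, c p hp r r1⟩, q, hq, r2⟩

theorem dsc_td [IsCoc X w] (hX : IsUpperSet X) (z : Z1 X w) (h : Dsc X w) : TD X w :=
  ⟨(s1_iff hX).2 z, (conn_la hX z).1 h.conn, h.chi,
    let ⟨_, _, q, hq, _⟩ := h.lb_ne; (cv_ne_iff hX).2 ⟨q, hq⟩⟩

theorem flat_om_iff [IsCoc X w] (hX : IsUpperSet X) (hm : Mono X w) :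
    Flat (Om X) w ↔ ∀ p : Lv X w, p ∈ LA X w :=
  ⟨fun h p => by_contra fun k => by
    obtain ⟨c, h1, h2⟩ := (cv_ne_iff hX).2 ⟨p, k⟩
    exact h2.ne' (h _ (h1 _ c.bot_mem) _ (h1 _ c.top_mem) c.bot_le_top),
  fun h x hx y hy l => le_antisymm (not_lt.1 fun k => by
    obtain ⟨q, hq⟩ := (cv_ne_iff (w := w) hX).1 ⟨Ch.pr x y l, by simp [hx, hy], by simpa using k⟩
    exact hq (h q)) (hm x y ((dp_iff hX).2 ⟨l, hy.2⟩))⟩

theorem sp_sph [IsCoc X w] (hX : IsUpperSet X) (h : SP X w) : Sph X w :=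
  have z := (s1_iff hX).1 h.toS1
  ⟨z.mono, (flat_om_iff hX z.mono).1 h.flat, (conn_la hX z).2 h.conn, h.chi⟩

theorem sph_sp [IsCoc X w] (hX : IsUpperSet X) (z : Z1 X w) (h : Sph X w) : SP X w :=
  ⟨(s1_iff hX).2 z, (flat_om_iff hX z.mono).2 h.cl, (conn_la hX z).1 h.conn, h.chi⟩

/-- a closed surface of a subregion bounds in the ambient region -/
theorem ext_bnd {G : Type} [AddCommGroup G] (hX : IsUpperSet X) (hY : IsUpperSet Y) (hs : X ⊆ Y)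
    (hb : Bnd G Y) {u : P → P → G} (hc : CocOn (cl X) u) (hf : Flat (Om X) u) :
    ∃ g : P → G, (∀ x, x ∉ Y → g x = 0) ∧ ∀ x, ∀ y ∈ cl Y, x ≤ y → Hk.ext X u x y = g y - g x := by
  obtain ⟨g, g1, g2⟩ := hb (Hk.ext X u) (fun a _ x y t h1 h2 _ _ _ => by
      by_cases k : t ∈ cl X
      · simp only [Hk.ext, if_pos k, if_pos (cl_low h2 k)]
        exact hc x (cl_low (h1.trans h2) k) y (cl_low h2 k) t k h1 h2
      · simp only [Hk.ext, if_neg k, add_zero]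
        split_ifs with j
        · have : y ∈ Om X := ⟨fun i => k (sub_cl (hX h2 i)), j⟩
          exact (hf x (om_low hX h1 this) y this h1).symm
        · rfl)
    fun x y hp _ hy => by
      simp only [Hk.ext]
      split_ifs with j
      · have : y ∈ Om X := ⟨fun i => hy (hs i), j⟩
        exact hf x (om_low hX hp.1 this) y this hp.1
      · rfl
  exact ⟨g, g1, fun x y a l => by simpa [cb] using g2 x y ((dp_iff hY).2 ⟨l, a⟩)⟩

theorem ex_of_flat {G : Type} [AddCommGroup G] (hX : IsUpperSet X) (hY : IsUpperSet Y) (hs : X ⊆ Y)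
    (hb : Bnd G Y) {u : P → P → G} (hc : CocOn (cl X) u) (hf : Flat (Om X) u) : ExOn (cl X) u :=
  let ⟨g, _, h⟩ := ext_bnd hX hY hs hb hc hf
  ⟨g, fun x _ y hy l => by rw [← h x y (cl_mono hs hy) l, Hk.ext, if_pos hy]⟩

/-- fewer components -/
theorem ncmp_lt {I J : Set P} (h : J ⊆ I) (hc : ∀ x ∈ J, ∀ y ∈ I, Cm x y → y ∈ J) {k : P}
    (hk : k ∈ I) (hk' : k ∉ J) : ncmp J < ncmp I :=
  ncard_cmp_lt (fun b a => b = a) hk
    (fun b hb => ⟨b, h hb, rfl, fun r => hk' ((Rch.in_clopen hc hb r.symm).mem hb)⟩)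
    fun b hb _ _ _ _ e e' r => by subst e e'; exact Rch.in_clopen hc hb r

/-- a union of components of a surface with jumps `≤ 1` -/
theorem cnt_z1 [IsCoc X u] (z : Z1 X u) {T : Set (Lv X u)} (h : Sat T) : Z1 X (cnt T) :=
  ⟨h.coc z.mono, mono_cnt, fun x y k => (cnt_le z.mono k).trans (z.le x y k)⟩

theorem cnt_pos [IsCoc X u] (z : Z1 X u) {T : Set (Lv X u)} (h : Sat T) {c : Ch P} (hc : Dom X c) :
    0 < cnt T c.bot c.top ↔ ∃ p ∈ T, Pt30.ch p = c := by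
  have i : IsCoc X (cnt T) := ⟨h.coc z.mono⟩
  refine ⟨fun k => ?_, fun ⟨p, a, b⟩ => ?_⟩
  · obtain ⟨q, hq⟩ := h.exists_pr' z.mono (cel (M := X) (e := cnt T) ⟨hc, k⟩)
    exact ⟨q, hq.1, ((h.lr z.mono).ch hq).symm⟩
  · obtain ⟨q, hq⟩ := h.exists_pr z.mono a
    have := (ch_mem q).2
    rwa [Pt30.ch, (h.lr z.mono).ch hq, show p.1.1 = c from b] at this

theorem cv_cnt [IsCoc X u] (hX : IsUpperSet X) (z : Z1 X u) {T : Set (Lv X u)} (h : Sat T)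
    (hK : K ⊆ cl X) : Cv K (cnt T) ⊆ Cv K u ∧
      ∀ c ∈ Cv K (cnt T), ∀ d ∈ Cv K u, Cm c d → d ∈ Cv K (cnt T) := by
  have dm : ∀ c : Ch P, (∀ x ∈ c.1, x ∈ K) → Dom X c := fun c a =>
    (dom_up hX).2 (hK (a _ c.top_mem))
  refine ⟨fun c a => ⟨a.1, a.2.trans_le (cnt_le z.mono (dm c a.1).bt)⟩, fun c a d b k => ⟨b.1, ?_⟩⟩
  obtain ⟨p, p1, rfl⟩ := (cnt_pos z h (dm c a.1)).1 a.2
  have q : d ∈ Qe X u := ⟨dm d b.1, b.2⟩
  refine (cnt_pos z h (dm d b.1)).2 ⟨cel q, ?_, rfl⟩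
  rcases (z.ch_cm (p := p) (q := cel q)).1 k with l | l
  exacts [(h _ _ l).1 p1, (h _ _ l).2 p1]

/-- a vertical cap above its curve -/
structure CapV (X H : Set P) (w : P → P → ℤ) (Z : Set P) : Prop where
  low : Low X H Z
  eu : eu Z = 1
  one : ∀ y ∈ Z, ∀ x, x ≤ y → x ∉ Z → w x y = 1
  vert : ∀ x ∈ Z, ∀ y ∈ cl X, x ≤ y → w x y = 0

namespace CapV

variable (h : CapV X H w Z)
include h

theorem mv (hX : IsUpperSet X) (z : Z1 X w) : Mv X (w - cb (ind Z)) Z :=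
  mv_of_lower z.mono (fun x y k a b => (h.one y b x k.1 a).ge)
    fun x y k a _ => h.vert x a y ((dp_iff hX).1 k).2 k.1

theorem z1 (hX : IsUpperSet X) (z : Z1 X w) : Z1 X (w - cb (ind Z)) :=
  ⟨z.coc.sub (coc_cb _), (h.mv hX z).lo, fun x y k => by
    have := z.le x y k
    have := ind_nonneg (E := Z) y
    simp only [Pi.sub_apply, cb]
    by_cases a : x ∈ Z
    · rw [h.vert x a y ((dp_iff hX).1 k).2 k.1, ind_of_mem a]; omega
    · rw [ind_of_not a]; omega⟩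

theorem chi_eq (hM : Mf 3 X) : chi X (w - cb (ind Z)) = chi X w + 2 := by
  rw [chi_move hM w h.low.sub, h.low.ee_eq, h.eu]; ring

/-- off `Z` the new surface is smaller -/
theorem le {x y : P} (hx : x ∉ Z) : (w - cb (ind Z)) x y ≤ w x y := by
  have := ind_nonneg (E := Z) y
  simp only [Pi.sub_apply, cb, ind_of_not hx]; omega

theorem off {x y : P} (hx : x ∉ Z) (hy : y ∉ Z) : (w - cb (ind Z)) x y = w x y := by
  simp only [Pi.sub_apply, cb, ind_of_not hx, ind_of_not hy]; omega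

theorem cv (hK : K ⊆ cl X) (hH : K ⊆ H) :
    Cv K (w - cb (ind Z)) = {c | c ∈ Cv K w ∧ c.top ∉ Z} := by
  ext c
  refine ⟨fun ⟨a, b⟩ => ?_, fun ⟨⟨a, b⟩, d⟩ => ⟨a, ?_⟩⟩
  · have t : c.top ∉ Z := fun k => by
      simp only [Pi.sub_apply, cb, ind_of_mem k] at b
      by_cases j : c.bot ∈ Z
      · rw [h.vert _ j _ (hK (a _ c.top_mem)) c.bot_le_top, ind_of_mem j] at b; omega
      · rw [h.one _ k _ c.bot_le_top j, ind_of_not j] at b; omega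
    rw [h.off (fun k => t (h.low.up _ k _ (hH (a _ c.top_mem)) c.bot_le_top)) t] at b
    exact ⟨⟨a, b⟩, t⟩
  · rwa [h.off (fun k => d (h.low.up _ k _ (hH (a _ c.top_mem)) c.bot_le_top)) d]

theorem ncmp_lt (hX : IsUpperSet X) (z : Z1 X w) (hK : K ⊆ cl X) (hH : K ⊆ H)
    (hZ : ∀ y ∈ Z, ∀ x, x ≤ y → x ∈ K) [IsCoc X (w - cb (ind Z))]
    {T : Set (Lv X (w - cb (ind Z)))} (hT : Sat T) : ncmp (Cv K (cnt T)) < ncmp (Cv K w) := by
  obtain ⟨a, b⟩ := cv_cnt hX (h.z1 hX z) hT hK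
  rw [h.cv hK hH] at a b
  obtain ⟨x, x1, y, y1, l⟩ := h.low.ne
  refine Hp13.ncmp_lt (fun c k => (a k).1) (fun c k d j i => b c k d ⟨j, fun n => ?_⟩ i)
    (k := Ch.pr x y l) ⟨by simp [hZ y y1 x l, hZ y y1 y le_rfl], by simp [h.one y y1 x l x1]⟩
    fun k => (a k).2 (by simpa using y1)
  rcases i with i | i
  · have := z.top_top ((dom_up hX).2 (hK (j.1 _ d.top_mem))) i (a k).1.2
    rw [h.one _ n _ (Ch.top_mono i) (a k).2] at this
    omega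
  · exact (a k).2 (h.low.up _ n _ (hH (k.1 _ c.top_mem)) (Ch.top_mono i))

theorem sg (hX : IsUpperSet X) (hM : Mf 3 X) (z : Z1 X w) [IsCoc X (w - cb (ind Z))] :
    Sg (fun p q => MR q p) (CX X (w - cb (ind Z)) Z) (CY X (w - cb (ind Z)) Z)
      (NY X (w - cb (ind Z)) Z) fun a b => Rch (Nb H Z) a.1.1 b.1.1 :=
  h.low.sg hM (h.mv hX z)

/-- **surgery of a disc** -/
theorem disc (hX : IsUpperSet X) (hM : Mf 3 X) (hw : TD X w) [IsCoc X (w - cb (ind Z))] :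
    TD X (cnt (Cls X (w - cb (ind Z)))ᶜ) ∧ SP X (cnt (Cls X (w - cb (ind Z)))) := by
  have z := (s1_iff hX).1 hw.toS1
  have z' := h.z1 hX z
  have e := up_sub w Z
  have i1 := IsCoc.mk (cnt_z1 z' sat_cls).coc
  have i2 := IsCoc.mk (cnt_z1 z' sat_cls.compl).coc
  have d : Dsc X (Hp13.up (w - cb (ind Z)) Z) := td_dsc hX (e.symm ▸ hw)
  obtain ⟨a, b⟩ := (h.sg hX hM z).disc hM z'.mono d (by rw [h.chi_eq hM, hw.chi]; rfl)
  exact ⟨dsc_td hX (cnt_z1 z' sat_cls.compl) a, sph_sp hX (cnt_z1 z' sat_cls)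
    (sph_cnt sat_cls z'.mono (fun _ k => k.1) ((h.sg hX hM z).conn d.nc) b)⟩

/-- **surgery of a sphere** -/
theorem sph (hX : IsUpperSet X) (hM : Mf 3 X) (hw : SP X w) [IsCoc X (w - cb (ind Z))] :
    ∃ T : Set (Lv X (w - cb (ind Z))), Sat T ∧ SP X (cnt T) ∧ SP X (cnt Tᶜ) := by
  have z := (s1_iff hX).1 hw.toS1
  have z' := h.z1 hX z
  have e := up_sub w Z
  have d : Sph X (Hp13.up (w - cb (ind Z)) Z) := sp_sph hX (e.symm ▸ hw)
  obtain ⟨T, a, b, c, f, g⟩ := (h.sg hX hM z).sph hM z'.mono d (by rw [h.chi_eq hM, hw.chi]; rfl)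
  have i1 := IsCoc.mk (cnt_z1 z' a).coc
  have i2 := IsCoc.mk (cnt_z1 z' a.compl).coc
  have al := (h.sg hX hM z).all_la d.cl
  exact ⟨T, a, sph_sp hX (cnt_z1 z' a) (sph_cnt a z'.mono (fun p _ => al p) b f),
    sph_sp hX (cnt_z1 z' a.compl) (sph_cnt a.compl z'.mono (fun p _ => al p) c g)⟩

end CapV

end Crest.Agent.X212.Hp13
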