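import Crest.Agent.X212.Hp13.TraD
import Crest.Agent.X212.Cut21.Brg
import Crest.Agent.X212.Kh11.Bas

/-!
# X212 / Hp13 (helper13): `SwsStmt`, `TraSStmt`; a ball is moved off the innermost discs of a surface
-/

set_option autoImplicit false
set_option linter.unusedSectionVars false

open Finset Classical

namespace Crest.Agent.X212.Hp13

open Crest.Agent.X212.Alg36 Cut21
open Pt30 hiding Dsc
open Hk
open Kh11 (WS)

section
variable {P : Type} [PartialOrder P] [Fintype P] {X Y H A K B Z : Set P} {w u v : P → P → ℤ}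

/-- a locally constant function that vanishes outside -/
theorem pot_zero (h : Amb Y) {γ : Type} {g : P → γ} {a : γ} (h0 : ∀ x, x ∉ Y → g x = a)
    (h1 : ∀ x, ∀ y ∈ cl Y, x ≤ y → g x = g y) (p : P) : g p = a := by
  by_cases k : p ∈ Y
  · obtain ⟨b, hb, r, x, hx, l⟩ := h.esc p k
    rw [r.eq fun s _ t ht j => h1 s t (sub_cl ht) j,
      ← h1 x b (sub_cl hb) (l.resolve_left fun j => hx (h.up j hb)), h0 x hx]
  · exact h0 p k

theorem eu_ne (h : eu B ≠ 0) : B.Nonempty := by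
  by_contra k
  exact h (by rw [eu, filter_false_of_mem fun c _ j => k ⟨_, j _ c.top_mem⟩]; simp)

theorem Hk.Bal.ne (h : Bal Y B) : B.Nonempty := eu_ne (by rw [h.eu]; norm_num)

/-- the potential of a sphere -/
def Pot (Y : Set P) (g : P → ℤ) : Prop := (∃ B, Bal Y B ∧ g = ind B) ∨
  ∃ L, IsLowerSet L ∧ Bal (Ch.top ⁻¹' Y) (Ch.bot ⁻¹' L : Set (Ch P)) ∧ g = -ind L

theorem enc_pot (h : Amb Y) (hw : SP Y w) :
    ∃ g, Pot Y g ∧ (∀ x, x ∉ Y → g x = 0) ∧ EqE (cl Y) w (cb g) := by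
  rcases encStmt P Y w h hw with ⟨B, a, b⟩ | ⟨L, a, b, c, d⟩
  · exact ⟨_, Or.inl ⟨B, a, rfl⟩, fun x k => ind_of_not fun j => k (a.sub j), b⟩
  · exact ⟨_, Or.inr ⟨L, a, d, rfl⟩, fun x k => by simp [ind_of_not fun j => k (b j)],
      fun x p y q l => by rw [c x p y q l]; simp only [cb, Pi.neg_apply]; ring⟩

/-- two spheres whose sum is a coboundary -/
theorem enc_two (h : Amb Y) (hu : SP Y u) (hv : SP Y v) {g : P → ℤ} (h0 : ∀ x, x ∉ Y → g x = 0)
    (e : EqE (cl Y) (cb g) (u + v)) : ∃ g₁ g₂, Pot Y g₁ ∧ Pot Y g₂ ∧ (∀ x, x ∉ Y → g₁ x = 0) ∧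
      (∀ x, x ∉ Y → g₂ x = 0) ∧ EqE (cl Y) u (cb g₁) ∧ EqE (cl Y) v (cb g₂) ∧
      ∀ x, g₁ x + g₂ x = g x := by
  obtain ⟨g₁, a1, a2, a3⟩ := enc_pot h hu
  obtain ⟨g₂, b1, b2, b3⟩ := enc_pot h hv
  refine ⟨g₁, g₂, a1, b1, a2, b2, a3, b3, fun x => sub_eq_zero.1 (pot_zero h
    (g := fun x => g₁ x + g₂ x - g x) (fun x k => by simp [a2 x k, b2 x k, h0 x k])
    (fun x y k l => ?_) x)⟩
  have := e x (cl_low l k) y k l
  have := a3 x (cl_low l k) y k l
  have := b3 x (cl_low l k) y k l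
  simp only [cb, Pi.add_apply] at *
  omega

theorem capH_sub (hB : IsUpperSet B) (c : CapH H A (cb (ind B)) Z) : Z ⊆ B :=
  (Flat.sub_or c.flat c.ctr.conn).resolve_right fun k =>
    let ⟨y, a, x, b, d⟩ := c.ne; Set.disjoint_left.1 k a (cb_ind_eq_one.1 (c.one y a x b d)).2

theorem capH_v (hB : IsUpperSet B) (hA : A ⊆ Y) (hH : IsLowerSet H) (hm : MfIn H A)
    (c : CapH H A (cb (ind B)) Z) : CapV Y H (cb (ind B)) Z :=
  ⟨⟨Mf.mono hm fun _ j => (c.sub j).2, fun _ j => hA (c.sub j).2,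
    fun _ j _ l => hH l (c.sub j).1, c.up, c.ctr.conn,
    let ⟨y, a, x, b, d⟩ := c.ne; ⟨x, d, y, a, b⟩⟩, c.ctr.eu, c.one, fun _ a _ _ l =>
    cb_ind_eq_zero.2 (iff_of_true (capH_sub hB c a) (hB l (capH_sub hB c a)))⟩

theorem ind_diff (h : Z ⊆ B) (x : P) : ind (B \ Z) x = ind B x - ind Z x := by
  by_cases a : x ∈ Z
  · simp [ind, a, h a]
  · by_cases b : x ∈ B <;> simp [ind, a, b]

/-- a potential that jumps only into `B \ Z` vanishes off `B \ Z` -/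
theorem vanish (h : Amb Y) (hB : Bal Y B) (c : CapH H A (cb (ind B)) Z) {g : P → ℤ}
    (h0 : ∀ x, x ∉ Y → g x = 0) (h1 : ∀ x, ∀ y ∈ cl Y, x ≤ y → y ∉ B \ Z → g x = g y) {p : P}
    (hp : p ∉ B \ Z) : g p = 0 := by
  have s := capH_sub hB.up c
  obtain ⟨y₀, a, x₀, b, d⟩ := c.ne
  have n := cb_ind_eq_one.1 (c.one y₀ a x₀ b d)
  have m : ∀ x y (l : x ≤ y), x ∉ B → y ∈ B → Ch.pr x y l ∈ mix B := fun x y l i j =>
    (mix_up hB.up).2 ⟨by simpa using j, by simpa using i⟩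
  have k := pot_zero h (g := fun x => if x ∈ B then g y₀ else g x) (a := 0)
    (fun x k => by simp only [if_neg fun j => k (hB.sub j), h0 x k]) fun x y k l => by
      by_cases j : y ∈ B
      · by_cases i : x ∈ B
        · simp only [if_pos i, if_pos j]
        · have := (hB.conn _ (m x y l i j) _ (m x₀ y₀ b n.1 n.2)).eq (g := fun c => g c.bot)
            fun c p e _ q => (h1 _ _ (cl_low c.bot_le_top (sub_cl (hB.sub ((mix_up hB.up).1 p).1)))
              (Ch.bot_anti q) fun r => ((mix_up hB.up).1 p).2 r.1).symm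
          simp only [Ch.bot_pr] at this
          rw [if_neg i, if_pos j, this]
          exact h1 _ _ (sub_cl (hB.sub n.2)) b fun r => r.2 a
      · rw [if_neg j, if_neg fun i => j (hB.up l i)]
        exact h1 x y k l fun r => j r.1
  by_cases j : p ∈ B
  · have := k y₀
    rw [if_pos n.2] at this
    rw [← this]
    exact (c.ctr.conn p (by_contra fun i => hp ⟨j, i⟩) y₀ a).eq fun x _ y q l =>
      h1 x y (sub_cl (hB.sub (s q))) l fun r => r.2 q
  · simpa only [if_neg j] using k p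

theorem sws (h : Amb Y) (hA : A ⊆ Y) (hH : IsLowerSet H) (hm : MfIn H A) (hB : Bal Y B)
    (c : CapH H A (cb (ind B)) Z) :
    ∃ B₁ B₂, Bal Y B₁ ∧ Bal Y B₂ ∧ Disjoint B₁ B₂ ∧ B₁ ∪ B₂ = B \ Z := by
  have v := capH_v hB.up hA hH hm c
  have sp := hB.sp h.toRg
  have z := v.z1 h.up ((s1_iff h.up).1 sp.toS1)
  have i := IsCoc.mk z.coc
  obtain ⟨T, -, t1, t2⟩ := v.sph h.up h.mf sp
  have e : EqE (cl Y) (cb (ind (B \ Z))) (cnt T + cnt Tᶜ) := fun x _ y q l => by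
    rw [← cnt_add_compl (T := T) z.mono x y ((dp_iff h.up).2 ⟨l, q⟩)]
    simp only [cb, Pi.sub_apply, ind_diff (capH_sub hB.up c)]; ring
  obtain ⟨g₁, g₂, a1, a2, b1, b2, c1, c2, d⟩ := enc_two h t1 t2
    (fun x k => ind_of_not fun j => k (hB.sub j.1)) e
  have key : ∀ x, ∀ y ∈ cl Y, x ≤ y → y ∉ B \ Z → g₁ x = g₁ y ∧ g₂ x = g₂ y := fun x y q l n => by
    have := c1 x (cl_low l q) y q l
    have := c2 x (cl_low l q) y q l
    have := e x (cl_low l q) y q l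
    have := cnt_nonneg (T := T) x y
    have := cnt_nonneg (T := Tᶜ) x y
    have := ind_nonneg (E := B \ Z) x
    simp only [cb, Pi.add_apply, ind_of_not n] at *
    omega
  have le : ∀ g, Pot Y g → ∀ x, g x ≤ 1 := fun g a x => by
    rcases a with ⟨B, -, rfl⟩ | ⟨L, -, -, rfl⟩
    · exact ind_le_one x
    · have := ind_nonneg (E := L) x
      simp only [Pi.neg_apply]; omega
  have up : ∀ g g' : P → ℤ, Pot Y g → Pot Y g' → (∀ p, p ∉ B \ Z → g p = 0) →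
      (∀ x, g x + g' x = ind (B \ Z) x) → ∃ B, Bal Y B ∧ g = ind B := fun g g' a a' b d =>
    a.resolve_right fun ⟨L, _, l, k⟩ => by
      obtain ⟨c, hc⟩ := Hk.Bal.ne l
      have e : g c.bot = -1 := by rw [k, Pi.neg_apply, ind_of_mem (E := L) hc]
      have := d c.bot
      have := le g' a' c.bot
      rw [ind_of_mem (by_contra fun j => by have := b _ j; omega)] at *
      omega
  obtain ⟨B₁, p1, rfl⟩ := up _ _ a1 a2
    (fun p => vanish h hB c b1 fun x y q l n => (key x y q l n).1) d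
  obtain ⟨B₂, p2, rfl⟩ := up _ _ a2 a1
    (fun p => vanish h hB c b2 fun x y q l n => (key x y q l n).2) fun x => (add_comm _ _).trans (d x)
  refine ⟨B₁, B₂, p1, p2, Set.disjoint_left.2 fun x i j => ?_, Set.ext fun x => ?_⟩
  · have := d x
    have := ind_le_one (E := B \ Z) x
    rw [ind_of_mem i, ind_of_mem j] at *
    omega
  · have := d x
    simp only [ind] at this
    rw [Set.mem_union]
    split_ifs at this <;> first | tauto | omega

/-- a connected set in the union of two disjoint upper sets -/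
theorem conn_two_up {B₁ B₂ : Set P} (h1 : IsUpperSet B₁) (h2 : IsUpperSet B₂) (d : Disjoint B₁ B₂)
    (hK : Conn K) (s : K ⊆ B₁ ∪ B₂) : K ⊆ B₁ ∨ K ⊆ B₂ :=
  (Flat.sub_or (B := B₁) (fun _ a _ _ l => cb_ind_eq_zero.2 ⟨h1 l, fun j => (s a).resolve_right
    fun i => Set.disjoint_left.1 d j (h2 l i)⟩) hK).imp_right fun k _ a =>
      (s a).resolve_left (Set.disjoint_left.1 k a)

theorem sws_lt {B₁ B₂ : Set P} (hH : IsLowerSet H) (hA : A ⊆ Y) (c : CapH H A (cb (ind B)) Z)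
    (h1 : IsUpperSet B₁) (h2 : IsUpperSet B₂) (d : Disjoint B₁ B₂) (e : B₁ ∪ B₂ = B \ Z) :
    ncmp (Cv (H ∩ cl Y) (cb (ind B₁))) < ncmp (Cv (H ∩ cl Y) (cb (ind B))) := by
  have s : B₁ ⊆ B \ Z := e ▸ Set.subset_union_left
  have k : ∀ x ∈ B, ∀ y ∈ H, x ≤ y → y ∈ B₁ → x ∈ B₁ := fun x a y b l j =>
    (show x ∈ B₁ ∪ B₂ from e ▸ ⟨a, fun i => (s j).2 (c.up x i y b l)⟩).resolve_right
      fun i => Set.disjoint_left.1 d j (h2 l i)
  obtain ⟨y, a, x, b, n⟩ := c.ne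
  have hy : y ∈ H ∩ cl Y := ⟨(c.sub a).1, sub_cl (hA (c.sub a).2)⟩
  refine ncmp_lt (fun q r => ⟨r.1, ?_⟩) (fun q r p i j => ⟨i.1, ?_⟩) (k := Ch.pr x y b)
    ⟨by simpa using ⟨(hH.inter cl_low) b hy, hy⟩, by simp [c.one y a x b n]⟩
    fun r => (s (by simpa using (cb_ind_pos.1 r.2).2)).2 a
  · have t := cb_ind_pos.1 r.2
    exact cb_ind_pos.2 ⟨fun i => t.1 (k _ i _ (r.1 _ q.top_mem).1 q.bot_le_top t.2), (s t.2).1⟩
  · have t := cb_ind_pos.1 r.2
    have t' := cb_ind_pos.1 i.2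
    exact cb_ind_pos.2 ⟨fun m => t'.1 (s m).1, j.elim (fun l => h1 (Ch.top_mono l) t.2)
      fun l => k _ t'.2 _ (r.1 _ q.top_mem).1 (Ch.top_mono l) t.2⟩

theorem conn_sd (h : Conn K) : Conn (Ch.top ⁻¹' K : Set (Ch P)) :=
  (Kh11.ce_top.ws_pre K).conn_iff.2 h

/-- surgery of `-cb (ind L)`: one of the two spheres has `K` inside -/
theorem low_two {L : Set P} (h : Amb Y) (hu : SP Y u) (hv : SP Y v) (hL : L ⊆ Y)
    (e : EqE (cl Y) (cb (-ind L)) (u + v)) (hK : Conn K) (s : K ⊆ L) :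
    ∃ L', IsLowerSet L' ∧ Bal (Ch.top ⁻¹' Y) (Ch.bot ⁻¹' L' : Set (Ch P)) ∧ K ⊆ L' ∧
      (EqE (cl Y) u (cb (-ind L')) ∨ EqE (cl Y) v (cb (-ind L'))) := by
  obtain ⟨g₁, g₂, a1, a2, -, -, c1, c2, d⟩ := enc_two h hu hv
    (fun x k => by simp [ind_of_not fun j => k (hL j)]) e
  have mem : ∀ {E : Set P} {x : P}, ind E x ≠ 0 → x ∈ E := fun k => by_contra fun j =>
    k (ind_of_not j)
  rcases a1 with ⟨B₁, p1, rfl⟩ | ⟨L₁, p1, q1, rfl⟩ <;>
    rcases a2 with ⟨B₂, p2, rfl⟩ | ⟨L₂, p2, q2, rfl⟩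
  · obtain ⟨x, hx⟩ := Hk.Bal.ne p1
    have := d x
    have := ind_nonneg (E := B₂) x
    have := ind_nonneg (E := L) x
    simp only [Pi.neg_apply, ind_of_mem hx] at *
    omega
  · refine ⟨L₂, p2, q2, fun x k => mem ?_, Or.inr c2⟩
    have := d x
    have := ind_nonneg (E := B₁) x
    simp only [Pi.neg_apply, ind_of_mem (s k)] at *
    omega
  · refine ⟨L₁, p1, q1, fun x k => mem ?_, Or.inl c1⟩
    have := d x
    have := ind_nonneg (E := B₂) x
    simp only [Pi.neg_apply, ind_of_mem (s k)] at *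
    omega
  · have t : ∀ x ∈ K, x ∈ L₁ ↔ x ∉ L₂ := fun x k => by
      have := d x
      simp only [Pi.neg_apply, ind_of_mem (s k)] at this
      simp only [ind] at this
      split_ifs at this <;> first | tauto | omega
    rcases Flat.sub_or (B := L₁) (fun x a y b l => cb_ind_eq_zero.2
      ⟨fun i => (t y b).2 fun j => (t x a).1 i (p2 l j), p1 l⟩) hK with k | k
    · exact ⟨L₁, p1, q1, k, Or.inl c1⟩
    · exact ⟨L₂, p2, q2, fun x a => by_contra fun j => Set.disjoint_left.1 k a ((t x a).2 j),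
        Or.inr c2⟩

theorem rev_neg {L : Set P} : rev (cb (-ind L)) = cb (ind (Ch.bot ⁻¹' L : Set (Ch P))) := by
  funext c d
  simp only [rev, cb, Pi.neg_apply]
  show _ = ind L d.bot - ind L c.bot
  ring

end

theorem swsStmt : SwsStmt := fun _ _ _ _ _ _ _ _ => sws

/-- the statement for `n` curves -/
def TraSN (n : ℕ) : Prop := ∀ (P : Type) [PartialOrder P] [Fintype P] (Y A H B K₀ : Set P),
  Amb Y → IsUpperSet A → A ⊆ Y → IsLowerSet H → MfIn H A → Bal Y B → IsLowerSet K₀ → Conn K₀ →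
    Disjoint K₀ (H ∩ A) → K₀ ⊆ B → ncmp (Cv (H ∩ cl Y) (cb (ind B))) = n →
    ∃ t f B', Tw P t f ∧ Bal (f ⁻¹' Y) B' ∧ f ⁻¹' K₀ ⊆ B' ∧
      NoCap (f ⁻¹' H) (f ⁻¹' A) (cb (ind B'))

theorem traSStmt (hR : RevStmt) : TraSStmt := by
  suffices k : ∀ n, TraSN n from fun P _ _ Y A H B K a b c d e f g h i j =>
    k _ P Y A H B K a b c d e f g h i j rfl
  intro n
  induction n using Nat.strong_induction_on with
  | _ n ih =>
  intro P _ _ Y A H B K h hA hAY hH hm hB hK cK dK sK e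
  by_cases nc : NoCap H A (cb (ind B))
  · exact ⟨lv0 P, id, B, Desc.refl, hB, sK, nc⟩
  simp only [NoCap, not_forall, not_and_or, not_not] at nc
  obtain ⟨Z, c | c⟩ := nc
  · obtain ⟨B₁, B₂, p1, p2, d, u⟩ := sws h hAY hH hm hB c
    rcases conn_two_up p1.up p2.up d cK (u ▸ fun x a => ⟨sK a, fun j =>
      Set.disjoint_left.1 dK a (c.sub j)⟩) with k | k
    · exact ih _ (e ▸ sws_lt hH hAY c p1.up p2.up d u) P Y A H B₁ K h hA hAY hH hm p1 hK cK dK k rfl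
    · exact ih _ (e ▸ sws_lt hH hAY c p2.up p1.up d.symm (Set.union_comm _ _ ▸ u)) P Y A H B₂ K h hA
        hAY hH hm p2 hK cK dK k rfl
  · have sp := hB.sp h.toRg
    obtain ⟨-, -, -, r1, -, r2, -, r3⟩ := hR P Y _ h.up sp.toS1
    have k := (r3 H A Z hH hA hAY).2 c
    have v := capV_rev hAY hH hm c k
    have h' := amb_sd h
    have z := (s1_iff h'.up).1 (r2 sp).toS1
    have z' := v.z1 h'.up z
    have i := IsCoc.mk z'.coc
    obtain ⟨T, t0, t1, t1'⟩ := v.sph h'.up h'.mf (r2 sp)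
    have dj : Disjoint Z B := (Flat.sub_or c.flat c.ctr.conn).resolve_left fun j =>
      let ⟨x, a, y, b, l, d⟩ := c.ne; (cb_ind_eq_one.1 (c.one x a y b l d)).1 (j a)
    have sum : ∀ q : Ch P, ind (Ch.bot ⁻¹' B ∪ Ch.top ⁻¹' H ∩ Ch.bot ⁻¹' Z) q =
        ind B q.bot + ind (Ch.top ⁻¹' H ∩ Ch.bot ⁻¹' Z) q := fun q => by
      by_cases a : q.bot ∈ B
      · have : q.bot ∉ Z := fun j => Set.disjoint_left.1 dj j a
        simp [ind, a, this]
      · simp [ind, a]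
    obtain ⟨L, l1, l2, l3, l4⟩ := low_two (K := Ch.top ⁻¹' K)
      (L := Ch.bot ⁻¹' B ∪ Ch.top ⁻¹' H ∩ Ch.bot ⁻¹' Z) h' t1 t1'
      (Set.union_subset (fun q j => h.up q.bot_le_top (hB.sub j)) v.low.sub)
      (fun x _ y q l => by
        rw [← cnt_add_compl (T := T) z'.mono x y ((dp_iff h'.up).2 ⟨l, q⟩)]
        simp only [cb, rev, Pi.sub_apply, Pi.neg_apply, sum]; ring)
      (conn_sd cK) fun q j => Or.inl (sK (hK q.bot_le_top j))
    obtain ⟨T', s0, s1, s2⟩ : ∃ T' : Set (Lv (Ch.top ⁻¹' Y) (rev (cb (ind B)) -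
        cb (ind (Ch.top ⁻¹' H ∩ Ch.bot ⁻¹' Z)))), Sat T' ∧ SP (Ch.top ⁻¹' Y) (cnt T') ∧
        EqE (cl (Ch.top ⁻¹' Y)) (cnt T') (cb (-ind L)) :=
      l4.elim (fun j => ⟨T, t0, t1, j⟩) fun j => ⟨Tᶜ, t0.compl, t1', j⟩
    have hH' : IsLowerSet (Ch.top ⁻¹' H : Set (Ch P)) := hH.preimage Ch.top_mono
    have hK' : IsLowerSet (Ch.top ⁻¹' K : Set (Ch P)) := hK.preimage Ch.top_mono
    have lt := v.ncmp_lt h'.up z (K := Ch.top ⁻¹' H ∩ cl (Ch.top ⁻¹' Y)) Set.inter_subset_right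
      Set.inter_subset_left (fun y a x l => ⟨v.low.dn y a x l, _, v.low.sub a, l⟩) s0
    have e1 := ws_ncmp (r1 _ (hH.inter cl_low) Set.inter_subset_right)
    have e2 := ws_ncmp ((hR _ _ _ h'.up (s1.toS1.congr s2.symm)).2.2.2.1 _ (hH'.inter cl_low)
      Set.inter_subset_right)
    rw [cv_congr (s2.mono Set.inter_subset_right), ← e2, rev_neg, Set.preimage_inter, ← cl_sd] at lt
    rw [Set.preimage_inter, ← cl_sd, e] at e1
    obtain ⟨t, f, B', a, b, d, g⟩ := ih _ (lt.trans_eq e1) (Ch (Ch P)) _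
      (Ch.top ⁻¹' (Ch.top ⁻¹' A)) _ _ (Ch.top ⁻¹' (Ch.top ⁻¹' K)) (amb_sd h')
      ((hA.preimage Ch.top_mono).preimage Ch.top_mono) (fun _ j => hAY j)
      (hH'.preimage Ch.top_mono) (mfIn_sd hH' (mfIn_sd hH hm)) l2 (hK'.preimage Ch.top_mono)
      (conn_sd (conn_sd cK)) (dK.preimage t2) (fun q j => l3 (hK' q.bot_le_top j)) rfl
    exact ⟨t, t2 ∘ f, B', (Cut21.desc2 (lv0 P)).trans a, b, d, g⟩

end Crest.Agent.X212.Hp13
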