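import Crest.Agent.X212.Nat75.Reg

/-!
# X212 / Hp13 (helper13): TW-REG, wall systems that correspond outside a wall
-/

set_option autoImplicit false
set_option linter.unusedSectionVars false
noncomputable section
open Set Function

namespace Crest.Agent.X212.Hp13.Tw
open M M.Sys Nat75

variable {X X' : Type} [TopologicalSpace X] [TopologicalSpace X'] {A A' A₀ : Type}

/-- the outside of a wall with its band (`G75.hf · · true`) -/
abbrev Vo (S : Sys X A) (R : A) : Set X := (S.w R).sd true ∪ (S.w R).band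

/-- the pieces outside the wall `R` -/
def Po (S : Sys X A) (R : A) (c : Set A) : Set (Reg A) := {ρ | S.Piece c ρ ∧ S.U ρ ⊆ (S.w R).sd true}

/-- the walls `f a`, `f' a` correspond under `φ`, which is defined outside `R` -/
structure LC (S : Sys X A) (S' : Sys X' A') (f : A₀ ↪ A) (f' : A₀ ↪ A') (φ : PartialEquiv X X')
    (R : A₀) : Prop where
  sub : ∀ a, (S.w (f a)).band ⊆ φ.source
  sub' : ∀ a, (S'.w (f' a)).band ⊆ φ.target
  sd : ∀ a b, ∀ x ∈ φ.source, φ x ∈ (S'.w (f' a)).sd b ↔ x ∈ (S.w (f a)).sd b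
  band : ∀ a, ∀ x ∈ φ.source, φ x ∈ (S'.w (f' a)).band ↔ x ∈ (S.w (f a)).band
  V : (S.w (f R)).sd true ⊆ φ.source
  V' : (S'.w (f' R)).sd true ⊆ φ.target

/-- the sets of walls `t`, `t'` are matched outside `R` -/
structure Mo (S : Sys X A) (S' : Sys X' A') (f : A₀ ↪ A) (f' : A₀ ↪ A') (R : A₀) (t : Set A)
    (t' : Set A') : Prop where
  l : ∀ a ∈ t, (S.w a).band ⊆ Vo S (f R) → ∃ a₀, f a₀ = a ∧ f' a₀ ∈ t'
  r : ∀ a ∈ t', (S'.w a).band ⊆ Vo S' (f' R) → ∃ a₀, f' a₀ = a ∧ f a₀ ∈ t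

variable {S : Sys X A} {S' : Sys X' A'} {f : A₀ ↪ A} {f' : A₀ ↪ A'} {φ : PartialEquiv X X'} {R a : A₀}
  {ρ π : Reg A} {π' : Reg A'} {c t : Set A} {c' t' : Set A'} {x : X} {r : A}

/-! ### counting -/

theorem eq_img (h : t ⊆ range f) (h' : t' ⊆ range f') (e : ∀ a, f a ∈ t ↔ f' a ∈ t') :
    t = f '' (f ⁻¹' t) ∧ t' = f' '' (f ⁻¹' t) :=
  ⟨(image_preimage_eq_of_subset h).symm, by
    rw [show f ⁻¹' t = f' ⁻¹' t' from Set.ext e, image_preimage_eq_of_subset h']⟩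

theorem ncard_eq (h : t ⊆ range f) (h' : t' ⊆ range f') (e : ∀ a, f a ∈ t ↔ f' a ∈ t') :
    t.ncard = t'.ncard := by
  rw [(eq_img h h' e).2, ncard_image_of_injective _ f'.injective, ← ncard_image_of_injective _ f.injective,
    ← (eq_img h h' e).1]

theorem fsum_eq {N : Type} [AddCommMonoid N] (h : t ⊆ range f) (h' : t' ⊆ range f')
    (e : ∀ a, f a ∈ t ↔ f' a ∈ t') {g : A → N} {g' : A' → N} (k : ∀ a, f a ∈ t → g (f a) = g' (f' a)) :
    ∑ᶠ a ∈ t, g a = ∑ᶠ a ∈ t', g' a := by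
  rw [(eq_img h h' e).2, finsum_mem_image f'.injective.injOn]
  conv_lhs => rw [(eq_img h h' e).1, finsum_mem_image f.injective.injOn]
  exact finsum_mem_congr rfl k

theorem pl_pl (h : bd ρ ⊆ range f) : pl f f' (pl f' f ρ) = ρ := funext fun a => by
  by_cases k : ∃ a₀, f a₀ = a
  · obtain ⟨a, rfl⟩ := k
    rw [pl_f, pl_f]
  · exact (extend_apply' _ _ _ k).trans (by_contra fun e => k (h (Ne.symm e)))

/-! ### one system -/

theorem band_ne (r : A) : (S.w r).band.Nonempty := ((S.w r).ne true).mono inter_subset_left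

theorem not_sub (r : A) (b : Bool) : ¬(S.w r).band ⊆ (S.w r).sd b := fun h =>
  let ⟨_, k⟩ := (S.w r).ne (!b); (S.w r).not_mem_sd (h k.1) k.2

/-- a compatible wall that meets the outside is outside -/
theorem out_of_mem {a : A} (h : a ≠ r → S.Cmp r a) (hx : x ∈ (S.w a).band) (hv : x ∈ Vo S r) :
    (S.w a).band ⊆ Vo S r := by
  by_cases e : a = r
  · exact e ▸ subset_union_right
  · exact (Wall.band_subset (h e) hx (hv.resolve_right fun k => disjoint_left.1 (h e) k hx)).trans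
      subset_union_left

theorem sd_of_out {a : A} (h : S.Cmp r a) (k : (S.w a).band ⊆ Vo S r) : (S.w a).band ⊆ (S.w r).sd true :=
  fun _ hx => (k hx).resolve_right fun e => disjoint_left.1 h e hx

theorem cmp_of (hc : S.Cell (insert r c)) {a : A} (ha : a ∈ c) (e : a ≠ r) : S.Cmp r a :=
  hc (mem_insert _ _) (mem_insert_of_mem _ ha) e.symm

theorem Po.bd (hc : S.Cell (insert r c)) (h : ρ ∈ Po S r c) {a : A} (ha : a ∈ bd ρ) :
    (S.w a).band ⊆ Vo S r :=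
  let ⟨b, e⟩ := mem_bd.1 ha
  let ⟨_, k⟩ := (S.w a).ne b
  out_of_mem (cmp_of hc (h.1.bd_subset ha)) k.1 (.inl (h.2 (h.1.adj a b e k)))

theorem Po.inn (h : ρ ∈ Po S r c) {a : A} (ha : a ∈ S.inn ρ) : (S.w a).band ⊆ Vo S r :=
  (ha.2.1.trans h.2).trans subset_union_left

variable [ConnectedSpace X] [ConnectedSpace X']

theorem inn_cmp (hc : S.Cell c) (h : S.Piece c π) (k : r ∈ S.inn π) {a : A} (ha : a ∈ c) : S.Cmp r a := by
  by_cases e : π a = none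
  · exact (h.toIsReg.outer e (fun a' k' => hc ha (h.bd_subset k') (by rintro rfl; exact k' e))
      (h.not_inn a ha)).1.mono_left k.2.1
  · exact k.2.2 a e

theorem inn_cell (hc : S.Cell c) (h : S.Piece c π) (k : r ∈ S.inn π) : S.Cell (insert r c) :=
  pairwise_insert.2 ⟨hc, fun _ ha _ => ⟨inn_cmp hc h k ha, (inn_cmp hc h k ha).symm⟩⟩

/-- an inner wall has the outside on the side of `r` -/
theorem vo_sub {a : A} {b : Bool} (h : S.Cmp r a) (k : (S.w a).band ⊆ (S.w r).sd false)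
    (k' : (S.w r).band ⊆ (S.w a).sd b) : Vo S r ⊆ (S.w a).sd b := Wall.nest h k k'

/-- the inside of an outer wall is outside -/
theorem ins_sub {a : A} (h : S.Cmp r a) (k : (S.w a).band ⊆ (S.w r).sd true)
    (k' : (S.w r).band ⊆ (S.w a).sd true) : (S.w a).sd false ∪ (S.w a).band ⊆ (S.w r).sd true :=
  Wall.nest h.symm k' k

/-! ### two systems -/

theorem Mo.symm (h : Mo S S' f f' R t t') : Mo S' S f' f R t' t := ⟨h.r, h.l⟩

namespace LC
variable (h : LC S S' f f' φ R)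
include h

theorem symm : LC S' S f' f φ.symm R :=
  ⟨h.sub', h.sub, fun a b x k => by rw [← h.sd a b _ (φ.map_target k), φ.right_inv k],
    fun a x k => by rw [← h.band a _ (φ.map_target k), φ.right_inv k], h.V', h.V⟩

theorem vs : Vo S (f R) ⊆ φ.source := union_subset h.V (h.sub R)

theorem vo (k : x ∈ φ.source) : φ x ∈ Vo S' (f' R) ↔ x ∈ Vo S (f R) :=
  or_congr (h.sd R true x k) (h.band R x k)

theorem core (a : A₀) (k : x ∈ φ.source) : φ x ∈ (S'.w (f' a)).core ↔ x ∈ (S.w (f a)).core :=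
  forall_congr' fun b => (h.sd a b x k).not

theorem ssub {T : Set X} {T' : Set X'} (k : ∀ x ∈ (S.w (f a)).band, φ x ∈ T' ↔ x ∈ T) :
    (S'.w (f' a)).band ⊆ T' ↔ (S.w (f a)).band ⊆ T :=
  ⟨fun e x hx => (k x hx).1 (e ((h.band a x (h.sub a hx)).2 hx)), fun e y hy => by
    have m := (h.symm.band a y (h.sub' a hy)).2 hy
    rw [← φ.right_inv (h.sub' a hy)]
    exact (k _ m).2 (e m)⟩

theorem cmp (a b : A₀) : S'.Cmp (f' a) (f' b) ↔ S.Cmp (f a) (f b) := by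
  simp only [Cmp, ← subset_compl_iff_disjoint_right]
  exact h.ssub fun x k => (h.band b x (h.sub a k)).not

theorem side (a a' : A₀) (b : Bool) :
    (S'.w (f' a)).band ⊆ (S'.w (f' a')).sd b ↔ (S.w (f a)).band ⊆ (S.w (f a')).sd b :=
  h.ssub fun x k => h.sd a' b x (h.sub a k)

theorem out (a : A₀) : (S'.w (f' a)).band ⊆ Vo S' (f' R) ↔ (S.w (f a)).band ⊆ Vo S (f R) :=
  h.ssub fun _ k => h.vo (h.sub a k)

theorem iff (m : Mo S S' f f' R t t') (k : (S.w (f a)).band ⊆ Vo S (f R)) : f' a ∈ t' ↔ f a ∈ t :=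
  ⟨fun e => let ⟨_, e1, e2⟩ := m.r _ e ((h.out a).2 k); f'.injective e1 ▸ e2,
    fun e => let ⟨_, e1, e2⟩ := m.l _ e k; f.injective e1 ▸ e2⟩

/-- the outer part of `t` -/
theorem mo (k : ∀ a ∈ t, (S.w a).band ⊆ Vo S (f R) → a ∈ range f) :
    Mo S S' f f' R t (f' '' {a | f a ∈ t ∧ (S.w (f a)).band ⊆ Vo S (f R)}) :=
  ⟨fun a ha e => by obtain ⟨a, rfl⟩ := k a ha e; exact ⟨a, rfl, a, ⟨ha, e⟩, rfl⟩,
    fun _ ⟨a, ha, e⟩ _ => ⟨a, e, ha.1⟩⟩

theorem cell (hc : S.Cell c) {D : Set A₀} (k : ∀ a ∈ D, f a ∈ c) : S'.Cell (f' '' D) := by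
  rintro _ ⟨a, ha, rfl⟩ _ ⟨b, hb, rfl⟩ e
  exact (h.cmp a b).2 (hc (k a ha) (k b hb) fun e' => e (congrArg f' (f.injective e')))

theorem U (hρ : bd ρ ⊆ range f) (k : x ∈ φ.source) : φ x ∈ S'.U (pl f' f ρ) ↔ x ∈ S.U ρ := by
  refine ⟨fun e a b e' => ?_, fun e a b e' => ?_⟩
  · obtain ⟨a, rfl⟩ := hρ (mem_bd_of e')
    exact (h.sd a b x k).1 (e _ b ((pl_f a).trans e'))
  · obtain ⟨a, rfl⟩ := pl_bd (mem_bd_of e')
    exact (h.sd a b x k).2 (e _ b ((pl_f a).symm.trans e'))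

theorem inn (hρ : bd ρ ⊆ range f) (a : A₀) : f' a ∈ S'.inn (pl f' f ρ) ↔ f a ∈ S.inn ρ := by
  refine and_congr (by rw [pl_f]) (and_congr (h.ssub fun _ k => h.U hρ (h.sub a k))
    ⟨fun k b e => ?_, fun k b e => ?_⟩)
  · obtain ⟨b, rfl⟩ := hρ e
    exact (h.cmp a b).1 (k _ fun e' => e ((pl_f b).symm.trans e'))
  · obtain ⟨b, rfl⟩ := pl_bd e
    exact (h.cmp a b).2 (k _ fun e' => e ((pl_f b).trans e'))

theorem isReg (hρ : bd ρ ⊆ range f) (k : S.IsReg ρ) : S'.IsReg (pl f' f ρ) := by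
  refine ⟨(h.cell k.cell (D := f ⁻¹' bd ρ) fun _ => id).mono fun a ha => ?_, fun a b e y hy => ?_⟩
  · obtain ⟨a, rfl⟩ := pl_bd ha
    exact ⟨a, fun e => ha ((pl_f a).trans e), rfl⟩
  · obtain ⟨a, rfl⟩ := pl_bd (mem_bd_of e)
    have m := h.sub' a hy.1
    rw [← φ.right_inv m]
    exact (h.U hρ (φ.map_target m)).2 (k.adj _ b ((pl_f a).symm.trans e)
      ⟨(h.symm.band a y m).2 hy.1, (h.symm.sd a b y m).2 hy.2⟩)

/-! ### the root -/

theorem root (hc : S.Cell c) (m : Mo S S' f f' R c c') (p : S.Piece c π) (p' : S'.Piece c' π')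
    (k : f R ∈ S.inn π) (k' : f' R ∈ S'.inn π') (hv : x ∈ Vo S (f R)) (hx : x ∈ S.U π) :
    φ x ∈ S'.U π' := fun a b e => by
  have q := k'.2.2 a (mem_bd_of e)
  have s : (S'.w (f' R)).band ⊆ (S'.w a).sd b := fun y hy => k'.2.1 hy a b e
  obtain ⟨_ | _, q'⟩ := Wall.exists_side q
  · exact vo_sub q q' s ((h.vo (h.vs hv)).2 hv)
  · obtain ⟨a, rfl, ha⟩ := m.r a (p'.bd_subset (mem_bd_of e)) (q'.trans subset_union_left)
    obtain ⟨b', hb⟩ := p.side hc ha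
    obtain ⟨y, hy⟩ := band_ne (S := S) (f R)
    rw [h.sd a b x (h.vs hv), (S.w _).sd_inj ((h.side R a b).1 s hy) (hb (k.2.1 hy))]
    exact hb hx

variable (hc : S.Cell c) (hc' : S'.Cell c') (m : Mo S S' f f' R c c') (p : S.Piece c π)
  (p' : S'.Piece c' π') (k : f R ∈ S.inn π) (k' : f' R ∈ S'.inn π')
include hc hc' m p p' k k'

theorem root_iff (hv : x ∈ Vo S (f R)) : φ x ∈ S'.U π' ↔ x ∈ S.U π :=
  ⟨fun e => φ.left_inv (h.vs hv) ▸ h.symm.root hc' m.symm p' p k' k ((h.vo (h.vs hv)).2 hv) e,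
    h.root hc m p p' k k' hv⟩

theorem root_inn (o : (S.w (f a)).band ⊆ Vo S (f R)) (e : f a ∈ S.inn π) : f' a ∈ S'.inn π' := by
  refine ⟨by_contra fun n => p.not_inn _ ((h.iff m o).1 (p'.bd_subset n)) e,
    (h.ssub fun x hx => h.root_iff hc hc' m p p' k k' (o hx)).2 e.2.1, fun a' ha => by_contra fun n => ?_⟩
  obtain ⟨y, h1, h2⟩ := not_disjoint_iff.1 n
  obtain ⟨a', rfl, h3⟩ := m.r a' (p'.bd_subset ha)
    (out_of_mem (fun _ => k'.2.2 a' ha) h2 ((h.out a).2 o h1))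
  exact n ((h.cmp a a').2 (inn_cmp hc p e h3))

theorem root_inn_iff (o : (S.w (f a)).band ⊆ Vo S (f R)) : f' a ∈ S'.inn π' ↔ f a ∈ S.inn π :=
  ⟨h.symm.root_inn hc' hc m.symm p' p k' k ((h.out a).2 o), h.root_inn hc hc' m p p' k k' o⟩

end LC

/-! ### outer pieces -/

/-- cells that are matched outside `R` -/
structure CC (S : Sys X A) (S' : Sys X' A') (f : A₀ ↪ A) (f' : A₀ ↪ A') (φ : PartialEquiv X X')
    (R : A₀) (c : Set A) (c' : Set A') : Prop extends LC S S' f f' φ R, Mo S S' f f' R c c' where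
  cl : S.Cell (insert (f R) c)
  cl' : S'.Cell (insert (f' R) c')

namespace CC
variable (h : CC S S' f f' φ R c c')
include h

theorem symm : CC S' S f' f φ.symm R c' c := ⟨h.toLC.symm, h.toMo.symm, h.cl', h.cl⟩

/-- sub-cells -/
theorem sep {P : A → Prop} {P' : A' → Prop} (e : ∀ a, P' (f' a) ↔ P (f a)) :
    CC S S' f f' φ R {a ∈ c | P a} {a ∈ c' | P' a} :=
  ⟨h.toLC, ⟨fun a ha k => let ⟨b, e1, e2⟩ := h.l a ha.1 k; ⟨b, e1, e2, (e b).2 (e1 ▸ ha.2)⟩,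
    fun a ha k => let ⟨b, e1, e2⟩ := h.r a ha.1 k; ⟨b, e1, e2, (e b).1 (e1 ▸ ha.2)⟩⟩,
    h.cl.mono (insert_subset_insert (sep_subset _ _)), h.cl'.mono (insert_subset_insert (sep_subset _ _))⟩

theorem cores {T : Set X} (hT : T ⊆ Vo S (f R)) (k : Disjoint T (S.cores c)) :
    Disjoint (φ '' T) (S'.cores c') := by
  rw [disjoint_left]
  rintro _ ⟨x, hx, rfl⟩ e
  obtain ⟨a, ha, e⟩ := mem_iUnion₂.1 e
  obtain ⟨a, rfl, ha'⟩ := h.r a ha (out_of_mem (cmp_of h.cl' ha) (Wall.core_subset _ e)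
    ((h.vo (h.vs (hT hx))).2 (hT hx)))
  exact disjoint_left.1 k hx (mem_biUnion ha' ((h.core a (h.vs (hT hx))).1 e))

theorem cores_iff {T : Set X} (hT : T ⊆ Vo S (f R)) :
    Disjoint (φ '' T) (S'.cores c') ↔ Disjoint T (S.cores c) :=
  ⟨fun k => φ.symm_image_image_of_subset_source (hT.trans h.vs) ▸ h.symm.cores
    (image_subset_iff.2 fun _ hx => (h.vo (h.vs (hT hx))).2 (hT hx)) k, h.cores hT⟩

variable (hρ : ρ ∈ Po S (f R) c)
include hρ

theorem bd : bd ρ ⊆ range f := fun a ha =>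
  let ⟨b, e, _⟩ := h.l a (hρ.1.bd_subset ha) (Po.bd h.cl hρ ha); ⟨b, e⟩

theorem po : pl f' f ρ ∈ Po S' (f' R) c' := by
  have g := h.isReg (h.bd hρ) hρ.1.toIsReg
  have s : Sys.bd (pl f' f ρ) ⊆ c' := fun a ha => by
    obtain ⟨a, rfl⟩ := pl_bd ha
    have : f a ∈ Sys.bd ρ := fun e => ha ((pl_f a).trans e)
    exact (h.iff h.toMo (Po.bd h.cl hρ this)).2 (hρ.1.bd_subset this)
  obtain ⟨b, hb⟩ : ∃ b, S'.U (pl f' f ρ) ⊆ (S'.w (f' R)).sd b := by
    rcases e : pl f' f ρ (f' R) with _ | b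
    · exact (g.outer e (fun a k => cmp_of h.cl' (s k) (by rintro rfl; exact k e)) fun k =>
        not_sub _ _ (((h.inn (h.bd hρ) R).1 k).2.1.trans hρ.2)).2
    · exact ⟨b, fun y k => k _ b e⟩
  obtain ⟨x, hx⟩ := hρ.1.toIsReg.nonempty
  have m := h.V (hρ.2 hx)
  obtain rfl := (S'.w _).sd_inj (hb ((h.U (h.bd hρ) m).2 hx)) ((h.sd R true x m).2 (hρ.2 hx))
  refine ⟨⟨g, s, fun a ha k => ?_⟩, hb⟩
  obtain ⟨a, rfl, ha'⟩ := h.r a ha ((k.2.1.trans hb).trans subset_union_left)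
  exact hρ.1.not_inn _ ha' ((h.inn (h.bd hρ) a).1 k)

theorem img : S'.U (pl f' f ρ) = φ '' S.U ρ :=
  Subset.antisymm (fun y k => have m := h.V' ((h.po hρ).2 k)
    ⟨φ.symm y, (h.U (h.bd hρ) (φ.map_target m)).1 ((φ.right_inv m).symm ▸ k), φ.right_inv m⟩)
    (image_subset_iff.2 fun _ k => (h.U (h.bd hρ) (h.V (hρ.2 k))).2 k)

theorem sub_iff {T : Set X} {T' : Set X'} (k : ∀ x ∈ S.U ρ, φ x ∈ T' ↔ x ∈ T) :
    S'.U (pl f' f ρ) ⊆ T' ↔ S.U ρ ⊆ T := by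
  rw [h.img hρ, image_subset_iff]
  exact forall₂_congr k

omit hρ in
/-- **the outer pieces correspond** -/
theorem bij : BijOn (pl f' f) (Po S (f R) c) (Po S' (f' R) c') :=
  InvOn.bijOn (f' := pl f f') ⟨fun _ k => pl_pl (h.bd k), fun _ k => pl_pl (h.symm.bd k)⟩
    (fun _ => h.po) fun _ => h.symm.po

omit hρ in
theorem bij_sep {P : Reg A → Prop} {P' : Reg A' → Prop}
    (e : ∀ ρ ∈ Po S (f R) c, P' (pl f' f ρ) ↔ P ρ) :
    BijOn (pl f' f) {ρ ∈ Po S (f R) c | P ρ} {ρ ∈ Po S' (f' R) c' | P' ρ} :=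
  ⟨fun ρ k => ⟨h.po k.1, (e ρ k.1).2 k.2⟩, h.bij.injOn.mono (sep_subset _ _), fun _ k =>
    let ⟨ρ, k1, k2⟩ := h.bij.surjOn k.1; ⟨ρ, ⟨k1, (e ρ k1).1 (k2 ▸ k.2)⟩, k2⟩⟩

end CC

end Crest.Agent.X212.Hp13.Tw
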