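import Crest.Agent.X212.Hp13.TwA
import Crest.Agent.X212.Twn5.Defs
import Crest.Agent.X212.Tm38.Sm
import Crest.Agent.X212.Ins26.D0

/-!
# X212 / Hp13 (helper13): TW-REG, regions and numbers of twin scenes
-/

set_option autoImplicit false
set_option linter.unusedSectionVars false
noncomputable section
open Set Function

namespace Crest.Agent.X212.Hp13.Tw
open An M M.Sys G75 Ins26 Jb7 Rf65 Nat75 Num57
open Line51 (Ln)

section sys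
variable {X A : Type} [TopologicalSpace X] [ConnectedSpace X] [Finite A] {S : Sys X A} {c : Set A}
  {π ρ : Reg A} {r e : A}

/-- the pieces inside the wall `r` -/
def Pi (S : Sys X A) (r : A) (c : Set A) : Set (Reg A) := {ρ | S.Piece c ρ ∧ S.U ρ ⊆ (S.w r).sd false}

theorem fsum_pcs (hc : S.Cell c) (p : S.Piece c π) (k : r ∈ S.inn π) (g : Reg A → ℝ) :
    ∑ᶠ ρ ∈ {ρ | S.Piece c ρ}, g ρ = g π + ∑ᶠ ρ ∈ Po S r c, g ρ + ∑ᶠ ρ ∈ Pi S r c, g ρ := by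
  have n : r ∉ c := fun e => p.not_inn r e k
  rw [show {ρ | S.Piece c ρ} = insert π (Po S r c ∪ Pi S r c) from Set.ext fun ρ => ⟨fun q => ?_, ?_⟩,
    finsum_mem_insert _ (fun q => q.elim (fun q => not_sub _ _ (k.2.1.trans q.2))
      fun q => not_sub _ _ (k.2.1.trans q.2)) (toFinite _), finsum_mem_union (disjoint_left.2
      fun ρ q q' => let ⟨_, hx⟩ := q.1.toIsReg.nonempty; (S.w r).not_mem_sd (q.2 hx) (q'.2 hx))
      (toFinite _) (toFinite _), add_assoc]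
  · by_cases i : r ∈ S.inn ρ
    · exact .inl ((existsUnique_inn hc n fun _ => inn_cmp hc p k).unique ⟨q, i⟩ ⟨p, k⟩)
    obtain ⟨_ | _, hb⟩ := (IsReg.outer q.toIsReg (by_contra fun e => n (q.bd_subset e))
      (fun a e => inn_cmp hc p k (q.bd_subset e)) i).2
    exacts [.inr (.inr ⟨q, hb⟩), .inr (.inl ⟨q, hb⟩)]
  · rintro (rfl | q | q)
    exacts [p, q.1, q.1]

theorem Pi.bd (hc : ∀ a ∈ c, S.Cmp r a) (h : ρ ∈ Pi S r c) : (∃ a b, ρ a = some b) ∧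
    ∀ a b, ρ a = some b → ¬(S.w a).band ⊆ Vo S r := by
  refine ⟨by_contra fun n => ?_, fun a b e k => ?_⟩
  · exact not_sub r false fun x _ => h.2 fun a b e => (n ⟨a, b, e⟩).elim
  · obtain ⟨x, hx⟩ := (S.w a).ne b
    exact (S.w r).not_mem_sd (sd_of_out (hc a (h.1.bd_subset (mem_bd_of e))) k hx.1) (h.2 (h.1.adj a b e hx))

theorem pi_empty (hc : ∀ a ∈ c, S.Cmp r a) (o : ∀ a ∈ c, (S.w a).band ⊆ Vo S r) : Pi S r c = ∅ :=
  eq_empty_of_forall_notMem fun _ h => let ⟨⟨a, b, e⟩, k⟩ := Pi.bd hc h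
    k a b e (o a (h.1.bd_subset (mem_bd_of e)))

theorem pi_one (hc : S.Cell c) (hr : ∀ a ∈ c, S.Cmp r a) (he : e ∈ c)
    (s : (S.w e).sd false ⊆ (S.w r).sd false) (o : ∀ a ∈ c, a = e ∨ (S.w a).band ⊆ Vo S r) :
    ∃ ρ, S.Piece c ρ ∧ Pi S r c = {ρ} ∧ S.U ρ = (S.w e).sd false := by
  obtain ⟨ρ, ⟨p, q⟩, u⟩ := existsUnique_adj hc he false
  have m : ρ ∈ Pi S r c := ⟨p, fun _ k => s (k e _ q)⟩
  have a : ∀ ρ ∈ Pi S r c, ∀ a b, ρ a = some b → a = e := fun ρ h a b k =>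
    (o a (h.1.bd_subset (mem_bd_of k))).resolve_right ((Pi.bd hr h).2 a b k)
  have U : ∀ ρ ∈ Pi S r c, ∀ b, ρ e = some b → (S.w e).sd b ⊆ S.U ρ := fun ρ h b k x hx a' b' k' => by
    obtain rfl := a ρ h a' b' k'
    exact Option.some.inj (k.symm.trans k') ▸ hx
  refine ⟨ρ, p, eq_singleton_iff_unique_mem.2 ⟨m, fun ρ' h => u ρ' ⟨h.1, ?_⟩⟩,
    Subset.antisymm (fun _ k => k e _ q) (U ρ m _ q)⟩
  obtain ⟨a', b, k⟩ := (Pi.bd hr h).1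
  obtain rfl := a ρ' h a' b k
  cases b
  · exact k
  · obtain ⟨_ | _, t⟩ := Wall.exists_side (hr _ he).symm
    exacts [(not_sub _ _ (t.trans s)).elim, (not_sub _ _ (t.trans ((U ρ' h _ k).trans h.2))).elim]

end sys

variable {κ lam : Type} [Fintype κ] [Fintype lam] [DecidableEq lam] {Lm : LM κ lam}
  {S S' : Scene Lm} {V : Set S.X.M}

/-- numbers of all pieces, with their sums -/
theorem exists_nums (i : S.L) (c : S.M.Cl) (hp : ∀ a ∈ c.1, S.M.pin a) : ∃ β sg l2 : Reg S.A → ℝ,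
    (∀ ρ, S.M.sys.Piece c.1 ρ → S.Nb i (S.M.sys.U ρ) (β ρ) (sg ρ) (l2 ρ)) ∧ ∀ b s l, S.Nb i univ b s l →
      ∑ᶠ ρ ∈ {ρ | S.M.sys.Piece c.1 ρ}, β ρ = b + c.1.ncard ∧
      ∑ᶠ ρ ∈ {ρ | S.M.sys.Piece c.1 ρ}, (l2 ρ - sg ρ) = l - s := by
  choose! β sg l2 h using fun ρ (k : S.M.sys.Piece c.1 ρ) => exists_nb k (fun a e => hp a (k.bd_subset e)) i
  refine ⟨β, sg, l2, h, fun b s l k => ?_⟩
  obtain ⟨c, hc⟩ := c
  lift c to Finset S.A using toFinite c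
  rw [ncard_coe_finset]
  exact Tm38.sum_nb S i c β sg l2 b s l hc hp k h

/-- the matched walls in `V` -/
abbrev Ao (m : Mt S S' V) : Type := {a : m.A₀ // (S.M.sys.w (m.I.f a)).band ⊆ V}

/-- the identification of the walls in `V` -/
abbrev Io (m : Mt S S' V) : MId S.M S'.M (Ao m) := m.I.re (.subtype _)

theorem nb_push (m : Mt S S' V) (i : m.L₀) {U : Set S.X.M} (hV : U ⊆ V) {β sg l2 : ℝ}
    (h : S.Nb (m.ι i) U β sg l2) : S'.Nb (m.ι' i) (m.I.ψ '' U) β sg l2 := by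
  obtain ⟨ι, _, _, e, d, k, h1, h2, h3⟩ := h
  have hU : U ⊆ m.I.ψ.source := hV.trans (m.lid i).sub
  have p := Dr59.pd_mp m.I.ψ hU
  have s := m.I.ori.mono hU
  have q := (S'.N (m.ι' i)).ok.mono (subset_univ (m.I.ψ '' U))
  have a : (⟨fun z => (S'.N (m.ι' i)).p (m.I.ψ z), 0⟩ : Ln S.X.E S.X.M lam).On S.X.I U :=
    (q.pull p).congr k.op (fun _ _ => rfl) fun y _ => (congrFun (Dr59.pm_zero _) y).symm
  have b := (S.N (m.ι i)).ok.mono (subset_univ U)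
  refine ⟨ι, _, _, _, d, k.push m.I.ψ hU S'.M.ori s, ?_, h2,
    h3.trans (Finset.sum_congr rfl fun n _ => ?_)⟩
  · rw [h1, ← (LinearEquiv.ofBijective _ (Dr59.pd_st_bij (k := 1) m.I.ψ k.op hU)).finrank_eq]
  · rw [(k.cs n).ip_psh m.I.ψ hU S'.M.ori k.ori s, (k.cs n).ip_congr (c := Dr59.pm _ _ m.I.ψ _)
      (c' := Ln.F S.X.I ⟨fun z => (S'.N (m.ι' i)).p (m.I.ψ z), 0⟩) fun y hy => by
        rw [← q.F_pull (Dr59.pd_open m.I.ψ k.op hU) k.op p hy]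
        exact a.F_congr k.op (fun _ _ => rfl) (fun y _ => congrFun (Dr59.pm_zero _) y) hy,
      (k.cs n).ip_coh k.ori (a.cl_F k.op).sm (b.cl_F k.op).sm (Line51.Uni.ex_F
        (L := ⟨(S.N (m.ι i)).p, 0⟩) (L' := ⟨fun z => (S'.N (m.ι' i)).p (m.I.ψ z), 0⟩) k.op
        ((m.lid i).uni.mono hV) b a)]

/-- **twin scenes** -/
structure TS (m : Mt S S' V) (R : Ao m) (i : m.L₀) (E : Finset S.A) (z : ℕ) : Prop where
  V : V = hf S.M (m.I.f R) true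
  img : m.I.ψ '' hf S.M (m.I.f R) true = hf S'.M (m.I.f' R) true
  ok : S.OK
  ok' : S'.OK
  ri : RWI S (m.ι i) (m.I.f R) E 1 z
  ds : DS S' (m.ι' i) (m.I.f' R)
  rn : RN S (m.ι i) S' (m.ι' i)

namespace TS
variable {m : Mt S S' V} {R : Ao m} {i : m.L₀} {E : Finset S.A} {z : ℕ} (h : TS m R i E z)
include h

theorem lc0 : LC S.M.sys S'.M.sys m.I.f m.I.f' m.I.ψ.toPartialEquiv R.1 :=
  have s : hf S.M (m.I.f R) true ⊆ m.I.ψ.source := h.V.ge.trans (m.lid i).sub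
  ⟨m.I.sub, m.I.symm.sub, m.I.sd, fun a _ => Met55.mem_band m.I a,
    subset_union_left.trans s, fun _ k => let ⟨_, a, b⟩ := h.img.ge (.inl k); b ▸ m.I.ψ.map_source (s a)⟩

theorem lc : LC S.M.sys S'.M.sys (Io m).f (Io m).f' m.I.ψ.toPartialEquiv R :=
  ⟨fun a => h.lc0.sub a, fun a => h.lc0.sub' a, fun a => h.lc0.sd a, fun a => h.lc0.band a, h.lc0.V,
    h.lc0.V'⟩

theorem out (a : Ao m) : (S.M.sys.w ((Io m).f a)).band ⊆ Vo S.M.sys ((Io m).f R) := a.2.trans h.V.le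

theorem rg {a : m.A₀} (k : (S.M.sys.w (m.I.f a)).band ⊆ Vo S.M.sys ((Io m).f R)) :
    ∃ a₁ : Ao m, a₁.1 = a := ⟨⟨a, k.trans h.V.ge⟩, rfl⟩

omit h in
theorem pin (a : Ao m) : S'.M.pin ((Io m).f' a) ↔ S.M.pin ((Io m).f a) := m.I.pin a

omit h in
theorem bk : ∀ l ∈ S'.ls, ∃ a, (Io m).f' a = l ∧ (Io m).f a ∈ S.ls := fun l hl => by
  obtain ⟨a, ha, rfl⟩ := Finset.mem_map.1 (m.ls' ▸ hl)
  exact ⟨⟨a, subset_union_right.trans (m.hf_sub ha)⟩, rfl, m.lsub (Finset.mem_map_of_mem _ ha)⟩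

/-- the pinch walls are inside -/
theorem not_out {a : S.A} (k : a ∈ E) : ¬(S.M.sys.w a).band ⊆ Vo S.M.sys ((Io m).f R) := fun o =>
  let ⟨_, hx⟩ := band_ne (S := S.M.sys) a
  Wall.not_mem_sd _ ((h.ri.pin a k).2.2 (.inr hx)) (sd_of_out (h.ri.pin a k).2.1 o hx)

theorem ls_side {l : S.A} (hl : l ∈ S.ls) {b : Bool}
    (k : (S.M.sys.w l).band ⊆ (S.M.sys.w (m.I.f R)).sd b) : hf S.M l false ⊆ (S.M.sys.w (m.I.f R)).sd b :=
  have := S.M.con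
  let ⟨_, _, w⟩ := h.ri.rw
  Wall.nest (w.cmp l hl).symm (h.ok.lsi l hl _ (fun e => w.nl (e ▸ hl)) (w.cmp l hl)) k

theorem ls_out {a : Ao m} (k : (Io m).f a ∈ S.ls) :
    hf S.M ((Io m).f a) false ⊆ (S.M.sys.w ((Io m).f R)).sd true :=
  let ⟨_, _, w⟩ := h.ri.rw
  h.ls_side k (sd_of_out (w.cmp _ k) (h.out a))

theorem ls_mem {a : Ao m} (k : (Io m).f a ∈ S.ls) : a.1 ∈ m.ls :=
  (Finset.mem_map' _).1 ((m.lin _ k).2 ((h.ls_out k).trans (subset_union_left.trans h.V.ge)))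

theorem ls_iff (a : Ao m) : (Io m).f' a ∈ S'.ls ↔ (Io m).f a ∈ S.ls :=
  ⟨fun k => let ⟨_, e, k'⟩ := bk _ k; (Io m).f'.injective e ▸ k',
    fun k => m.ls' ▸ Finset.mem_map_of_mem _ (h.ls_mem k)⟩

theorem nb_img (a : Ao m) (k k') : S'.nb ⟨(Io m).f' a, k'⟩ = m.I.ψ '' S.nb ⟨(Io m).f a, k⟩ :=
  m.nb_img h.ok h.ok' (h.ls_mem k) k k' i

theorem card : (S.ls.card : ℝ) - S'.ls.card + 1 = z := by
  classical
  obtain ⟨_, _, w⟩ := h.ri.rw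
  have e : S.ls = lsI S (m.I.f R) ∪ m.ls.map m.I.f := Finset.Subset.antisymm (fun l hl => by
    obtain ⟨_ | _, k⟩ := Wall.exists_side (w.cmp l hl)
    exacts [Finset.mem_union_left _ (Finset.mem_filter.2 ⟨hl, h.ls_side hl k⟩), Finset.mem_union_right _
      ((m.lin l hl).2 ((h.ls_side hl k).trans (subset_union_left.trans h.V.ge)))])
    (Finset.union_subset (Finset.filter_subset _ _) m.lsub)
  have d : Disjoint (lsI S (m.I.f R)) (m.ls.map m.I.f) := Finset.disjoint_left.2 fun l k k' => by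
    obtain ⟨a, ha, rfl⟩ := Finset.mem_map.1 k'
    obtain ⟨x, hx⟩ := band_ne (S := S.M.sys) (m.I.f a)
    exact Wall.not_mem_sd _ ((Finset.mem_filter.1 k).2 (.inr hx))
      (h.ls_out (a := ⟨a, subset_union_right.trans (m.hf_sub ha)⟩) (m.lsub k') (.inr hx))
  rw [← h.ri.card, m.ls', e, Finset.card_union_of_disjoint d, Finset.card_map, Finset.card_map]
  push_cast; ring

/-- **the levels** -/
theorem kz (j : ℕ) (n : ℤ) : kz S' (m.ι' i) j n = kz S (m.ι i) j (n - 1) - z / 4 := by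
  obtain ⟨_, _, _, a⟩ := exists_nb_univ (m.ι i)
  obtain ⟨_, _, _, b⟩ := exists_nb_univ (m.ι' i)
  obtain ⟨e1, e2⟩ := h.rn _ _ _ _ _ _ a b
  rw [Ins26.kz, Ins26.kz, d0_eq a, d0_eq b, e1, e2, ← h.card]
  push_cast; ring

variable {c : S.M.Cl} {c' : S'.M.Cl}
  (C : CC S.M.sys S'.M.sys (Io m).f (Io m).f' m.I.ψ.toPartialEquiv R c.1 c'.1)
  (o : ∀ a ∈ c.1, a ∈ E ∨ (S.M.sys.w a).band ⊆ Vo S.M.sys ((Io m).f R))
  (o' : c'.1 ⊆ range (Io m).f') (one : ∀ e ∈ E, ∀ e' ∈ E, e ∈ c.1 → e' ∈ c.1 → e = e')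
include C o o' one

/-- **RelN** -/
theorem rel (c₀ : S.M.Cl) (π₀ : Reg S.A) (e0 : c₀.1 = {a ∈ c.1 | S.M.pin a}) (p : S.M.sys.Piece c₀.1 π₀)
    (k : (Io m).f R ∈ S.M.sys.inn π₀) (β sg l2 : ℝ) (N : S.Nb (m.ι i) (S.M.sys.U π₀) β sg l2) :
    ∃ (c₀' : S'.M.Cl) (π₀' : Reg S'.A) (β' sg' l2' : ℝ), c₀'.1 = {a ∈ c'.1 | S'.M.pin a} ∧
      S'.M.sys.Piece c₀'.1 π₀' ∧ (Io m).f' R ∈ S'.M.sys.inn π₀' ∧
      S'.Nb (m.ι' i) (S'.M.sys.U π₀') β' sg' l2' ∧ β = β' + 1 ∧ l2 - sg - zc c E z = l2' - sg' ∧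
      (∀ ρ ∈ Twn5.OP ((Io m).f R) c, S'.M.sys.U (pl (Io m).f' (Io m).f ρ) ⊆ S'.M.sys.U π₀' ↔
        S.M.sys.U ρ ⊆ S.M.sys.U π₀) ∧
      ∀ a, (Io m).f a ∈ cylW c → ((Io m).f' a ∈ S'.M.sys.inn π₀' ↔ (Io m).f a ∈ S.M.sys.inn π₀) := by
  have := S.M.con
  have := S'.M.con
  let c₀' : S'.M.Cl := ⟨{a ∈ c'.1 | S'.M.pin a}, c'.2.mono (sep_subset _ _)⟩
  have C₀ : CC S.M.sys S'.M.sys (Io m).f (Io m).f' m.I.ψ.toPartialEquiv R c₀.1 c₀'.1 := e0 ▸ C.sep pin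
  obtain ⟨_, _, _, _, _, w⟩ := h.ds
  have cm' : ∀ a ∈ c₀'.1, S'.M.sys.Cmp ((Io m).f' R) a := fun a ha =>
    cmp_of C₀.cl' ha fun e => w.np (e ▸ ha.2 :)
  obtain ⟨π₀', p', k'⟩ := (existsUnique_inn (a := (Io m).f' R) c₀'.2 (fun e => w.np e.2) cm').exists
  obtain ⟨B, G, L, n, s⟩ := exists_nums (m.ι i) c₀ fun a ha => (e0.le ha).2
  obtain ⟨B', G', L', n', s'⟩ := exists_nums (m.ι' i) c₀' fun a ha => ha.2
  refine ⟨c₀', π₀', _, _, _, rfl, p', k', n' _ p', and_assoc.1 ⟨?_, fun ρ hρ => C.sub_iff hρ fun x hx =>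
    C₀.root_iff c₀.2 c₀'.2 C₀.toMo p p' k k' (.inl (hρ.2 hx)),
    fun a _ => C₀.root_inn_iff c₀.2 c₀'.2 C₀.toMo p p' k k' (h.out a)⟩⟩
  obtain ⟨rfl, rfl, rfl⟩ := nb_uniq N (n _ p)
  obtain ⟨_, _, _, a⟩ := exists_nb_univ (m.ι i)
  obtain ⟨_, _, _, b⟩ := exists_nb_univ (m.ι' i)
  obtain ⟨e1, e2⟩ := h.rn _ _ _ _ _ _ a b
  obtain ⟨s1, s2⟩ := s _ _ _ a
  obtain ⟨t1, t2⟩ := s' _ _ _ b
  have u := fun ρ (q : ρ ∈ Po S.M.sys ((Io m).f R) c₀.1) => nb_uniq (C₀.img q ▸ nb_push m i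
    (q.2.trans (subset_union_left.trans h.V.ge)) (n ρ q.1)) (n' _ (C₀.po q).1)
  rw [fsum_pcs c₀.2 p k] at s1 s2
  rw [fsum_pcs c₀'.2 p' k', pi_empty cm' fun a ha => by
    obtain ⟨a, rfl⟩ := o' ha.1; exact (C.out a).2 (h.out a), finsum_mem_empty] at t1 t2
  rw [← finsum_mem_eq_of_bijOn _ C₀.bij fun ρ q => (u ρ q).1] at t1
  rw [← finsum_mem_eq_of_bijOn (f := fun ρ => L ρ - G ρ) _ C₀.bij fun ρ q => by
    rw [(u ρ q).2.1, (u ρ q).2.2]] at t2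
  have cm := fun a => inn_cmp (a := a) c₀.2 p k
  have z1 := h.card
  have r' : c₀'.1 ⊆ range (Io m).f' := fun _ ha => o' ha.1
  by_cases q : ∃ e ∈ E, e ∈ c.1
  · obtain ⟨e, q1, q2⟩ := id q
    have q3 := h.ri.pin e q1
    have q4 : e ∈ c₀.1 := e0.ge ⟨q2, q3.1⟩
    have q5 : ∀ a ∈ c₀.1, a = e ∨ _ := fun a ha => (o a (e0.le ha).1).imp_left fun k =>
      one a k e q1 (e0.le ha).1 q2
    obtain ⟨ρ, r1, r2, r3⟩ := pi_one c₀.2 cm q4 (subset_union_left.trans q3.2.2) q5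
    obtain ⟨_, _, v1, v2⟩ := h.ri.cap e q1
    obtain ⟨v3, rfl, rfl⟩ := nb_uniq v1 (r3 ▸ n ρ r1)
    have cd : (c₀.1 \ {e}).ncard = c₀'.1.ncard := ncard_eq (fun a ha =>
      let ⟨b, k, _⟩ := C₀.l a ha.1 ((q5 a ha.1).resolve_left ha.2); ⟨b, k⟩) r' fun a =>
      (and_iff_left fun (k : _ = e) => h.not_out q1 (k ▸ h.out a)).trans
      (C₀.iff C₀.toMo (h.out a)).symm
    rw [r2, finsum_mem_singleton] at s1 s2
    rw [← ncard_sdiff_singleton_add_one q4, cd, Nat.cast_add, Nat.cast_one] at s1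
    rw [zc, if_pos q]
    constructor <;> linarith
  · have q5 : ∀ a ∈ c₀.1, _ := fun a ha => (o a (e0.le ha).1).resolve_left fun k => q ⟨a, k, (e0.le ha).1⟩
    rw [pi_empty cm q5, finsum_mem_empty] at s1 s2
    rw [ncard_eq (fun a ha => let ⟨b, k, _⟩ := C₀.l a ha (q5 a ha); ⟨b, k⟩) r' fun a =>
      (C₀.iff C₀.toMo (h.out a)).symm] at s1
    rw [zc, if_neg q]
    constructor <;> linarith

end TS

theorem ncard_le {A A' A₀ : Type} [Finite A'] {f : A₀ ↪ A} {f' : A₀ ↪ A'} {t : Set A} {t' : Set A'}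
    (h : t ⊆ range f) (e : ∀ a, f a ∈ t → f' a ∈ t') : t.ncard ≤ t'.ncard :=
  calc t.ncard = (f' '' (f ⁻¹' t)).ncard := ncard_eq h (image_subset_range _ _) fun _ =>
        (f'.injective.mem_set_image (s := f ⁻¹' t)).symm
    _ ≤ _ := ncard_le_ncard (image_subset_iff.2 e) (toFinite _)

theorem hd_eq {j N : ℕ} (F : Fam S j N) (i : S.L) {a : S.A ⊕ Unit} {x : S.A} :
    (F.job i).hd a = some x ↔ x ∈ hard S F.X ∧ a = .inl x := Sk.hd_eq (S := F.sk i) (r := 0) (n := 0)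

/-- **twin families** -/
structure TR (m : Mt S S' V) (R : Ao m) (i : m.L₀) (e : Bool → S.A) (z : ℕ) {j N : ℕ} (F : Fam S j N)
    (F' : Fam S' j N) (T : ℝ) : Prop extends TS m R i {e false, e true} z where
  fo : F.OK T
  fo' : F'.OK T
  X : F.X = {m.I.f R}
  X' : F'.X = {m.I.f' R}
  cells : ∀ σ₁ ∈ F.𝒦 (m.ι i), ∃ (σ : Finset m.A₀) (b : Bool), ∃ τ ⊆ σ.map m.I.f ∪ {m.I.f R, e b},
    σ₁ = cel τ (some false) ∧ cel (σ.map m.I.f' ∪ {m.I.f' R}) (some false) ∈ F'.𝒦 (m.ι' i)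

namespace TR
variable {m : Mt S S' V} {R : Ao m} {i : m.L₀} {e : Bool → S.A} {z j N : ℕ} {F : Fam S j N}
  {F' : Fam S' j N} {T : ℝ} (h : TR m R i e z F F' T)
include h

/-- a cell consists of matched outer walls and at most one pinch wall -/
theorem cel2 {σ₁} (k : σ₁ ∈ F.𝒦 (m.ι i)) : ∃ τ τ' b, σ₁ = ce0 τ ∧ ce0 τ' ∈ F'.𝒦 (m.ι' i) ∧
    ∀ a ∈ τ, a = e b ∨ ∃ a₀, (Io m).f a₀ = a ∧ (Io m).f' a₀ ∈ τ' := by
  have := S.M.con
  have := S'.M.con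
  obtain ⟨σ, b, τ, ht, rfl, k'⟩ := h.cells _ k
  refine ⟨τ, _, b, rfl, k', fun a ha => ?_⟩
  obtain ⟨_, _, e1, -, σ₃, k1, k2, -⟩ := h.fo'.cell _ _ k'
  rw [← Nat75.cel_inj e1] at k2
  obtain ⟨_, _, _, _, _, w⟩ := h.ds
  have r : m.I.f' R ∈ σ.map m.I.f' ∪ {m.I.f' R} := Finset.mem_union_right _ (Finset.mem_singleton_self _)
  rcases Finset.mem_union.1 (ht ha) with q | q
  · obtain ⟨a, qa, rfl⟩ := Finset.mem_map.1 q
    have q' := Finset.mem_union_left {m.I.f' R} (Finset.mem_map_of_mem m.I.f' qa)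
    exact .inr ⟨⟨a, ((h.lc0.out a).1 ((w.out _ k1 (k2 r) _ (k2 q')).elim
      (fun e => e ▸ subset_union_right) (·.trans subset_union_left))).trans h.V.ge⟩, rfl, q'⟩
  · rcases Finset.mem_insert.1 q with rfl | q
    exacts [.inr ⟨R, rfl, r⟩, .inl (Finset.mem_singleton.1 q)]

/-- **TW-REG** -/
theorem regI : Twn5.RegI (F.job (m.ι i)) (F'.job (m.ι' i)) (Io m).f (Io m).f' R {e false, e true} z := by
  intro c hR σ₁ hσ s hs hc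
  have := S.M.con
  have := S'.M.con
  obtain ⟨τ, τ', b, rfl, h2, K⟩ := h.cel2 hσ
  have eb : e b ∈ ({e false, e true} : Finset S.A) := by cases b <;> simp
  have K0 : ∀ a ∈ τ, (S.M.sys.w a).band ⊆ Vo S.M.sys ((Io m).f R) →
      ∃ a₀, (Io m).f a₀ = a ∧ (Io m).f' a₀ ∈ τ' := fun a ha o =>
    (K a ha).resolve_left fun k => h.not_out eb (k ▸ o)
  have K1 : ∀ a, (Io m).f a ∈ τ → (Io m).f' a ∈ τ' := fun a ha =>
    let ⟨_, k1, k2⟩ := K0 _ ha (h.out a); (Io m).f.injective k1 ▸ k2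
  have ct : ∀ a ∈ c.1, a ∈ τ := fun a ha => ((inf_iff h.fo h.ok hσ hs.1).1 (hc.ge ha)).1
  have cy : cylW c ⊆ range (Io m).f := fun a ha => (K a (ct a ha.1)).elim
    (fun k => (ha.2 (k ▸ (h.ri.pin _ eb).1)).elim) fun ⟨x, k, _⟩ => ⟨x, k⟩
  let c' : S'.M.Cl := ⟨(Io m).f' '' ((Io m).f ⁻¹' c.1), h.lc.cell c.2 fun _ => id⟩
  have C : CC S.M.sys S'.M.sys (Io m).f (Io m).f' m.I.ψ.toPartialEquiv R c.1 c'.1 :=
    ⟨h.lc, ⟨fun a ha o => let ⟨x, k, _⟩ := K0 a (ct a ha) o; ⟨x, k, x, show _ ∈ c.1 from k.symm ▸ ha, rfl⟩,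
      fun _ ⟨x, k1, k2⟩ _ => ⟨x, k2, k1⟩⟩, (insert_eq_of_mem hR).symm ▸ c.2,
      (insert_eq_of_mem (s := c'.1) ⟨R, hR, rfl⟩).symm ▸ c'.2⟩
  have nb : ∀ a k, S.nb ⟨(Io m).f a, k⟩ ⊆ (S.M.sys.w ((Io m).f R)).sd true := fun a k _ hx =>
    h.ls_out k (.inl hx)
  refine ⟨c', _, h2, rfl, fun s hs hc => ?_, cy, ?_, fun a _ => (h.ls_iff a).2, C.bij, fun a ha n => ?_,
    fun ρ k a => (C.inn (C.bd k) a).1, fun a b => (C.side b a true).2,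
    fun a ha _ k => let ⟨x, e, _⟩ := C.l a ha (k.trans subset_union_left); ⟨x, e⟩, fun P hP => ?_,
    fun P hP a k k' q x hx => ?_, fun a k k' q _ => ⟨?_, nb a k⟩,
    h.rel C (fun a ha => ?_) (image_subset_range _ _) fun e1 k1 e2 k2 q1 q2 => ?_⟩
  · have s0 := mem_sp.1 hs.1
    have sp : tr (Io m).f (Io m).f' s ∈ Job.sp (ce0 τ') := mem_sp.2 ⟨fun a ha => by
      by_cases k : ∃ x, (Io m).f' x = a
      · obtain ⟨x, rfl⟩ := k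
        exact (tr_f x).trans (s0.1 _ fun k => ha (K1 x k))
      · exact tr_out k, s0.2⟩
    refine ⟨⟨sp, tr_all (P := (· ∈ Icc (0 : ℝ) 1)) ⟨le_rfl, zero_le_one⟩ hs.2⟩, Set.ext fun a =>
      (inf_iff h.fo' h.ok' h2 sp).trans ⟨fun q => ?_, ?_⟩⟩
    · by_cases k : ∃ x, (Io m).f' x = a
      · obtain ⟨x, rfl⟩ := k
        rw [tr_f] at q
        exact ⟨x, hc.le ((inf_iff h.fo h.ok hσ hs.1).2 ⟨by_contra fun n =>
          zero_ne_one ((rho_of_le (s0.1 _ n).le).symm.trans q.2), q.2⟩), rfl⟩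
      · exact (zero_ne_one ((rho_of_le (tr_out k).le).symm.trans q.2)).elim
    · rintro ⟨x, k, rfl⟩
      rw [tr_f]
      exact ⟨K1 x (ct _ k), ((inf_iff h.fo h.ok hσ hs.1).1 (hc.ge k)).2⟩
  · rintro _ ⟨⟨x, k, rfl⟩, n⟩
    rcases cell_hard h.fo' h2 (K1 x (ct _ k)) with q | q | q
    exacts [(n q).elim, .inr q, .inl (Finset.mem_singleton.1 (h.X' ▸ q))]
  · obtain ⟨x, rfl⟩ := cy ha
    exact sd_of_out (c.2 hR ha.1 n.symm) (h.out x)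
  · have a0 : ∀ a ∈ (F.job (m.ι i)).lv (shX S {(Io m).f R}) (ce0 τ) c P,
        ∃ x ∈ τ, a = .inl x ∧ x ∉ c.1 ∧ ∃ π ∈ P, x ∈ S.M.sys.inn π := by
      rintro (x | u) ⟨q1, q2, q3⟩
      · have x1 := cel_none.1 q1
        have x2 := cell_hard h.fo hσ x1
        obtain ⟨π, p1, y, p2, p3⟩ := q3.resolve_left fun k => k x (h.X ▸ x2) rfl
        obtain rfl := Sum.inl.inj ((hd_eq _ _).1 p3).2
        exact ⟨x, x1, rfl, q2 x p3, π, p1, p2⟩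
      · cases q1
    refine ncard_le (f := (Io m).f.trans .inl) (f' := (Io m).f'.trans .inl) (fun a ha => ?_) fun a ha => ?_
    · obtain ⟨x, x1, rfl, -, π, p1, p2⟩ := a0 a ha
      obtain ⟨x, rfl, -⟩ := K0 x x1 (Po.inn (hP p1) p2)
      exact ⟨x, rfl⟩
    · obtain ⟨x, x1, x2, x3, π, p1, p2⟩ := a0 _ ha
      obtain rfl : (Io m).f a = x := Sum.inl.inj x2
      refine ⟨cel_none.2 (K1 a x1), fun y k k' => ?_, .inr ⟨_, mem_image_of_mem _ p1, _,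
        (C.inn (C.bd (hP p1)) a).2 p2, (hd_eq _ _).2 ⟨cell_hard h.fo' h2 (K1 a x1), rfl⟩⟩⟩
      obtain rfl : (Io m).f' a = y := Sum.inl.inj ((hd_eq _ _).1 k).2
      exact x3 ((C.iff C.toMo (h.out a)).1 k')
  · obtain ⟨_, ⟨π, p1, rfl⟩, p2⟩ := mem_iUnion₂.1 (q ((h.nb_img a k k').ge (mem_image_of_mem _ hx)))
    exact mem_biUnion p1 ((C.U (C.bd (hP p1)) (C.V (nb a k hx))).1 p2)
  · exact (C.cores_iff ((nb a k).trans subset_union_left)).1 ((h.nb_img a k k').subst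
      (motive := (Disjoint · _)) q)
  · exact (K a (ct a ha)).imp (fun (k : a = e b) => k ▸ eb) fun ⟨x, k, _⟩ => k ▸ h.out x
  · have u : ∀ a ∈ ({e false, e true} : Finset S.A), a ∈ c.1 → a = e b := fun a k q =>
      (K a (ct a q)).resolve_right fun ⟨x, k', _⟩ => h.not_out k (k' ▸ h.out x)
    exact (u _ k1 q1).trans (u _ k2 q2).symm

/-- the level, for `Twn5.GI.k` -/
theorem k_eq {d : ℕ} (n : F.n₀ = -(d + 1 : ℕ)) (n' : F'.n₀ = -d) :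
    (F'.job (m.ι' i)).k = (F.job (m.ι i)).k - z / 4 := by
  have := h.kz j (-d)
  rw [← n', show F'.n₀ - 1 = F.n₀ by rw [n, n']; push_cast; ring] at this
  exact this

end TR

section of
variable {R : S.A} (m : Mt S S' (hf S.M R true)) {R₀ : m.A₀} (hR : m.I.f R₀ = R)

/-- the wall `R₀` of `Rf65.TwStmt` as an outer wall -/
abbrev Ro : Ao m := ⟨R₀, hR.symm ▸ subset_union_right⟩

/-- `TR` from the texts of `Rf65.TwStmt` -/
theorem tr_of {e : Bool → S.A} {z j N : ℕ} {F : Fam S j N} {F' : Fam S' j N} {T : ℝ} {i : m.L₀}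
    {c : G75.Cn m.L₀ m.A₀} (img : m.I.ψ '' hf S.M R true = hf S'.M (m.I.f' R₀) true) (ok : S.OK)
    (ok' : S'.OK) (ri : RWI S (m.ι i) R {e false, e true} 1 z) (ds : DS S' (m.ι' i) (m.I.f' R₀))
    (rn : RN S (m.ι i) S' (m.ι' i)) (fo : F.OK T) (fo' : F'.OK T) (X : F.X = {R})
    (X' : F'.X = {m.I.f' R₀}) (h1 : ∀ i₁, ∀ σ₁ ∈ F.𝒦 i₁, ∃ i σ b, ∃ τ ⊆ σ.map m.I.f ∪ {R, e b},
      c i σ ≠ 0 ∧ i₁ = m.ι i ∧ σ₁ = cel τ (some false))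
    (h2 : ∀ σ, c i σ ≠ 0 → cel (σ.map m.I.f' ∪ {m.I.f' R₀}) (some false) ∈ F'.𝒦 (m.ι' i)) :
    TR m (Ro m hR) i e z F F' T :=
  ⟨⟨congrArg (hf S.M · true) hR.symm, (congrArg (m.I.ψ '' hf S.M · true) hR).trans img, ok, ok',
    hR.symm.subst (motive := (RWI S _ · _ 1 z)) ri, ds, rn⟩, fo, fo', X.trans (congrArg _ hR.symm), X',
    fun σ₁ k => let ⟨_, σ, b, τ, k1, k2, k3, k4⟩ := h1 _ σ₁ k
      ⟨σ, b, τ, hR.symm.subst (motive := fun r => τ ⊆ σ.map m.I.f ∪ {r, e b}) k1, k4,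
        h2 σ (m.ι.injective k3 ▸ k2)⟩⟩

end of

end Crest.Agent.X212.Hp13.Tw
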