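import Crest.Agent.X212.Hp13.TwB
import Crest.Agent.X212.Tw55.Defs

/-!
# X212 / Hp13 (helper13): `Tw55.RegStmt`
-/

set_option autoImplicit false
set_option linter.unusedSectionVars false
noncomputable section
open Set Function

namespace Crest.Agent.X212.Hp13.Tw
open An M M.Sys G75 Ins26 Jb7 Rf65 Nat75
open Tw55 (Tw0 Tw1)

variable {κ lam : Type} [Fintype κ] [Fintype lam] [DecidableEq lam] {Lm : LM κ lam}
  {S S' : Scene Lm} {V : Set S.X.M} {m : Mt S S' V} {R : Ao m} {i : m.L₀} {e : Bool → S.A} {d j N : ℕ}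
  {F : Fam S j N} {F' : Fam S' j N} {u : F.Wi ↪ F'.Wi} {T : ℝ}

theorem ts_of (h : Tw1 m R i e) : TS m R i {e false, e true} (1 + (lsI S ((Io m).f R)).card) :=
  ⟨h.hV, (congrArg (m.I.ψ '' ·) h.hV).symm.trans h.img, h.ok, h.ok', h.rwi, h.ds, h.rn⟩

theorem tr_of0 (h : Tw0 m R i e d F F' u T) : TR m R i e (1 + (lsI S ((Io m).f R)).card) F F' T := by
  refine ⟨ts_of h.toTw1, h.hF, h.hF', h.X, h.X', fun σ₁ k => ?_⟩
  obtain ⟨σ, b, hR, τ, k1, k2, -, k3⟩ := h.cell σ₁ k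
  refine ⟨σ.map (.subtype _), b, τ, k1.trans (Finset.insert_subset (by simp) ?_), k2, ?_⟩
  · rw [Finset.map_map]
    exact Finset.subset_union_left
  · rw [Finset.map_map]
    exact (Finset.union_eq_left.2 (Finset.singleton_subset_iff.2
      (Finset.mem_map_of_mem (Tw55.Io m).f' hR))).symm ▸ k3

variable (Lm) in
/-- **TW-REG** -/
theorem regStmt : Tw55.RegStmt Lm := fun _ _ _ _ _ _ _ _ _ _ _ _ _ _ h =>
  ⟨(tr_of0 h).regI, (tr_of0 h).k_eq h.n₀ h.n₀'⟩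

end Crest.Agent.X212.Hp13.Tw
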